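import Crest.Agent.N067.A.Modica

/-!
# Row 67, block X5 (helper54): the order calculus

`Ord a f`: the universal expression `f v` is smooth and all its partial derivatives are
`O(t^{a/2})` with constants independent of the solution `v`.
-/

set_option autoImplicit false

open MeasureTheory Laplacian InnerProductSpace Topology Filter Set
open scoped RealInnerProductSpace Gradient ContDiff

namespace Crest.Agent.N067

open Crest.Agent.R077

noncomputable section

variable {n : ℕ}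

/-- universal expressions -/
abbrev Fam (n : ℕ) := (EE n → ℝ) → EE n → ℝ

/-- smooth and `O(t^{a/2})` -/
def Ok0 (a : ℕ) (f : Fam n) : Prop := ∃ C : ℝ, 0 ≤ C ∧ ∀ v, Sol v →
  ContDiff ℝ ∞ (f v) ∧ ∀ x, |f v x| ≤ C * √(tt v x) ^ a

/-- derivatives up to order `k` are `O(t^{a/2})` -/
def Ok (a : ℕ) : ℕ → Fam n → Prop
  | 0, f => Ok0 a f
  | k + 1, f => Ok0 a f ∧ ∀ i, Ok a k fun v => pdv i (f v)

/-- all derivatives are `O(t^{a/2})` -/
def Ord (a : ℕ) (f : Fam n) : Prop := ∀ k, Ok a k f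

namespace Ok

variable {a b k : ℕ} {f g : Fam n}

theorem zero (h : Ok a k f) : Ok a 0 f := by
  cases k with
  | zero => exact h
  | succ k => exact h.1

theorem sm (h : Ok a k f) {v : EE n → ℝ} (hv : Sol v) : ContDiff ℝ ∞ (f v) := by
  obtain ⟨C, -, hC⟩ := h.zero
  exact (hC v hv).1

theorem diff (h : Ok a k f) {v : EE n → ℝ} (hv : Sol v) : Differentiable ℝ (f v) :=
  (h.sm hv).differentiable (by simp)

theorem congr (h : Ok a k f) (e : ∀ v, Sol v → f v = g v) : Ok a k g := by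
  induction k generalizing f g with
  | zero =>
    obtain ⟨C, h0, hC⟩ := h
    exact ⟨C, h0, fun v hv => e v hv ▸ hC v hv⟩
  | succ k ih =>
    refine ⟨?_, fun i => ih (h.2 i) fun v hv => by rw [e v hv]⟩
    obtain ⟨C, h0, hC⟩ := h.1
    exact ⟨C, h0, fun v hv => e v hv ▸ hC v hv⟩

theorem of_succ (h : Ok a (k + 1) f) : Ok a k f := by
  induction k generalizing f with
  | zero => exact h.1
  | succ k ih => exact ⟨h.1, fun i => ih (h.2 i)⟩

theorem of_le {j : ℕ} (h : Ok a k f) (hj : j ≤ k) : Ok a j f := by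
  induction hj with
  | refl => exact h
  | step _ ih => exact ih h.of_succ

theorem sqrt_le {v : EE n → ℝ} (x : EE n) : √(tt v x) ≤ 1 :=
  Real.sqrt_le_one.2 (tt_le_one v x)

theorem mono0 (h : Ok0 a f) (hb : b ≤ a) : Ok0 b f := by
  obtain ⟨C, h0, hC⟩ := h
  refine ⟨C, h0, fun v hv => ⟨(hC v hv).1, fun x => ((hC v hv).2 x).trans ?_⟩⟩
  exact mul_le_mul_of_nonneg_left
    (pow_le_pow_of_le_one (Real.sqrt_nonneg _) (sqrt_le x) hb) h0

theorem mono (h : Ok a k f) (hb : b ≤ a) : Ok b k f := by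
  induction k generalizing f with
  | zero => exact mono0 h hb
  | succ k ih => exact ⟨mono0 h.1 hb, fun i => ih (h.2 i)⟩

theorem add0 (h : Ok a 0 f) (h' : Ok a 0 g) : Ok a 0 fun v x => f v x + g v x := by
  obtain ⟨C, h0, hC⟩ := h
  obtain ⟨D, h1, hD⟩ := h'
  refine ⟨C + D, by positivity, fun v hv => ⟨(hC v hv).1.add (hD v hv).1, fun x => ?_⟩⟩
  have := abs_add_le (f v x) (g v x)
  have := (hC v hv).2 x
  have := (hD v hv).2 x
  linarith

theorem add (h : Ok a k f) (h' : Ok a k g) : Ok a k fun v x => f v x + g v x := by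
  induction k generalizing f g with
  | zero => exact add0 h h'
  | succ k ih =>
    refine ⟨add0 h.1 h'.1, fun i => (ih (h.2 i) (h'.2 i)).congr fun v hv => ?_⟩
    funext x
    exact (pdv_add (h.diff hv x) (h'.diff hv x) i).symm

theorem mul0 (h : Ok a 0 f) (h' : Ok b 0 g) : Ok (a + b) 0 fun v x => f v x * g v x := by
  obtain ⟨C, h0, hC⟩ := h
  obtain ⟨D, h1, hD⟩ := h'
  refine ⟨C * D, by positivity, fun v hv => ⟨(hC v hv).1.mul (hD v hv).1, fun x => ?_⟩⟩
  rw [abs_mul, pow_add]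
  calc _ ≤ (C * √(tt v x) ^ a) * (D * √(tt v x) ^ b) :=
        mul_le_mul ((hC v hv).2 x) ((hD v hv).2 x) (abs_nonneg _) (by positivity)
    _ = _ := by ring

theorem mul (h : Ok a k f) (h' : Ok b k g) : Ok (a + b) k fun v x => f v x * g v x := by
  induction k generalizing f g with
  | zero => exact mul0 h h'
  | succ k ih =>
    refine ⟨mul0 h.1 h'.1, fun i =>
      ((ih (h.2 i) h'.of_succ).add (ih h.of_succ (h'.2 i))).congr fun v hv => ?_⟩
    funext x
    exact (pdv_mul (h.diff hv x) (h'.diff hv x) i).symm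

theorem zero_fam : Ok a k fun (_ : EE n → ℝ) (_ : EE n) => (0 : ℝ) := by
  induction k with
  | zero => exact ⟨0, le_rfl, fun v _ => ⟨contDiff_const, fun x => by simp⟩⟩
  | succ k ih =>
    refine ⟨⟨0, le_rfl, fun v _ => ⟨contDiff_const, fun x => by simp⟩⟩, fun i => ih.congr ?_⟩
    intro v _
    funext x
    exact (pdv_const 0 i x).symm

theorem const (c : ℝ) : Ok 0 k fun (_ : EE n → ℝ) (_ : EE n) => c := by
  have h0 : Ok 0 0 fun (_ : EE n → ℝ) (_ : EE n) => c :=
    ⟨|c|, abs_nonneg _, fun v _ => ⟨contDiff_const, fun x => by simp⟩⟩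
  cases k with
  | zero => exact h0
  | succ k =>
    refine ⟨h0, fun i => zero_fam.congr fun v _ => ?_⟩
    funext x
    exact (pdv_const c i x).symm

theorem const_mul (h : Ok a k f) (c : ℝ) : Ok a k fun v x => c * f v x := by
  simpa using (const c).mul h

theorem neg (h : Ok a k f) : Ok a k fun v x => -f v x := by
  simpa using h.const_mul (-1)

theorem sub (h : Ok a k f) (h' : Ok a k g) : Ok a k fun v x => f v x - g v x := by
  simpa [sub_eq_add_neg] using h.add h'.neg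

theorem sum {ι : Type*} (s : Finset ι) {F : ι → Fam n} (h : ∀ j ∈ s, Ok a k (F j)) :
    Ok a k fun v x => ∑ j ∈ s, F j v x := by
  classical
  induction s using Finset.induction_on with
  | empty => simpa using zero_fam
  | insert j s hj ih =>
    simp only [Finset.sum_insert hj]
    exact (h j (by simp)).add (ih fun i hi => h i (by simp [hi]))

/-- composition with a smooth function of one variable -/
theorem comp {g : Fam n} (hg : ∀ k, Ok 0 k g) {φ : ℝ → ℝ} (hφ : ContDiff ℝ ∞ φ) :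
    Ok 0 k fun v x => φ (g v x) := by
  have h0 : ∀ {φ : ℝ → ℝ}, ContDiff ℝ ∞ φ → Ok 0 0 fun v x => φ (g v x) := by
    intro φ hφ
    obtain ⟨C, -, hC⟩ := hg 0
    obtain ⟨M, hM⟩ := (isCompact_Icc (a := -C) (b := C)).exists_bound_of_continuousOn
      hφ.continuous.continuousOn
    refine ⟨|M|, abs_nonneg _, fun v hv => ⟨hφ.comp (hC v hv).1, fun x => ?_⟩⟩
    have h1 := (hC v hv).2 x
    simp only [pow_zero, mul_one] at h1 ⊢
    exact (hM _ (abs_le.1 h1)).trans (le_abs_self _)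
  induction k generalizing φ with
  | zero => exact h0 hφ
  | succ k ih =>
    have hφ' : ContDiff ℝ ∞ (deriv φ) := (contDiff_infty_iff_deriv.1 hφ).2
    refine ⟨h0 hφ, fun i => ((ih hφ').mul ((hg (k + 1)).2 i)).congr fun v hv => ?_⟩
    funext x
    exact (pdv_comp ((hφ.differentiable (by simp)) _).hasDerivAt ((hg 0).diff hv x) i).symm

end Ok

namespace Ord

variable {a b : ℕ} {f g : Fam n}

theorem sm (h : Ord a f) {v : EE n → ℝ} (hv : Sol v) : ContDiff ℝ ∞ (f v) := (h 0).sm hv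

theorem cd (h : Ord a f) {v : EE n → ℝ} (hv : Sol v) (k : ℕ) : ContDiff ℝ k (f v) :=
  contDiff_infty.1 (h.sm hv) k

theorem diff (h : Ord a f) {v : EE n → ℝ} (hv : Sol v) : Differentiable ℝ (f v) := (h 0).diff hv

theorem cont (h : Ord a f) {v : EE n → ℝ} (hv : Sol v) : Continuous (f v) :=
  (h.sm hv).continuous

theorem bd (h : Ord a f) : ∃ C : ℝ, 0 ≤ C ∧ ∀ v, Sol v → ∀ x, |f v x| ≤ C * √(tt v x) ^ a := by
  obtain ⟨C, h0, hC⟩ := h 0
  exact ⟨C, h0, fun v hv => (hC v hv).2⟩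

theorem bd0 (h : Ord a f) : ∃ C : ℝ, 0 ≤ C ∧ ∀ v, Sol v → ∀ x, |f v x| ≤ C := by
  obtain ⟨C, h0, hC⟩ := (h 0).mono (Nat.zero_le a)
  exact ⟨C, h0, fun v hv x => by simpa using (hC v hv).2 x⟩

theorem bd1 (h : Ord 1 f) : ∃ C : ℝ, 0 ≤ C ∧ ∀ v, Sol v → ∀ x, |f v x| ≤ C * √(tt v x) := by
  simpa using h.bd

theorem bd2 (h : Ord 2 f) : ∃ C : ℝ, 0 ≤ C ∧ ∀ v, Sol v → ∀ x, |f v x| ≤ C * tt v x := by
  obtain ⟨C, h0, hC⟩ := h.bd
  refine ⟨C, h0, fun v hv x => ?_⟩
  have := hC v hv x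
  rwa [Real.sq_sqrt (hv.tt_nonneg x)] at this

theorem bd3 (h : Ord 3 f) :
    ∃ C : ℝ, 0 ≤ C ∧ ∀ v, Sol v → ∀ x, |f v x| ≤ C * (tt v x * √(tt v x)) := by
  obtain ⟨C, h0, hC⟩ := h.bd
  refine ⟨C, h0, fun v hv x => ?_⟩
  have := hC v hv x
  rwa [pow_succ, Real.sq_sqrt (hv.tt_nonneg x)] at this

theorem bd4 (h : Ord 4 f) : ∃ C : ℝ, 0 ≤ C ∧ ∀ v, Sol v → ∀ x, |f v x| ≤ C * tt v x ^ 2 := by
  obtain ⟨C, h0, hC⟩ := h.bd
  refine ⟨C, h0, fun v hv x => ?_⟩
  have := hC v hv x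
  rwa [show 4 = 2 * 2 from rfl, pow_mul, Real.sq_sqrt (hv.tt_nonneg x)] at this

theorem congr (h : Ord a f) (e : ∀ v, Sol v → f v = g v) : Ord a g := fun k => (h k).congr e

theorem congr' (h : Ord a f) (e : ∀ v, Sol v → ∀ x, f v x = g v x) : Ord a g :=
  h.congr fun v hv => funext (e v hv)

theorem mono (h : Ord a f) (hb : b ≤ a) : Ord b f := fun k => (h k).mono hb

theorem pdv (h : Ord a f) (i : Fin n) : Ord a fun v => pdv i (f v) := fun k => (h (k + 1)).2 i

theorem add (h : Ord a f) (h' : Ord a g) : Ord a fun v x => f v x + g v x :=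
  fun k => (h k).add (h' k)

theorem sub (h : Ord a f) (h' : Ord a g) : Ord a fun v x => f v x - g v x :=
  fun k => (h k).sub (h' k)

theorem neg (h : Ord a f) : Ord a fun v x => -f v x := fun k => (h k).neg

theorem mul (h : Ord a f) (h' : Ord b g) : Ord (a + b) fun v x => f v x * g v x :=
  fun k => (h k).mul (h' k)

theorem mul' {c : ℕ} (h : Ord a f) (h' : Ord b g) (hc : c ≤ a + b) :
    Ord c fun v x => f v x * g v x := (h.mul h').mono hc

theorem mul0 (h : Ord 0 f) (h' : Ord a g) : Ord a fun v x => f v x * g v x :=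
  h.mul' h' (by omega)

theorem mulr0 (h : Ord a f) (h' : Ord 0 g) : Ord a fun v x => f v x * g v x := h.mul h'

theorem sq (h : Ord a f) : Ord (a + a) fun v x => f v x ^ 2 := by
  simpa only [pow_two] using h.mul h

theorem const (c : ℝ) : Ord 0 fun (_ : EE n → ℝ) (_ : EE n) => c := fun _ => Ok.const c

theorem zero_fam : Ord a fun (_ : EE n → ℝ) (_ : EE n) => (0 : ℝ) := fun _ => Ok.zero_fam

theorem const_mul (h : Ord a f) (c : ℝ) : Ord a fun v x => c * f v x :=
  fun k => (h k).const_mul c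

theorem div_const (h : Ord a f) (c : ℝ) : Ord a fun v x => f v x / c := by
  simpa only [div_eq_inv_mul] using h.const_mul c⁻¹

theorem sum {ι : Type*} (s : Finset ι) {F : ι → Fam n} (h : ∀ j ∈ s, Ord a (F j)) :
    Ord a fun v x => ∑ j ∈ s, F j v x := fun k => Ok.sum s fun j hj => h j hj k

theorem usum {ι : Type*} [Fintype ι] {F : ι → Fam n} (h : ∀ j, Ord a (F j)) :
    Ord a fun v x => ∑ j, F j v x := sum _ fun j _ => h j

theorem comp (hg : Ord 0 g) {φ : ℝ → ℝ} (hφ : ContDiff ℝ ∞ φ) : Ord 0 fun v x => φ (g v x) :=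
  fun _ => Ok.comp hg hφ

theorem gin (h : Ord a f) (h' : Ord b g) : Ord (a + b) fun v => gin (f v) (g v) :=
  usum fun i => (h.pdv i).mul (h'.pdv i)

theorem gsq (h : Ord a f) : Ord (a + a) fun v => gsq (f v) := usum fun i => (h.pdv i).sq

theorem lap (h : Ord a f) : Ord a fun v => Δ (f v) :=
  (usum fun i => (h.pdv i).pdv i).congr' fun _ hv _ => (lap_eq (h.cd hv 2).contDiffAt).symm

end Ord

/-- HK in the form used by the block X5 (helper47): `v`, `∇d` have order `0`, `Hess d` order `1`,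
`t` order `2`; Harnack for `t`, crude and sharp. -/
structure HKStmt (n : ℕ) : Prop where
  v0 : Ord 0 fun v : EE n → ℝ => v
  n0 : ∀ i : Fin n, Ord 0 fun v => pdv i (dd v)
  b1 : ∀ i j : Fin n, Ord 1 fun v => hs (dd v) i j
  t2 : Ord 2 fun v : EE n → ℝ => tt v
  har : ∃ C : ℝ, 0 ≤ C ∧ ∀ v : EE n → ℝ, Sol v → ∀ x y, tt v y ≤ Real.exp (C * ‖x - y‖) * tt v x
  sharp : ∀ e : ℝ, 0 < e → ∃ C : ℝ, 0 ≤ C ∧ ∀ v : EE n → ℝ, Sol v → ∀ x y,
    qq v y ≤ C * Real.exp (Real.sqrt 2 * (1 + e) * ‖x - y‖) * qq v x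

end

end Crest.Agent.N067
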