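import Crest.Agent.N067.Y.Prof
import Crest.Agent.N067.A.HKS
import Crest.Agent.N067.A.Dual

/-!
# Row 67, block X5 (helper54): one-sided divergence theorem, weights, `pb`, `cut`, `Psi`, orders
-/

set_option autoImplicit false

open MeasureTheory Laplacian InnerProductSpace Topology Filter Set
open scoped RealInnerProductSpace Gradient ContDiff

namespace Crest.Agent.N067

open Crest.Agent.R077

noncomputable section

variable {n : ℕ}

/-! ### the basic orders -/

namespace Ord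

theorem v0 : Ord 0 fun v : EE n → ℝ => v := (hkS n).v0
theorem n0 (i : Fin n) : Ord 0 fun v => R077.pdv i (dd v) := (hkS n).n0 i
theorem b1 (i j : Fin n) : Ord 1 fun v => hs (dd v) i j := (hkS n).b1 i j
theorem b1' (i j : Fin n) : Ord 1 fun v => R077.pdv i (R077.pdv j (dd v)) := (hkS n).b1 i j
theorem t2 : Ord 2 fun v : EE n → ℝ => tt v := (hkS n).t2
theorem psi0 : Ord 0 fun v : EE n → ℝ => psi v := (const 1).sub v0.sq
theorem hsq2 : Ord 2 fun v : EE n → ℝ => hsq (dd v) := usum fun i => usum fun j => (b1 i j).sq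

/-- `⟪∇d, ∇f⟫` -/
theorem nor {a : ℕ} {f : Fam n} (h : Ord a f) : Ord a fun v => N067.gin (dd v) (f v) :=
  usum fun i => (n0 i).mul0 (h.pdv i)

theorem Lm {a : ℕ} {f : Fam n} (h : Ord a f) : Ord a fun v => N067.Lm v (f v) :=
  (h.lap.sub ((v0.const_mul (2 * Real.sqrt 2)).mul0 h.nor)).congr' fun v _ x => (Lm_eq v _ x).symm

theorem wg {a : ℕ} {f : Fam n} (h : Ord a f) (i j : Fin n) : Ord a fun v => Y.wg v (f v) i j :=
  ((n0 i).mul0 (h.pdv j)).sub ((n0 j).mul0 (h.pdv i))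

theorem tg {a : ℕ} {f : Fam n} (h : Ord a f) : Ord (a + a) fun v => Y.tg v (f v) :=
  (((const 1).sub (t2.mono (Nat.zero_le 2))).mul0 h.gsq).sub h.nor.sq

theorem os4 : Ord 4 fun v : EE n → ℝ => Y.os v :=
  usum fun i => usum fun j => (t2.wg i j).sq.add (t2.wg i j).gsq

/-- bound of the gradient -/
theorem grad_bd {a : ℕ} {f : Fam n} (h : Ord a f) :
    ∃ C : ℝ, 0 ≤ C ∧ ∀ v, Sol v → ∀ x, ‖∇ (f v) x‖ ≤ C * √(tt v x) ^ a := by
  obtain ⟨C, h0, hC⟩ := h.gsq.bd
  refine ⟨√C, Real.sqrt_nonneg _, fun v hv x => ?_⟩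
  have h1 := (le_abs_self _).trans (hC v hv x)
  rw [gsq_eq] at h1
  refine le_trans (le_abs_self _) (abs_le_of_sq_le_sq ?_ (by positivity))
  rw [mul_pow, Real.sq_sqrt h0, ← pow_mul, mul_two]
  exact h1

end Ord

namespace Y

/-! ### the divergence theorem -/

/-- ONE-SIDED DIVERGENCE THEOREM -/
theorem div_le {X : Fin n → EE n → ℝ} {h : EE n → ℝ} (hX : ∀ i, ContDiff ℝ 1 (X i))
    (hi : ∀ i, Integrable (X i)) (hh : Integrable h) (hle : ∀ x, h x ≤ ∑ i, pdv i (X i) x) :
    ∫ x, h x ≤ 0 := by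
  obtain ⟨η, C, hC, hη, hs, hb, hp, he⟩ := Ker.exists_cutoff n
  have hη1 : ∀ k, ContDiff ℝ 1 (η k) := fun k => contDiff_infty.1 (hη k) 1
  have hXc : ∀ i, Continuous (pdv i (X i)) := fun i => St.continuous_pdv (hX i) i
  have h1 : ∀ k, ∫ x, h x * η k x ≤ -∑ i, ∫ x, X i x * pdv i (η k) x := by
    intro k
    have e : ∀ i, ∫ x, pdv i (X i) x * η k x = -∫ x, X i x * pdv i (η k) x :=
      fun i => ibp_right (hX i) (hη1 k) (hs k) i
    have hint : ∀ i, Integrable fun x => pdv i (X i) x * η k x :=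
      fun i => St.int_cs (hXc i) (hη k).continuous (hs k)
    rw [← Finset.sum_neg_distrib, ← Finset.sum_congr rfl fun i _ => e i,
      ← integral_finsetSum _ fun i _ => hint i]
    refine integral_mono (hh.mul_bdd (c := 1) (hη k).continuous.aestronglyMeasurable
      (ae_of_all _ fun x => by rw [Real.norm_eq_abs, abs_of_nonneg (hb k x).1]; exact (hb k x).2))
      (integrable_finsetSum _ fun i _ => hint i) fun x => ?_
    simp only
    rw [← Finset.sum_mul]
    exact mul_le_mul_of_nonneg_right (hle x) (hb k x).1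
  have h2 : Tendsto (fun k => ∫ x, h x * η k x) atTop (𝓝 (∫ x, h x)) := by
    refine tendsto_integral_of_dominated_convergence (fun x => ‖h x‖)
      (fun k => hh.1.mul (hη k).continuous.aestronglyMeasurable) hh.norm
      (fun k => ae_of_all _ fun x => ?_) (ae_of_all _ fun x => ?_)
    · rw [norm_mul]
      refine mul_le_of_le_one_right (norm_nonneg _) ?_
      rw [Real.norm_eq_abs, abs_of_nonneg (hb k x).1]
      exact (hb k x).2
    · refine tendsto_const_nhds.congr' ?_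
      filter_upwards [he x] with k hk
      rw [hk.eq_of_nhds, mul_one]
  have h3 : ∀ i, Tendsto (fun k => ∫ x, X i x * pdv i (η k) x) atTop (𝓝 0) := by
    intro i
    have := tendsto_integral_of_dominated_convergence (μ := volume)
      (F := fun k x => X i x * pdv i (η k) x) (f := fun _ => 0) (fun x => ‖X i x‖ * C)
      (fun k => (hi i).1.mul (St.continuous_pdv (hη1 k) i).aestronglyMeasurable)
      ((hi i).norm.mul_const C) (fun k => ae_of_all _ fun x => ?_) (ae_of_all _ fun x => ?_)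
    · simpa using this
    · rw [norm_mul]
      exact mul_le_mul_of_nonneg_left (hp k i x) (norm_nonneg _)
    · refine tendsto_const_nhds.congr' ?_
      filter_upwards [he x] with k hk
      rw [pdv_congr hk, pdv_const, mul_zero]
  have h4 : Tendsto (fun k => -∑ i, ∫ x, X i x * pdv i (η k) x) atTop (𝓝 0) := by
    simpa using (tendsto_finsetSum Finset.univ fun i _ => h3 i).neg
  exact le_of_tendsto_of_tendsto' h2 h4 h1

/-- the form `∫ a ≤ ∫ b` -/
theorem div_le' {X : Fin n → EE n → ℝ} {a b : EE n → ℝ} (hX : ∀ i, ContDiff ℝ 1 (X i))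
    (hi : ∀ i, Integrable (X i)) (ha : Integrable a) (hb : Integrable b)
    (hle : ∀ x, a x ≤ b x + ∑ i, pdv i (X i) x) : ∫ x, a x ≤ ∫ x, b x := by
  have := div_le hX hi (ha.sub hb) fun x => by have := hle x; simp only [Pi.sub_apply]; linarith
  have e := integral_sub ha hb
  simp only [Pi.sub_apply] at this
  linarith

/-! ### weights -/

namespace Wt

variable {lam : ℝ} {om : EE n → ℝ}

theorem mono (h : Wt lam om) {l : ℝ} (hl : lam ≤ l) : Wt l om :=
  ⟨h.cd, h.pos, h.int, fun x => (h.lip x).trans (mul_le_mul_of_nonneg_right hl (h.pos x).le)⟩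

theorem cont (h : Wt lam om) : Continuous om := h.cd.continuous

theorem diff (h : Wt lam om) : Differentiable ℝ om := h.cd.differentiable (by simp)

theorem nonneg (h : Wt lam om) : 0 ≤ lam := by
  have h1 := (norm_nonneg _).trans (h.lip 0)
  exact nonneg_of_mul_nonneg_left h1 (h.pos 0)

theorem abs_pdv (h : Wt lam om) (i : Fin n) (x : EE n) : |pdv i om x| ≤ lam * om x :=
  (Ker.abs_pdv_le_fderiv om i x).trans ((norm_grad om x).symm.le.trans (h.lip x))

theorem abs_gin (h : Wt lam om) (f : EE n → ℝ) (x : EE n) :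
    |gin f om x| ≤ ‖∇ f x‖ * (lam * om x) :=
  (abs_gin_le f om x).trans (mul_le_mul_of_nonneg_left (h.lip x) (norm_nonneg _))

theorem abs_nor (h : Wt lam om) {v : EE n → ℝ} (hv : Sol v) (x : EE n) :
    |gin (dd v) om x| ≤ lam * om x := by
  refine (h.abs_gin _ x).trans (mul_le_of_le_one_left ?_ (hv.norm_grad_dd_le x))
  exact mul_nonneg h.nonneg (h.pos x).le

theorem le_exp (h : Wt lam om) (x y : EE n) : om y ≤ Real.exp (lam * ‖y - x‖) * om x :=
  le_exp_mul_of_log_grad (fun z _ => h.diff z) fun z _ => (norm_grad om z).symm.le.trans (h.lip z)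

/-- bounded continuous functions are integrable against the weight -/
theorem integ (h : Wt lam om) {f : EE n → ℝ} (hf : Continuous f) {M : ℝ} (hb : ∀ x, |f x| ≤ M) :
    Integrable fun x => f x * om x :=
  h.int.bdd_mul (c := M) hf.aestronglyMeasurable (ae_of_all _ hb)

/-- functions dominated by the weight are integrable -/
theorem integ' (h : Wt lam om) {f : EE n → ℝ} (hf : AEStronglyMeasurable f volume) {M : ℝ}
    (hb : ∀ x, |f x| ≤ M * om x) : Integrable f :=
  (h.int.const_mul M).mono' hf (ae_of_all _ hb)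

end Wt

/-! ### `pb` -/

section pb

variable {v : EE n → ℝ} {β : ℝ}

theorem pb_pos (hv : Sol v) (β : ℝ) (x : EE n) : 0 < pb β v x :=
  Real.rpow_pos_of_pos (hv.psi_pos x) _

theorem pb_le_psi (hv : Sol v) (hβ : 0 ≤ β) (x : EE n) : pb β v x ≤ psi v x := by
  have := Real.rpow_le_rpow_of_exponent_ge (hv.psi_pos x) (psi_le_one v x)
    (show (1 : ℝ) ≤ 1 + β by linarith)
  rwa [Real.rpow_one] at this

theorem pb_le_one (hv : Sol v) (hβ : 0 ≤ β) (x : EE n) : pb β v x ≤ 1 :=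
  (pb_le_psi hv hβ x).trans (psi_le_one v x)

theorem sq_le_pb (hv : Sol v) (hβ : β < 1) (x : EE n) : psi v x ^ 2 ≤ pb β v x := by
  have := Real.rpow_le_rpow_of_exponent_ge (hv.psi_pos x) (psi_le_one v x)
    (show 1 + β ≤ ((2 : ℕ) : ℝ) by push_cast; linarith)
  rwa [Real.rpow_natCast] at this

theorem pb_sm (hv : Sol v) (β : ℝ) : ContDiff ℝ ∞ (pb β v) :=
  hv.psi_sm.rpow_const_of_ne fun x => (hv.psi_pos x).ne'

theorem pb_cd (hv : Sol v) (β : ℝ) (k : ℕ) : ContDiff ℝ k (pb β v) := contDiff_infty.1 (pb_sm hv β) k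

theorem pb_cont (hv : Sol v) (β : ℝ) : Continuous (pb β v) := (pb_sm hv β).continuous

theorem pb_diff (hv : Sol v) (β : ℝ) : Differentiable ℝ (pb β v) :=
  (pb_sm hv β).differentiable (by simp)

theorem pdv_pb (hv : Sol v) (β : ℝ) (i : Fin n) (x : EE n) :
    pdv i (pb β v) x = -Real.sqrt 2 * (1 + β) * v x * pb β v x * pdv i (dd v) x := by
  have h0 := (hv.psi_pos x).ne'
  have h := pdv_comp (Real.hasDerivAt_rpow_const (x := psi v x) (p := 1 + β) (Or.inl h0))
    (hv.psi_sm.differentiable (by simp) x) i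
  have e : pb β v = fun y => psi v y ^ (1 + β) := rfl
  rw [e, h, hv.pdv_psi, Real.rpow_sub_one h0]
  field_simp

theorem gin_pb (hv : Sol v) (β : ℝ) (f : EE n → ℝ) (x : EE n) :
    gin f (pb β v) x = -Real.sqrt 2 * (1 + β) * v x * pb β v x * gin f (dd v) x := by
  simp only [gin, pdv_pb hv, Finset.mul_sum]
  exact Finset.sum_congr rfl fun i _ => by ring

/-- `ψ⁶ F y ≤ F (pb y)` -/
theorem psi6_le (hv : Sol v) (h0 : 0 ≤ β) (hβ : β < 1) (P : Prof) (x : EE n) {y : ℝ} (hy : 0 ≤ y) :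
    psi v x ^ 6 * P.F y ≤ P.F (pb β v x * y) := by
  refine le_trans ?_ (P.le_scale_dn (pb_pos hv β x).le (pb_le_one hv h0 x) hy)
  refine mul_le_mul_of_nonneg_right ?_ (P.nonneg hy)
  calc psi v x ^ 6 = (psi v x ^ 2) ^ 3 := by ring
    _ ≤ _ := pow_le_pow_left₀ (sq_nonneg _) (sq_le_pb hv hβ x) 3

/-- `F (pb y) ≤ ψ² F y` -/
theorem le_psi2 (hv : Sol v) (h0 : 0 ≤ β) (P : Prof) (x : EE n) {y : ℝ} (hy : 0 ≤ y) :
    P.F (pb β v x * y) ≤ psi v x ^ 2 * P.F y :=
  (P.scale_dn (pb_pos hv β x).le (pb_le_one hv h0 x) hy).trans (mul_le_mul_of_nonneg_right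
    (pow_le_pow_left₀ (pb_pos hv β x).le (pb_le_psi hv h0 x) 2) (P.nonneg hy))

/-- integrability of `F (pb y) ω` -/
theorem integ_F (hv : Sol v) (h0 : 0 ≤ β) (P : Prof) {lam : ℝ} {om : EE n → ℝ} (hw : Wt lam om)
    {y : EE n → ℝ} (hy : Continuous y) {M : ℝ} (hb : ∀ x, 0 ≤ y x ∧ y x ≤ M) :
    Integrable fun x => P.F (pb β v x * y x) * om x := by
  have h1 : ∀ x, 0 ≤ pb β v x * y x := fun x => mul_nonneg (pb_pos hv β x).le (hb x).1
  refine hw.integ (P.cont ((pb_cont hv β).mul hy) h1) (M := P.F M) fun x => ?_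
  rw [abs_of_nonneg (P.nonneg (h1 x))]
  exact P.mono (h1 x) ((mul_le_of_le_one_left (hb x).1 (pb_le_one hv h0 x)).trans (hb x).2)

theorem integ_TT (hv : Sol v) (h0 : 0 ≤ β) (P : Prof) {lam : ℝ} {om : EE n → ℝ} (hw : Wt lam om) :
    Integrable fun x => P.F (pb β v x * tt v x) * om x :=
  integ_F hv h0 P hw hv.continuous_tt fun x => ⟨hv.tt_nonneg x, tt_le_one v x⟩

theorem integ_pb (hv : Sol v) (h0 : 0 ≤ β) (P : Prof) {lam : ℝ} {om : EE n → ℝ} (hw : Wt lam om) :
    Integrable fun x => P.F (pb β v x) * om x := by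
  simpa using integ_F hv h0 P hw (y := fun _ => 1) continuous_const (M := 1) fun _ => by norm_num

theorem meas_bad (hv : Sol v) (e : ℝ) : MeasurableSet {x | e ≤ tt v x} :=
  (isClosed_le continuous_const hv.continuous_tt).measurableSet

/-- the integrand of `BAD` -/
def bad (β : ℝ) (v : EE n → ℝ) (P : Prof) (om : EE n → ℝ) (e : ℝ) : EE n → ℝ :=
  {x | e ≤ tt v x}.indicator fun x => P.F (pb β v x) * om x

theorem BAD_eq (hv : Sol v) (P : Prof) (om : EE n → ℝ) (e : ℝ) :
    BAD β v P om e = ∫ x, bad β v P om e x := (integral_indicator (meas_bad hv e)).symm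

theorem integ_bad (hv : Sol v) (h0 : 0 ≤ β) (P : Prof) {lam : ℝ} {om : EE n → ℝ} (hw : Wt lam om)
    (e : ℝ) : Integrable (bad β v P om e) := (integ_pb hv h0 P hw).indicator (meas_bad hv e)

theorem bad_of_le {P : Prof} {om : EE n → ℝ} {e : ℝ} {x : EE n} (h : e ≤ tt v x) :
    bad β v P om e x = P.F (pb β v x) * om x := indicator_of_mem (s := {x | e ≤ tt v x}) h _

theorem bad_nonneg (hv : Sol v) (P : Prof) {lam : ℝ} {om : EE n → ℝ} (hw : Wt lam om) (e : ℝ)
    (x : EE n) : 0 ≤ bad β v P om e x :=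
  indicator_nonneg (fun y _ => mul_nonneg (P.nonneg (pb_pos hv β y).le) (hw.pos y).le) x

theorem TT_nonneg (hv : Sol v) (P : Prof) {lam : ℝ} {om : EE n → ℝ} (hw : Wt lam om) :
    0 ≤ TT β v P om := integral_nonneg fun x =>
  mul_nonneg (P.nonneg (mul_nonneg (pb_pos hv β x).le (hv.tt_nonneg x))) (hw.pos x).le

theorem BAD_nonneg (hv : Sol v) (P : Prof) {lam : ℝ} {om : EE n → ℝ} (hw : Wt lam om) (e : ℝ) :
    0 ≤ BAD β v P om e := by
  rw [BAD_eq hv]
  exact integral_nonneg (bad_nonneg hv P hw e)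

theorem BAD_anti (hv : Sol v) (h0 : 0 ≤ β) (P : Prof) {lam : ℝ} {om : EE n → ℝ} (hw : Wt lam om)
    {e e' : ℝ} (h : e ≤ e') : BAD β v P om e' ≤ BAD β v P om e :=
  setIntegral_mono_set (integ_pb hv h0 P hw).integrableOn
    (ae_of_all _ fun x => mul_nonneg (P.nonneg (pb_pos hv β x).le) (hw.pos x).le)
    (LE.le.eventuallyLE fun _ hx => h.trans hx)

theorem integ_MU (hv : Sol v) {lam : ℝ} {om : EE n → ℝ} (hw : Wt lam om) :
    Integrable fun x => psi v x ^ 2 * om x :=
  hw.integ (hv.psi_sm.continuous.pow 2) (M := 1) fun x => by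
    rw [abs_of_nonneg (sq_nonneg _)]
    exact pow_le_one₀ (hv.psi_pos x).le (psi_le_one v x)

theorem MU_nonneg {lam : ℝ} {om : EE n → ℝ} (hw : Wt lam om) : 0 ≤ MU v om :=
  integral_nonneg fun x => mul_nonneg (sq_nonneg _) (hw.pos x).le

end pb

/-! ### `cut` -/

section cut

variable {v : EE n → ℝ} {e : ℝ} {x : EE n}

theorem cut_nonneg (e : ℝ) (v : EE n → ℝ) (x : EE n) : 0 ≤ cut e v x :=
  Real.smoothTransition.nonneg _

theorem cut_le_one (e : ℝ) (v : EE n → ℝ) (x : EE n) : cut e v x ≤ 1 :=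
  Real.smoothTransition.le_one _

theorem cut_sq_le_one (e : ℝ) (v : EE n → ℝ) (x : EE n) : cut e v x ^ 2 ≤ 1 :=
  pow_le_one₀ (cut_nonneg e v x) (cut_le_one e v x)

theorem cut_one (he : 0 < e) (h : tt v x ≤ e) : cut e v x = 1 :=
  Real.smoothTransition.one_of_one_le (by have := (div_le_one he).2 h; linarith)

theorem cut_zero (he : 0 < e) (h : 2 * e ≤ tt v x) : cut e v x = 0 :=
  Real.smoothTransition.zero_of_nonpos (by have := (le_div_iff₀ he).2 h; linarith)

theorem lt_of_cut (he : 0 < e) (h : cut e v x ≠ 0) : tt v x < 2 * e :=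
  not_le.1 fun h' => h (cut_zero he h')

theorem cut_sm (hv : Sol v) (e : ℝ) : ContDiff ℝ ∞ (cut e v) :=
  Real.smoothTransition.contDiff.comp (contDiff_const.sub (hv.tt_sm.div_const e))

theorem cut_cd (hv : Sol v) (e : ℝ) (k : ℕ) : ContDiff ℝ k (cut e v) :=
  contDiff_infty.1 (cut_sm hv e) k

theorem cut_cont (hv : Sol v) (e : ℝ) : Continuous (cut e v) := (cut_sm hv e).continuous

theorem cut_diff (hv : Sol v) (e : ℝ) : Differentiable ℝ (cut e v) :=
  (cut_sm hv e).differentiable (by simp)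

theorem ord_cut (e : ℝ) : Ord 0 (cut e : Fam n) :=
  ((Ord.const 2).sub ((Ord.t2.mono (Nat.zero_le 2)).div_const e)).comp
    Real.smoothTransition.contDiff

theorem pdv_cut_of_lt (hv : Sol v) (he : 0 < e) (h : tt v x < e) (i : Fin n) :
    pdv i (cut e v) x = 0 := by
  have : cut e v =ᶠ[𝓝 x] fun _ => 1 := by
    filter_upwards [hv.continuous_tt.continuousAt.eventually (gt_mem_nhds h)] with y hy
    exact cut_one he hy.le
  rw [pdv_congr this, pdv_const]

theorem grad_cut_of_lt (hv : Sol v) (he : 0 < e) (h : tt v x < e) : ∇ (cut e v) x = 0 := by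
  ext i
  rw [grad_apply, pdv_cut_of_lt hv he h]
  rfl

theorem pdv_cut_of_zero (h : cut e v x = 0) (i : Fin n) : pdv i (cut e v) x = 0 :=
  pdv_of_min (Eventually.of_forall fun y => h.trans_le (cut_nonneg e v y)) i

/-- the gradient of the cut-off is bounded (the constant depends on `e`) -/
theorem grad_cut_bd (n : ℕ) (e : ℝ) :
    ∃ C : ℝ, 0 ≤ C ∧ ∀ v : EE n → ℝ, Sol v → ∀ x, ‖∇ (cut e v) x‖ ≤ C := by
  simpa using (ord_cut (n := n) e).grad_bd

end cut

/-! ### `tg` -/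

theorem tg_nonneg (v f : EE n → ℝ) (x : EE n) : 0 ≤ tg v f x := by
  have := gin_sq_le (dd v) f x
  rw [tg, tt_eq]
  linarith

theorem tg_le (v f : EE n → ℝ) (hv : Sol v) (x : EE n) : tg v f x ≤ gsq f x := by
  have := mul_nonneg (hv.tt_nonneg x) (gsq_nonneg f x)
  rw [tg]
  nlinarith [sq_nonneg (gin (dd v) f x)]

theorem tg_eq_wg (v f : EE n → ℝ) (x : EE n) :
    2 * tg v f x = ∑ i, ∑ j, wg v f i j x ^ 2 := by
  have e : ∀ i j, wg v f i j x ^ 2 = pdv i (dd v) x ^ 2 * pdv j f x ^ 2 +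
      pdv i f x ^ 2 * pdv j (dd v) x ^ 2 -
      2 * ((pdv i (dd v) x * pdv i f x) * (pdv j (dd v) x * pdv j f x)) := fun i j => by
    rw [wg]; ring
  simp only [e, Finset.sum_sub_distrib, Finset.sum_add_distrib, ← Finset.mul_sum,
    ← Finset.sum_mul]
  rw [tg, tt_eq]
  simp only [gsq, gin]
  ring

/-! ### `Psi` -/

theorem Psi_eq_cosh (s : ℝ) : Psi s = 1 / Real.cosh (s / Real.sqrt 2) ^ 2 := by
  have h := Real.cosh_pos (s / Real.sqrt 2)
  rw [Psi, Real.tanh_eq_sinh_div_cosh]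
  field_simp
  linarith [Real.cosh_sq (s / Real.sqrt 2)]

theorem psi_eq_Psi {v : EE n → ℝ} (hv : Sol v) (x : EE n) : psi v x = Psi (dd v x) := by
  rw [hv.psi_eq_cosh, Psi_eq_cosh]

theorem Psi_pos (s : ℝ) : 0 < Psi s := by
  rw [Psi_eq_cosh]
  have := Real.cosh_pos (s / Real.sqrt 2)
  positivity

theorem Psi_le_one (s : ℝ) : Psi s ≤ 1 := by rw [Psi]; nlinarith [sq_nonneg (Real.tanh (s / √2))]

theorem Psi_sm : ContDiff ℝ ∞ Psi := by
  have : Psi = fun s => 1 / Real.cosh (s / Real.sqrt 2) ^ 2 := funext Psi_eq_cosh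
  rw [this]
  exact contDiff_const.div ((Real.contDiff_cosh.comp (contDiff_id.div_const _)).pow 2)
    fun s => pow_ne_zero 2 (Real.cosh_pos _).ne'

theorem Psi_cont : Continuous Psi := Psi_sm.continuous

theorem Psi_anti {a b : ℝ} (h : |a| ≤ |b|) : Psi b ≤ Psi a := by
  rw [Psi_eq_cosh, Psi_eq_cosh]
  have h0 := Real.cosh_pos (a / Real.sqrt 2)
  refine one_div_le_one_div_of_le (by positivity) (pow_le_pow_left₀ h0.le ?_ 2)
  rw [Real.cosh_le_cosh, abs_div, abs_div]
  exact div_le_div_of_nonneg_right h (abs_nonneg _)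

theorem Psi_neg (s : ℝ) : Psi (-s) = Psi s :=
  le_antisymm (Psi_anti (by simp)) (Psi_anti (by simp))

theorem Psi_le_mul (a b : ℝ) : Psi a ≤ Real.exp (Real.sqrt 2 * |a - b|) * Psi b := by
  rw [Psi_eq_cosh, Psi_eq_cosh]
  have h := cosh_le_exp_mul (a / Real.sqrt 2) (b / Real.sqrt 2)
  have ha := Real.cosh_pos (a / Real.sqrt 2)
  have hb := Real.cosh_pos (b / Real.sqrt 2)
  have e : Real.exp (Real.sqrt 2 * |a - b|) = Real.exp |a / Real.sqrt 2 - b / Real.sqrt 2| ^ 2 := by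
    rw [← Real.exp_nat_mul, ← sub_div, abs_div, abs_of_pos sqrt2_pos]
    congr 1
    have := sqrt2_mul
    have := sqrt2_pos
    field_simp
    rw [sqrt2_sq]
    push_cast
    ring
  rw [e, mul_one_div, div_le_div_iff₀ (by positivity) (by positivity), one_mul, ← mul_pow]
  exact pow_le_pow_left₀ hb.le h 2

theorem Psi_zero : Psi 0 = 1 := by simp [Psi]

theorem exp_le_Psi (s : ℝ) : Real.exp (-(Real.sqrt 2 * |s|)) ≤ Psi s := by
  have h := Psi_le_mul 0 s
  rw [Psi_zero, zero_sub, abs_neg] at h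
  rw [Real.exp_neg, inv_le_iff_one_le_mul₀' (Real.exp_pos _)]
  exact h

theorem Psi_le_exp (s : ℝ) : Psi s ≤ 4 * Real.exp (-(Real.sqrt 2 * |s|)) := by
  have h1 : Real.exp |s / Real.sqrt 2| ≤ 2 * Real.cosh (s / Real.sqrt 2) := by
    rw [← Real.cosh_abs, Real.cosh_eq]
    have := Real.exp_pos (-|s / Real.sqrt 2|)
    linarith
  have e : Real.exp (Real.sqrt 2 * |s|) = Real.exp |s / Real.sqrt 2| ^ 2 := by
    rw [← Real.exp_nat_mul, abs_div, abs_of_pos sqrt2_pos]
    congr 1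
    have := sqrt2_pos
    field_simp
    rw [sqrt2_sq]
    push_cast
    ring
  have hc := Real.cosh_pos (s / Real.sqrt 2)
  rw [Psi_eq_cosh, Real.exp_neg, e, ← div_eq_mul_inv,
    div_le_div_iff₀ (by positivity) (by positivity)]
  nlinarith [pow_le_pow_left₀ (Real.exp_pos _).le h1 2]

theorem integrable_Psi : Integrable Psi := by
  have h : Integrable fun s : ℝ => Real.exp (-(Real.sqrt 2 * |s|)) := by
    have h1 : IntegrableOn (fun s : ℝ => Real.exp (-(Real.sqrt 2 * |s|))) (Ioi 0) :=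
      (integrableOn_exp_mul_Ioi (a := -Real.sqrt 2) (neg_lt_zero.2 sqrt2_pos) 0).congr_fun
        (fun s hs => by simp only; rw [abs_of_pos hs, neg_mul]) measurableSet_Ioi
    have h2 : IntegrableOn (fun s : ℝ => Real.exp (-(Real.sqrt 2 * |s|))) (Iic 0) :=
      (integrableOn_exp_mul_Iic (a := Real.sqrt 2) sqrt2_pos 0).congr_fun
        (fun s hs => by simp only; rw [abs_of_nonpos hs, mul_neg, neg_neg]) measurableSet_Iic
    rw [← integrableOn_univ, ← Iic_union_Ioi (a := (0 : ℝ))]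
    exact h2.union h1
  refine (h.const_mul 4).mono' Psi_cont.aestronglyMeasurable (ae_of_all _ fun s => ?_)
  rw [Real.norm_eq_abs, abs_of_pos (Psi_pos s)]
  exact Psi_le_exp s

theorem integrable_Psi_pow (k : ℕ) : Integrable fun s => Psi s ^ (k + 1) := by
  refine integrable_Psi.mono' (Psi_cont.pow _).aestronglyMeasurable (ae_of_all _ fun s => ?_)
  rw [Real.norm_eq_abs, abs_of_pos (pow_pos (Psi_pos s) _), pow_succ]
  exact mul_le_of_le_one_left (Psi_pos s).le (pow_le_one₀ (Psi_pos s).le (Psi_le_one s))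

end Y

end

end Crest.Agent.N067
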