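import Crest.Agent.N067.Y.St0

/-!
# Row 67, block X5, ST (helper16): geometry along the normal segment of a good point
-/

set_option autoImplicit false

open MeasureTheory Laplacian InnerProductSpace Topology Filter Set
open scoped RealInnerProductSpace Gradient ContDiff

namespace Crest.Agent.N067.Y.St

open Crest.Agent.R077

noncomputable section

variable {n : ℕ} {v : EE n → ℝ}

theorem grad_cd (hv : Sol v) : ContDiff ℝ 1 (∇ (dd v)) := by
  rw [contDiff_euclidean]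
  intro i
  simp only [grad_apply]
  exact (hv.pdv_dd_sm i).of_le (by simp)

theorem hasFDerivAt_grad (hv : Sol v) (x : EE n) : HasFDerivAt (∇ (dd v)) (Bm v x) x :=
  ((grad_cd hv).differentiable (by simp) x).hasFDerivAt

theorem Bm_apply (hv : Sol v) (x u : EE n) (i : Fin n) :
    Bm v x u i = ∑ j, hs (dd v) j i x * u j := by
  have h1 := (EuclideanSpace.proj (𝕜 := ℝ) i : EE n →L[ℝ] ℝ).hasFDerivAt.comp x
    (hasFDerivAt_grad hv x)
  have h2 : (⇑(EuclideanSpace.proj (𝕜 := ℝ) i : EE n →L[ℝ] ℝ) ∘ ∇ (dd v)) = pdv i (dd v) := by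
    funext y
    exact grad_apply _ _ _
  rw [h2] at h1
  have h3 := fderiv_eq_sum' (pdv i (dd v)) x u
  rw [h1.fderiv] at h3
  exact h3

theorem norm_Bm (hv : Sol v) (x : EE n) : ‖Bm v x‖ ≤ √(hsq (dd v) x) := by
  refine ContinuousLinearMap.opNorm_le_bound _ (Real.sqrt_nonneg _) fun u => ?_
  rw [← abs_of_nonneg (norm_nonneg u), ← Real.sqrt_sq_eq_abs, ← Real.sqrt_mul (hsq_nonneg _ _)]
  refine Real.le_sqrt_of_sq_le ?_
  rw [EuclideanSpace.real_norm_sq_eq, EuclideanSpace.real_norm_sq_eq, hsq, Finset.sum_comm,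
    Finset.sum_mul]
  refine Finset.sum_le_sum fun i _ => ?_
  rw [Bm_apply hv]
  exact Finset.sum_mul_sq_le_sq_mul_sq _ _ _

theorem ord_nor (i j : Fin n) : Ord 2 fun v : EE n → ℝ => gin (dd v) (hs (dd v) i j) := by
  have hk := hkS n
  have h1 := ((hk.t2.pdv j).pdv i).const_mul (-1 / 2)
  have h2 := Ord.usum fun k => (hk.b1 i k).mul (hk.b1 k j)
  refine (h1.sub h2).congr' fun v hv x => ?_
  have e1 : pdv j (tt v) = fun y => -2 * gin (dd v) (pdv j (dd v)) y := funext (hv.pdv_tt j)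
  have c2 : ContDiffAt ℝ 2 (dd v) x := (hv.dd_cd 2).contDiffAt
  have c3 : ContDiffAt ℝ 2 (pdv j (dd v)) x := (contDiff_infty.1 (hv.pdv_dd_sm j) 2).contDiffAt
  have d1 : DifferentiableAt ℝ (gin (dd v) (pdv j (dd v))) x :=
    (contDiffAt_gin (m := 1) c2 c3 (by norm_num)).differentiableAt (by simp)
  rw [e1, pdv_const_mul d1, pdv_gin c2 c3, Finset.sum_add_distrib]
  have e2 : ∑ k, pdv k (dd v) x * pdv i (pdv k (pdv j (dd v))) x =
      gin (dd v) (hs (dd v) i j) x :=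
    Finset.sum_congr rfl fun k _ => by rw [pdv_comm c3 i k]; rfl
  rw [e2]
  simp only [hs]
  ring

/-- the constants -/
theorem exists_K (n : ℕ) : ∃ K : ℝ, 1 ≤ K ∧ ∀ v : EE n → ℝ, Sol v → ∀ x,
    ‖Bm v x‖ ≤ K * √(tt v x) ∧ ∀ i j, |gin (dd v) (hs (dd v) i j) x| ≤ K * tt v x ∧
      ‖∇ (hs (dd v) i j) x‖ ≤ K * √(tt v x) := by
  obtain ⟨K0, h0, hK0⟩ := hk_hsq n
  choose K1 h1 hK1 using fun i j : Fin n => (ord_nor i j).bd2
  choose K2 h2 hK2 using fun i j : Fin n => ((hkS n).b1 i j).gsq.bd2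
  have s1 : ∀ (F : Fin n → Fin n → ℝ), (∀ i j, 0 ≤ F i j) → ∀ i j, F i j ≤ ∑ i, ∑ j, F i j :=
    fun F hF i j => (Finset.single_le_sum (fun j _ => hF i j) (Finset.mem_univ j)).trans
      (Finset.single_le_sum (fun i _ => Finset.sum_nonneg fun j _ => hF i j) (Finset.mem_univ i))
  have p1 : 0 ≤ ∑ i, ∑ j, K1 i j := Finset.sum_nonneg fun i _ => Finset.sum_nonneg fun j _ => h1 i j
  have p2 : 0 ≤ ∑ i, ∑ j, √(K2 i j) := by positivity
  have p0 := Real.sqrt_nonneg K0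
  refine ⟨1 + √K0 + ∑ i, ∑ j, K1 i j + ∑ i, ∑ j, √(K2 i j), by linarith, fun v hv x => ⟨?_, fun i j =>
    ⟨?_, ?_⟩⟩⟩
  · refine (norm_Bm hv x).trans ((Real.sqrt_le_sqrt (hK0 v hv x)).trans ?_)
    rw [Real.sqrt_mul h0]
    exact mul_le_mul_of_nonneg_right (by linarith) (Real.sqrt_nonneg _)
  · exact (hK1 i j v hv x).trans
      (mul_le_mul_of_nonneg_right (by linarith [s1 K1 h1 i j]) (hv.tt_nonneg x))
  · have h3 := (le_abs_self _).trans (hK2 i j v hv x)
    rw [gsq_eq] at h3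
    refine (Real.le_sqrt_of_sq_le h3).trans ?_
    rw [Real.sqrt_mul (h2 i j)]
    exact mul_le_mul_of_nonneg_right
      (by linarith [s1 (fun i j => √(K2 i j)) (fun _ _ => Real.sqrt_nonneg _) i j])
      (Real.sqrt_nonneg _)

theorem norm_fderiv_sub (f : EE n → ℝ) (x y : EE n) :
    ‖fderiv ℝ f y - fderiv ℝ f x‖ = ‖∇ f y - ∇ f x‖ := by
  simp only [gradient, ← map_sub, LinearIsometryEquiv.norm_map]

/-- Taylor along the normal segment -/
theorem seg (n : ℕ) : ∃ K : ℝ, 1 ≤ K ∧ ∀ v : EE n → ℝ, Sol v → ∀ (x : EE n) (c τ : ℝ),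
    (∀ s ∈ Icc (0 : ℝ) 1, tt v (x - (s * c) • ∇ (dd v) x) ≤ τ) →
    ‖∇ (dd v) (x - c • ∇ (dd v) x) - ∇ (dd v) x‖ ≤ K * √τ * |c| ∧
    |dd v (x - c • ∇ (dd v) x) - dd v x + c * (1 - tt v x)| ≤ K * √τ * |c| * |c| ∧
    ∀ i j, |hs (dd v) i j (x - c • ∇ (dd v) x) - hs (dd v) i j x| ≤
      K ^ 2 * τ * (|c| * (1 + |c|)) := by
  obtain ⟨K, hK1, hK⟩ := exists_K n
  refine ⟨K, hK1, fun v hv x c τ ht => ?_⟩
  set N := ∇ (dd v) x with hN
  have hN1 : ‖N‖ ≤ 1 := hv.norm_grad_dd_le x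
  have hτ : 0 ≤ τ := (hv.tt_nonneg _).trans (ht 0 (by simp))
  set S := segment ℝ x (x - c • N) with hS
  have mem : ∀ y ∈ S, ∃ s ∈ Icc (0 : ℝ) 1, y = x - (s * c) • N := fun y hy => by
    rw [hS, segment_eq_image'] at hy
    obtain ⟨s, hs, rfl⟩ := hy
    exact ⟨s, hs, by simp only [sub_sub_cancel_left, smul_neg, smul_smul, ← sub_eq_add_neg]⟩
  have mem' : ∀ s ∈ Icc (0 : ℝ) 1, x - (s * c) • N ∈ S := fun s hs => by
    rw [hS, segment_eq_image']
    exact ⟨s, hs, by simp only [sub_sub_cancel_left, smul_neg, smul_smul, ← sub_eq_add_neg]⟩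
  have hst : ∀ y ∈ S, √(tt v y) ≤ √τ := fun y hy => by
    obtain ⟨s, hs, rfl⟩ := mem y hy
    exact Real.sqrt_le_sqrt (ht s hs)
  have hd : ∀ y ∈ S, ‖y - x‖ ≤ |c| := fun y hy => by
    obtain ⟨s, hs, rfl⟩ := mem y hy
    rw [sub_sub_cancel_left, norm_neg, norm_smul, Real.norm_eq_abs, abs_mul, abs_of_nonneg hs.1]
    calc s * |c| * ‖N‖ ≤ 1 * |c| * 1 := by gcongr; exact hs.2
      _ = |c| := by ring
  have hKτ : 0 ≤ K * √τ := by positivity
  have h1 : ∀ y ∈ S, ‖∇ (dd v) y - N‖ ≤ K * √τ * |c| := fun y hy =>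
    ((convex_segment _ _).norm_image_sub_le_of_norm_hasFDerivWithin_le (f' := Bm v)
      (fun z _ => (hasFDerivAt_grad hv z).hasFDerivWithinAt)
      (fun z hz => (hK v hv z).1.trans (mul_le_mul_of_nonneg_left (hst z hz) (by linarith)))
      (left_mem_segment _ _ _) hy).trans (mul_le_mul_of_nonneg_left (hd y hy) hKτ)
  refine ⟨h1 _ (right_mem_segment _ _ _), ?_, fun i j => ?_⟩
  · have h2 := (convex_segment x (x - c • N)).norm_image_sub_le_of_norm_fderiv_le'
      (f := dd v) (φ := fderiv ℝ (dd v) x) (C := K * √τ * |c|) (fun z _ => hv.dd_diff z)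
      (fun z hz => by rw [norm_fderiv_sub]; exact h1 z hz) (left_mem_segment _ _ _)
      (right_mem_segment _ _ _)
    rw [← inner_grad, sub_sub_cancel_left, inner_neg_right, inner_smul_right, ← hN,
      real_inner_self_eq_norm_sq, Real.norm_eq_abs, sub_neg_eq_add] at h2
    have e : 1 - tt v x = ‖N‖ ^ 2 := by simp [tt, hN]
    rw [e]
    refine h2.trans (mul_le_mul_of_nonneg_left ?_ (by positivity))
    have := hd _ (right_mem_segment _ _ _)
    rwa [sub_sub_cancel_left] at this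
  · have df : Differentiable ℝ (hs (dd v) i j) := (hv.hs_sm i j).differentiable (by simp)
    have h3 : ∀ s : ℝ, HasDerivAt (fun s : ℝ => hs (dd v) i j (x - (s * c) • N))
        (fderiv ℝ (hs (dd v) i j) (x - (s * c) • N) (-(c • N))) s := fun s => by
      have h4 : HasDerivAt (fun s : ℝ => x - (s * c) • N) (-(c • N)) s := by
        simpa using (((hasDerivAt_id s).mul_const c).smul_const N).const_sub x
      exact (df _).hasFDerivAt.comp_hasDerivAt s h4
    have h5 := norm_image_sub_le_of_norm_deriv_le_segment_01' (C := K ^ 2 * τ * (|c| * (1 + |c|)))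
      (fun s _ => (h3 s).hasDerivWithinAt) fun s hs0 => by
        have hy := mem' s (Ico_subset_Icc_self hs0)
        set y := x - (s * c) • N
        obtain ⟨a1, a2⟩ := (hK v hv y).2 i j
        rw [← inner_grad, inner_neg_right, inner_smul_right, norm_neg, Real.norm_eq_abs, abs_mul]
        have e : ⟪∇ (hs (dd v) i j) y, N⟫ = gin (dd v) (hs (dd v) i j) y -
            ⟪∇ (hs (dd v) i j) y, ∇ (dd v) y - N⟫ := by
          rw [gin_comm, gin_eq, inner_sub_right]; ring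
        have b1 : |⟪∇ (hs (dd v) i j) y, ∇ (dd v) y - N⟫| ≤ K * √τ * (K * √τ * |c|) :=
          (abs_real_inner_le_norm _ _).trans (mul_le_mul
            (a2.trans (mul_le_mul_of_nonneg_left (hst y hy) (by linarith))) (h1 y hy)
            (norm_nonneg _) hKτ)
        have b2 : K * tt v y ≤ K ^ 2 * τ :=
          mul_le_mul (by nlinarith) (ht s (Ico_subset_Icc_self hs0)) (hv.tt_nonneg _) (by positivity)
        have b3 : K * √τ * (K * √τ * |c|) = K ^ 2 * τ * |c| := by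
          have := Real.mul_self_sqrt hτ
          linear_combination K ^ 2 * |c| * this
        rw [e]
        calc |c| * _ ≤ |c| * (K ^ 2 * τ + K ^ 2 * τ * |c|) :=
              mul_le_mul_of_nonneg_left ((abs_sub _ _).trans (by linarith)) (abs_nonneg c)
          _ = _ := by ring
    simpa using h5

theorem Psi_eq (s : ℝ) : Psi s = 1 / Real.cosh (s / √2) ^ 2 := by
  have h := Real.cosh_pos (s / √2)
  rw [Psi, Real.tanh_eq_sinh_div_cosh, div_pow, eq_div_iff (by positivity), sub_mul,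
    div_mul_cancel₀ _ (by positivity), one_mul, Real.cosh_sq]
  ring

theorem psi_eq (hv : Sol v) (x : EE n) : psi v x = Psi (dd v x) := by
  rw [Psi_eq, hv.psi_eq_cosh]

theorem Psi_pos (s : ℝ) : 0 < Psi s := by
  have h := Real.cosh_pos (s / √2)
  rw [Psi_eq]; positivity

theorem exp_sq (a : ℝ) : Real.exp |a / √2| ^ 2 = Real.exp (√2 * |a|) := by
  rw [← Real.exp_nat_mul, abs_div, abs_of_pos sqrt2_pos]
  congr 1
  have := sqrt2_pos
  field_simp
  rw [sqrt2_sq]; push_cast; ring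

theorem Psi_le (a b : ℝ) : Psi a ≤ Real.exp (√2 * |a - b|) * Psi b := by
  have h1 := cosh_le_exp_mul (a / √2) (b / √2)
  have ha := Real.cosh_pos (a / √2)
  have hb := Real.cosh_pos (b / √2)
  rw [← sub_div] at h1
  have h2 := pow_le_pow_left₀ hb.le h1 2
  rw [mul_pow, exp_sq] at h2
  rw [Psi_eq, Psi_eq, mul_one_div, div_le_div_iff₀ (by positivity) (by positivity)]
  linarith

theorem Psi_lo (s : ℝ) : Real.exp (-(√2 * |s|)) ≤ Psi s := by
  have h := Psi_le 0 s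
  rw [Psi_eq 0] at h
  simp only [zero_div, Real.cosh_zero, one_pow, div_one, zero_sub, abs_neg] at h
  rw [Real.exp_neg, inv_le_iff_one_le_mul₀' (Real.exp_pos _)]
  exact h

theorem Psi_up (s : ℝ) : Psi s ≤ 4 * Real.exp (-(√2 * |s|)) := by
  have h := Real.cosh_pos (s / √2)
  have h1 : Real.exp |s / √2| ≤ 2 * Real.cosh (s / √2) := by
    rw [← Real.cosh_abs, Real.cosh_eq]
    linarith [Real.exp_pos (-|s / √2|)]
  have h2 := pow_le_pow_left₀ (Real.exp_pos _).le h1 2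
  rw [exp_sq] at h2
  rw [Psi_eq, Real.exp_neg, ← div_eq_mul_inv, div_le_div_iff₀ (by positivity) (Real.exp_pos _)]
  linarith

theorem ev_small {f : ℝ → ℝ} {ρ : ℝ} (hf : Continuous f) (h0 : f 0 < ρ) :
    ∀ᶠ κ in 𝓝[>] (0 : ℝ), f κ < ρ :=
  (hf.continuousAt.eventually_lt continuousAt_const h0).filter_mono nhdsWithin_le_nhds

/-- sharp Harnack along the normal segment -/
theorem har_seg (n : ℕ) {g : ℝ} (hg : 0 < g) : ∃ L : ℝ, 0 ≤ L ∧ ∀ v : EE n → ℝ, Sol v →
    ∀ (x : EE n), ∀ s ∈ Icc (0 : ℝ) 1,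
      |dd v (x - (s * dd v x) • ∇ (dd v) x)| ≤ (1 - s) * |dd v x| + 1 →
      tt v (x - (s * dd v x) • ∇ (dd v) x) ≤ L * Real.exp (g / 2 * |dd v x|) * tt v x := by
  obtain ⟨K, hK0, hK⟩ := hk_q_rate n (a := √2 + g / 2) (by linarith)
  refine ⟨4 * K * Real.exp √2, by positivity, fun v hv x s hs h => ?_⟩
  set y := x - (s * dd v x) • ∇ (dd v) x with hy
  set D := |dd v x| with hD
  have hD0 : 0 ≤ D := abs_nonneg _
  have h2 := sqrt2_pos
  have hd : dist y x ≤ s * D := by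
    rw [dist_eq_norm, hy, sub_sub_cancel_left, norm_neg, norm_smul, Real.norm_eq_abs, abs_mul,
      abs_of_nonneg hs.1]
    exact mul_le_of_le_one_right (mul_nonneg hs.1 hD0) (hv.norm_grad_dd_le x)
  have ht := hv.tt_nonneg x
  have h1 : Real.exp (-(√2 * ((1 - s) * D + 1))) * tt v y ≤
      K * Real.exp ((√2 + g / 2) * (s * D)) * (4 * Real.exp (-(√2 * D)) * tt v x) :=
    calc _ ≤ psi v y * tt v y := by
          refine mul_le_mul_of_nonneg_right ?_ (hv.tt_nonneg y)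
          rw [psi_eq hv]
          exact (Real.exp_le_exp.2 (neg_le_neg (mul_le_mul_of_nonneg_left h h2.le))).trans
            (Psi_lo _)
      _ ≤ K * Real.exp ((√2 + g / 2) * dist y x) * (psi v x * tt v x) := hK v hv y x
      _ ≤ _ := by
          have := hv.psi_pos x
          have h3 : psi v x ≤ 4 * Real.exp (-(√2 * D)) := by rw [psi_eq hv]; exact Psi_up _
          gcongr
  rw [Real.exp_neg, inv_mul_le_iff₀ (Real.exp_pos _)] at h1
  refine h1.trans ?_
  have e : Real.exp (√2 * ((1 - s) * D + 1)) * (K * Real.exp ((√2 + g / 2) * (s * D)) *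
      (4 * Real.exp (-(√2 * D)) * tt v x)) =
      4 * K * Real.exp √2 * Real.exp (g / 2 * (s * D)) * tt v x := by
    have : Real.exp (√2 * ((1 - s) * D + 1)) * Real.exp ((√2 + g / 2) * (s * D)) *
        Real.exp (-(√2 * D)) = Real.exp √2 * Real.exp (g / 2 * (s * D)) := by
      simp only [← Real.exp_add]; congr 1; ring
    linear_combination 4 * K * tt v x * this
  rw [e]
  have : s * D ≤ D := mul_le_of_le_one_left hD0 hs.2
  gcongr

/-- **GEO** -/
theorem geo (n : ℕ) {g ρ : ℝ} (hg : 0 < g) (hρ : 0 < ρ) : ∀ᶠ κ in 𝓝[>] (0 : ℝ),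
    ∀ v : EE n → ℝ, Sol v → ∀ x, Gd g κ v x → ∀ s ∈ Icc (0 : ℝ) 1,
      (1 + |dd v x|) * ‖∇ (dd v) (x - (s * dd v x) • ∇ (dd v) x) - ∇ (dd v) x‖ ≤ ρ ∧
      |dd v (x - (s * dd v x) • ∇ (dd v) x) - (1 - s) * dd v x| ≤ ρ ∧
      ∀ i j, (hs (dd v) i j (x - (s * dd v x) • ∇ (dd v) x) - hs (dd v) i j x) ^ 2 ≤
        ρ * tt v x := by
  obtain ⟨K, hK1, hK⟩ := seg n
  obtain ⟨L, hL0, hL⟩ := har_seg n hg
  filter_upwards [ev_small (f := fun κ => K * √(L * κ) + κ) (ρ := min ρ (1 / 2)) (by fun_prop)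
    (by simpa using hρ), ev_small (f := fun κ => K ^ 4 * L ^ 2 * κ) (by fun_prop)
    (by simpa using hρ)] with κ k1 k2 v hv x hx
  obtain ⟨k1, k3⟩ := lt_min_iff.1 k1
  set D := |dd v x| with hD
  have hD0 : 0 ≤ D := abs_nonneg _
  have ht := hv.tt_nonneg x
  set τ := L * Real.exp (g / 2 * D) * tt v x with hτ
  have hτ0 : 0 ≤ τ := by positivity
  have hE : 1 ≤ Real.exp (g / 2 * D) := Real.one_le_exp (by positivity)
  have hE2 : Real.exp (g * D) = Real.exp (g / 2 * D) ^ 2 := by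
    rw [← Real.exp_nat_mul]; congr 1; push_cast; ring
  replace hx : (1 + D) ^ 4 * Real.exp (g / 2 * D) ^ 2 * tt v x ≤ κ := hE2 ▸ hx
  have t0 : (1 + D) ^ 4 * Real.exp (g / 2 * D) * tt v x ≤ κ :=
    le_trans (by gcongr; nlinarith) hx
  have t1 : (1 + D) ^ 2 * √τ ≤ √(L * κ) := by
    refine Real.le_sqrt_of_sq_le ?_
    rw [mul_pow, Real.sq_sqrt hτ0]
    nlinarith [mul_le_mul_of_nonneg_left t0 hL0]
  have t2 : ((1 + D) ^ 2 * τ) ^ 2 ≤ L ^ 2 * κ * tt v x := by
    nlinarith [mul_le_mul_of_nonneg_left hx (mul_nonneg (sq_nonneg L) ht)]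
  have t3 : D * tt v x ≤ κ := by
    refine le_trans (mul_le_mul_of_nonneg_right ?_ ht) t0
    calc D ≤ (1 + D) ^ 1 * 1 := by linarith
      _ ≤ _ := mul_le_mul (pow_le_pow_right₀ (by linarith) (by norm_num)) hE zero_le_one
        (by positivity)
  have hκ : 0 ≤ κ := (mul_nonneg hD0 ht).trans t3
  set y : ℝ → EE n := fun s => x - (s * dd v x) • ∇ (dd v) x with hy
  have key : ∀ s ∈ Icc (0 : ℝ) 1, (∀ r ∈ Icc 0 s, |dd v (y r)| ≤ (1 - r) * D + 1) →
      (1 + D) * ‖∇ (dd v) (y s) - ∇ (dd v) x‖ ≤ K * √(L * κ) ∧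
      |dd v (y s) - (1 - s) * dd v x| ≤ K * √(L * κ) + κ ∧
      ∀ i j, (hs (dd v) i j (y s) - hs (dd v) i j x) ^ 2 ≤ K ^ 4 * L ^ 2 * κ * tt v x := by
    intro s hs0 h
    obtain ⟨a1, a2, a3⟩ := hK v hv x (s * dd v x) τ fun r hr => by
      have hrs : r * s ∈ Icc 0 s := ⟨mul_nonneg hr.1 hs0.1, mul_le_of_le_one_left hs0.1 hr.2⟩
      rw [← mul_assoc]
      exact hL v hv x _ ⟨hrs.1, hrs.2.trans hs0.2⟩ (h _ hrs)
    have hc : |s * dd v x| ≤ D := by
      rw [abs_mul, abs_of_nonneg hs0.1]; exact mul_le_of_le_one_left hD0 hs0.2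
    have hc0 := abs_nonneg (s * dd v x)
    have hK0 : 0 ≤ K := by linarith
    have t4 := mul_le_mul_of_nonneg_left t1 hK0
    have hq := Real.sqrt_nonneg τ
    refine ⟨?_, ?_, fun i j => ?_⟩
    · calc _ ≤ (1 + D) * (K * √τ * (1 + D)) := by
            refine mul_le_mul_of_nonneg_left (a1.trans ?_) (by linarith)
            gcongr; linarith
        _ ≤ _ := by linarith
    · have b1 : K * √τ * |s * dd v x| * |s * dd v x| ≤ K * √τ * (1 + D) * (1 + D) := by
        gcongr <;> linarith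
      have b2 : |s * dd v x * tt v x| ≤ κ := by
        rw [abs_mul, abs_of_nonneg ht]; exact (mul_le_mul_of_nonneg_right hc ht).trans t3
      have e : dd v (y s) - (1 - s) * dd v x =
          dd v (y s) - dd v x + s * dd v x * (1 - tt v x) + s * dd v x * tt v x := by ring
      rw [e]
      exact (abs_add_le _ _).trans (add_le_add (a2.trans (by linarith)) b2)
    · have b1 : |hs (dd v) i j (y s) - hs (dd v) i j x| ≤ K ^ 2 * ((1 + D) ^ 2 * τ) := by
        refine (a3 i j).trans ?_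
        calc _ ≤ K ^ 2 * τ * ((1 + D) * (1 + D)) := by gcongr; linarith
          _ = _ := by ring
      have b2 := pow_le_pow_left₀ (abs_nonneg _) b1 2
      rw [sq_abs] at b2
      nlinarith [mul_le_mul_of_nonneg_left t2 (show 0 ≤ K ^ 4 by positivity)]
  have cy : Continuous fun s => |dd v (y s)| := (hv.dd_diff.continuous.comp (by fun_prop)).abs
  have all : Icc (0 : ℝ) 1 ⊆ {s | |dd v (y s)| ≤ (1 - s) * D + 1} := by
    refine IsClosed.Icc_subset_of_forall_mem_nhdsGT_of_Icc_subset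
      ((isClosed_le cy (by fun_prop)).inter isClosed_Icc) (by simp [hy, hD]) fun s hs0 h => ?_
    have b1 := (key s (Ico_subset_Icc_self hs0) h).2.1
    have b2 : |(1 - s) * dd v x| = (1 - s) * D := by
      rw [abs_mul, abs_of_nonneg (by linarith [hs0.2])]
    have b3 : |dd v (y s)| < (1 - s) * D + 1 := by
      linarith [abs_sub_abs_le_abs_sub (dd v (y s)) ((1 - s) * dd v x)]
    exact mem_nhdsWithin_of_mem_nhds ((cy.continuousAt.eventually_lt
      (g := fun s => (1 - s) * D + 1) (by fun_prop) b3).mono fun r hr => le_of_lt hr)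
  intro s hs0
  obtain ⟨a1, a2, a3⟩ := key s hs0 fun r hr => all ⟨hr.1, hr.2.trans hs0.2⟩
  exact ⟨by linarith, by linarith, fun i j => (a3 i j).trans (mul_le_mul_of_nonneg_right k2.le ht)⟩

/-- the unit ball around a good point -/
theorem loc (n : ℕ) {g ρ : ℝ} (hg : 0 < g) (hρ : 0 < ρ) : ∀ᶠ κ in 𝓝[>] (0 : ℝ),
    ∀ v : EE n → ℝ, Sol v → ∀ x, Gd g κ v x → tt v x ≤ ρ ∧
      ∀ y, dist y x ≤ 1 → |dd v y| * ‖Bm v y‖ ≤ ρ := by
  obtain ⟨K, hK0, hK⟩ := hk_loc n
  filter_upwards [ev_small (f := fun κ => κ) (by fun_prop) hρ,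
    ev_small (f := fun κ => √(K * κ)) (by fun_prop) (by simpa using hρ)] with κ k1 k2 v hv x hx
  have hD0 := abs_nonneg (dd v x)
  have ht := hv.tt_nonneg x
  have hE : 1 ≤ Real.exp (g * |dd v x|) := Real.one_le_exp (by positivity)
  have h1 : 1 ≤ 1 + |dd v x| := by linarith
  have t0 : (1 + |dd v x|) ^ 2 * tt v x ≤ κ := by
    refine le_trans (mul_le_mul_of_nonneg_right ?_ ht) hx
    calc _ ≤ (1 + |dd v x|) ^ 4 * 1 := by rw [mul_one]; exact pow_le_pow_right₀ h1 (by norm_num)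
      _ ≤ _ := by gcongr
  refine ⟨by nlinarith [one_le_pow₀ (n := 2) h1], fun y hy => le_trans ?_ k2.le⟩
  have b1 : |dd v y| ≤ 1 + |dd v x| := by
    have := hv.abs_dd_sub_le y x
    rw [← dist_eq_norm] at this
    linarith [abs_sub_abs_le_abs_sub (dd v y) (dd v x)]
  have b2 : ‖Bm v y‖ ≤ √(K * tt v x) := (norm_Bm hv y).trans
    (Real.sqrt_le_sqrt (by linarith [hK v hv x y hy, hv.tt_nonneg y]))
  refine (mul_le_mul b1 b2 (norm_nonneg _) (by linarith)).trans (Real.le_sqrt_of_sq_le ?_)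
  rw [mul_pow, Real.sq_sqrt (by positivity)]
  nlinarith [mul_le_mul_of_nonneg_left t0 hK0]

theorem psi_rpow_le (hv : Sol v) {g : ℝ} (hg : 0 ≤ g) (hg1 : g ≤ 1) (x : EE n) :
    psi v x ^ g ≤ 4 * Real.exp (-(√2 * g * |dd v x|)) := by
  rw [psi_eq hv]
  refine (Real.rpow_le_rpow (Psi_pos _).le (Psi_up _) hg).trans ?_
  rw [Real.mul_rpow (by norm_num) (Real.exp_pos _).le, ← Real.exp_mul]
  refine mul_le_mul ?_ (le_of_eq (by congr 1; ring)) (Real.exp_pos _).le (by norm_num)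
  simpa using Real.rpow_le_rpow_of_exponent_le (x := 4) (by norm_num) hg1

theorem le_psi_rpow (hv : Sol v) {g : ℝ} (hg : 0 ≤ g) (x : EE n) :
    Real.exp (-(√2 * g * |dd v x|)) ≤ psi v x ^ g := by
  rw [psi_eq hv]
  refine le_trans (le_of_eq ?_) (Real.rpow_le_rpow (Real.exp_pos _).le (Psi_lo _) hg)
  rw [← Real.exp_mul]; congr 1; ring

/-- the points of the support of the test function are good -/
theorem small (n : ℕ) {g e κ : ℝ} (hg : 0 < g) (hg1 : g ≤ 1) (he : 0 < e) (hκ : 0 < κ) :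
    ∀ᶠ e1 in 𝓝[>] (0 : ℝ), ∀ v : EE n → ℝ, Sol v → ∀ x y, ‖x - y‖ ≤ |dd v x| →
      uu e g v x ≤ 2 → tt v y ≤ e1 → Gd g κ v x := by
  obtain ⟨C, hC0, hC⟩ := hk_har n
  have hb : 0 < (√2 - 1) * g := mul_pos (sub_pos.2 Real.one_lt_sqrt_two) hg
  have h1 : Tendsto (fun D : ℝ => (1 + D) ^ 4 * Real.exp (-((√2 - 1) * g * D)) * (8 / e)) atTop
      (𝓝 0) := by
    have h2 := ((tendsto_rpow_mul_exp_neg_mul_atTop_nhds_zero 4 _ hb).comp
      (tendsto_atTop_add_const_left _ 1 tendsto_id)).mul_const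
        (Real.exp ((√2 - 1) * g) * (8 / e))
    rw [zero_mul] at h2
    refine h2.congr fun D => ?_
    have : Real.exp (-((√2 - 1) * g) * (1 + D)) * Real.exp ((√2 - 1) * g) =
        Real.exp (-((√2 - 1) * g * D)) := by rw [← Real.exp_add]; congr 1; ring
    simp only [Function.comp, id]
    rw [← this, show (4 : ℝ) = ((4 : ℕ) : ℝ) by norm_num, Real.rpow_natCast]
    ring
  obtain ⟨T, hT⟩ := eventually_atTop.1 (h1.eventually_lt_const hκ)
  filter_upwards [ev_small (f := fun e1 => (1 + T) ^ 4 * Real.exp (g * T) * (Real.exp (C * T) * e1))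
    (by fun_prop) (by simpa using hκ)] with e1 k1 v hv x y hxy hu hy
  have hD0 := abs_nonneg (dd v x)
  have ht := hv.tt_nonneg x
  rcases le_total T |dd v x| with h | h
  · refine le_trans ?_ (hT _ h).le
    have hp := Real.rpow_pos_of_pos (hv.psi_pos x) g
    rw [uu, div_le_iff₀ hp] at hu
    have b1 : tt v x ≤ 8 / e * Real.exp (-(√2 * g * |dd v x|)) := by
      rw [div_mul_eq_mul_div, le_div_iff₀ he]
      linarith [psi_rpow_le hv hg.le hg1 x]
    have e1 : Real.exp (-((√2 - 1) * g * |dd v x|)) =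
        Real.exp (g * |dd v x|) * Real.exp (-(√2 * g * |dd v x|)) := by
      rw [← Real.exp_add]; congr 1; ring
    rw [e1]
    calc _ ≤ (1 + |dd v x|) ^ 4 * Real.exp (g * |dd v x|) *
          (8 / e * Real.exp (-(√2 * g * |dd v x|))) := by gcongr
      _ = _ := by ring
  · refine le_trans ?_ k1.le
    have b1 : tt v x ≤ Real.exp (C * T) * e1 := (hC v hv y x).trans (by
      have := hv.tt_nonneg y
      have : ‖y - x‖ ≤ T := by rw [norm_sub_rev]; linarith
      gcongr)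
    gcongr

end

end Crest.Agent.N067.Y.St
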