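import Crest.Agent.N067.Y.Base

/-!
# Row 67, block X5 (helper54): the global Orlicz estimate `geS : GEStmt n`
-/

set_option autoImplicit false

open MeasureTheory Laplacian InnerProductSpace Topology Filter Set
open scoped RealInnerProductSpace Gradient ContDiff

namespace Crest.Agent.N067.Y

open Crest.Agent.R077

noncomputable section

variable {n : ℕ} {v : EE n → ℝ}

/-- divergence of `a ∇f` -/
theorem div_mul_grad {a f : EE n → ℝ} {x : EE n} (ha : DifferentiableAt ℝ a x)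
    (hf : ContDiffAt ℝ 2 f x) :
    ∑ i, pdv i (fun y => a y * pdv i f y) x = gin f a x + a x * (Δ f) x := by
  rw [lap_eq hf, gin, Finset.mul_sum, ← Finset.sum_add_distrib]
  refine Finset.sum_congr rfl fun i _ => ?_
  rw [pdv_mul ha (diffAt_pdv hf i)]
  ring

theorem gsq_dd (v : EE n → ℝ) (x : EE n) : gin (dd v) (dd v) x = 1 - tt v x := by
  rw [gin_self, tt_eq]; ring

theorem gin_dd_v (hv : Sol v) (x : EE n) :
    gin (dd v) v x = psi v x / Real.sqrt 2 * (1 - tt v x) := by rw [hv.gin_v, gsq_dd]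

theorem lap_pb (hv : Sol v) (β : ℝ) (x : EE n) : (Δ (pb β v)) x = pb β v x *
    (-(1 + β) * psi v x * (1 - tt v x) + 2 * (1 + β) ^ 2 * v x ^ 2 * (1 - tt v x) +
      2 * (1 + β) * v x ^ 2 * tt v x) := by
  have hd : DifferentiableAt ℝ (fun y => v y * pb β v y) x := (hv.diff x).mul (pb_diff hv β x)
  have h := div_mul_grad (a := fun y => -Real.sqrt 2 * (1 + β) * (v y * pb β v y)) (x := x)
    (hd.const_mul _) (hv.dd_cd 2).contDiffAt
  have e : ∀ i, pdv i (pb β v) =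
      fun y => -Real.sqrt 2 * (1 + β) * (v y * pb β v y) * pdv i (dd v) y := fun i => by
    funext y; rw [pdv_pb hv]; ring
  rw [lap_eq (pb_cd hv β 2).contDiffAt]
  simp only [e]
  rw [h, gin_const_mul_right hd, gin_mul_right (hv.diff x) (pb_diff hv β x), gin_dd_v hv,
    gin_pb hv, gsq_dd, hv.lap_dd]
  have h2 := sqrt2_pos.ne'
  have h3 : Real.sqrt 2 * (psi v x / Real.sqrt 2) = psi v x := by field_simp
  linear_combination (-(1 + β) * (1 - tt v x) * pb β v x) * h3 +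
    ((1 + β) ^ 2 * v x ^ 2 * pb β v x * (1 - tt v x) + (1 + β) * v x ^ 2 * pb β v x * tt v x) *
      sqrt2_mul

/-- the equation of `Y = pb u` -/
theorem lap_pb_mul (hv : Sol v) (β : ℝ) {u : EE n → ℝ} (hu : ContDiff ℝ 2 u) (x : EE n) :
    (Δ fun y => pb β v y * u y) x +
      2 * Real.sqrt 2 * β * v x * gin (dd v) (fun y => pb β v y * u y) x =
    pb β v x * Lm v u x + pb β v x * u x * (-(1 + β) * psi v x * (1 - tt v x) +
      2 * (1 + β) * (1 - β) * v x ^ 2 * (1 - tt v x) + 2 * (1 + β) * v x ^ 2 * tt v x) := by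
  rw [lap_mul' (pb_cd hv β 2).contDiffAt hu.contDiffAt, lap_pb hv,
    gin_mul_right (pb_diff hv β x) (hu.differentiable (by simp) x), gin_pb hv, gsq_dd, Lm_eq,
    gin_comm (pb β v) u, gin_pb hv, gin_comm u (dd v)]
  linear_combination (-2 * β * (1 + β) * v x ^ 2 * pb β v x * (1 - tt v x) * u x) * sqrt2_mul

theorem ge_grad {l F0 F1 F2 Y r w g1 : ℝ} (hl0 : 0 < l) (hF0 : 0 < F0) (hF1 : 0 < F1) (hY : 0 < Y)
    (hw : 0 < w) (hr : 0 ≤ r) (hi : Y * F1 ≤ 5 / 2 * F0) (cv : F0 ≤ Y ^ 2 * F2)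
    (hg1 : |g1| ≤ r * (l * w)) : -(2 * l ^ 2 * (F0 * w)) ≤ F2 * r ^ 2 * w + F1 * g1 := by
  obtain ⟨a, ha⟩ : ∃ a, r = a * Y := ⟨r / Y, by field_simp⟩
  have ha0 : 0 ≤ a := nonneg_of_mul_nonneg_left (ha ▸ hr) hY
  have b1 : F0 * a ^ 2 ≤ F2 * r ^ 2 := by
    have := mul_le_mul_of_nonneg_right cv (sq_nonneg a)
    rw [ha]; linarith
  have b2 : F1 * r ≤ 5 / 2 * F0 * a := by
    have := mul_le_mul_of_nonneg_right hi ha0
    rw [ha]; linarith
  have b3 := mul_le_mul_of_nonneg_left (neg_le_of_abs_le hg1) hF1.le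
  have b4 := mul_le_mul_of_nonneg_right b2 (mul_pos hl0 hw).le
  have b5 : 5 / 2 * a * l ≤ a ^ 2 + 2 * l ^ 2 := by
    nlinarith [sq_nonneg (a - 5 / 4 * l), sq_nonneg l]
  have b6 := mul_le_mul_of_nonneg_right b5 (mul_pos hF0 hw).le
  have b7 := mul_le_mul_of_nonneg_right b1 hw.le
  linarith

theorem ge_zero {β ψ s t : ℝ} (h0 : 0 ≤ β) (h1 : β < 1) (hψ : ψ = 1 - s ^ 2) (hψ0 : 0 < ψ)
    (ht0 : 0 ≤ t) (ht1 : t ≤ 1) {c0 : ℝ} (hc0 : c0 = 2 * ψ + (-(1 + β) * ψ * (1 - t) +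
      2 * (1 + β) * (1 - β) * s ^ 2 * (1 - t) + 2 * (1 + β) * s ^ 2 * t)) :
    0 ≤ c0 ∧ 2 * (1 - β) ≤ 2 * c0 + (2 * β * ψ * (1 - t) - 4 * β * s ^ 2 * t) := by
  have q1 : 0 ≤ s ^ 2 * (1 - t) := mul_nonneg (sq_nonneg s) (by linarith)
  have q2 : 0 ≤ s ^ 2 * t := mul_nonneg (sq_nonneg s) ht0
  have q3 : 0 ≤ ψ * t := mul_nonneg hψ0.le ht0
  have q4 : 0 ≤ (1 - β) * (s ^ 2 * (1 - t)) := mul_nonneg (by linarith) q1
  have q5 := mul_nonneg h0 q3
  have q6 := mul_nonneg h0 q4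
  have q7 := mul_nonneg h0 q2
  have q8 := mul_pos (sub_pos.2 h1) hψ0
  refine ⟨by rw [hc0]; linarith, ?_⟩
  have : 2 * c0 + (2 * β * ψ * (1 - t) - 4 * β * s ^ 2 * t) - 2 * (1 - β) =
      2 * (ψ * t) + 2 * ((1 - β) * (s ^ 2 * (1 - t))) + 4 * (β * ((1 - β) * (s ^ 2 * (1 - t)))) +
        2 * (s ^ 2 * t) + 2 * (β * (s ^ 2 * t)) + 2 * (β * ψ) := by
    rw [hc0, hψ]; ring
  linarith [mul_nonneg h0 hψ0.le]

theorem ge_alg {β l F0 F1 F2 Y r w g1 g2 ψ s t L p g G R : ℝ} (h0 : 0 ≤ β) (h1 : β < 1)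
    (hl : l = (1 - β) / 10) (hF0 : 0 < F0) (hF1 : 0 < F1) (hY : 0 < Y) (hw : 0 < w) (hr : 0 ≤ r)
    (lo : 2 * F0 ≤ Y * F1) (hi : Y * F1 ≤ 5 / 2 * F0) (cv : F0 ≤ Y ^ 2 * F2)
    (hg1 : |g1| ≤ r * (l * w)) (hg2 : |g2| ≤ l * w) (hψ : ψ = 1 - s ^ 2) (hψ0 : 0 < ψ)
    (hs : |s| < 1) (ht0 : 0 ≤ t) (ht1 : t ≤ 1) (hR : R * R = 2) (hR0 : 0 < R) (hp : 0 < p)
    {u : ℝ} (hYu : Y = p * u) (hL : -L + 2 * ψ * u ≤ g)
    (hy : F1 * (p * g) ≤ 5 / 2 * (l * F0 + G / l ^ 2)) :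
    (1 - β) * (F0 * w) ≤ 5 / 2 / l ^ 2 * (G * w) + (F2 * r ^ 2 * w + F1 * g1 +
      F1 * w * (p * L + Y * (-(1 + β) * ψ * (1 - t) + 2 * (1 + β) * (1 - β) * s ^ 2 * (1 - t) +
        2 * (1 + β) * s ^ 2 * t)) +
      2 * R * β * ((ψ / R * (1 - t) - R * s ^ 2 * t) * F0 * w + s * F0 * g2)) := by
  have hl0 : 0 < l := by rw [hl]; linarith
  have hl1 : l ≤ 1 / 10 := by rw [hl]; linarith
  have a1 := ge_grad hl0 hF0 hF1 hY hw hr hi cv hg1
  obtain ⟨c0, hc0⟩ : ∃ c0, c0 = 2 * ψ + (-(1 + β) * ψ * (1 - t) +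
    2 * (1 + β) * (1 - β) * s ^ 2 * (1 - t) + 2 * (1 + β) * s ^ 2 * t) := ⟨_, rfl⟩
  obtain ⟨hc, a2⟩ := ge_zero h0 h1 hψ hψ0 ht0 ht1 hc0
  have a3 : 2 * F0 * c0 ≤ Y * F1 * c0 := mul_le_mul_of_nonneg_right lo hc
  have a4 : p * (2 * ψ * u - g) ≤ p * L := mul_le_mul_of_nonneg_left (by linarith) hp.le
  have a5 : F1 * w * (p * (2 * ψ * u - g)) ≤ F1 * w * (p * L) :=
    mul_le_mul_of_nonneg_left a4 (by positivity)
  have a6 : -(3 * l * (F0 * w)) ≤ 2 * R * β * (s * F0 * g2) := by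
    have hR3 : 2 * R ≤ 3 := by
      by_contra h
      have := mul_lt_mul'' (not_le.1 h) (not_le.1 h) (by norm_num) (by norm_num)
      linarith
    have c1 : |s * g2| ≤ l * w := by
      rw [abs_mul]
      exact (mul_le_of_le_one_left (abs_nonneg _) hs.le).trans hg2
    have c2 : 0 ≤ 2 * R * β := by positivity
    have c3 : 2 * R * β ≤ 3 := (mul_le_of_le_one_right (by positivity) h1.le).trans hR3
    have c4 := mul_le_mul_of_nonneg_left (neg_le_of_abs_le c1) (mul_nonneg c2 hF0.le)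
    have c5 := mul_le_mul_of_nonneg_right c3 (mul_pos hF0 (mul_pos hl0 hw)).le
    linarith
  have e1 : 2 * R * β * ((ψ / R * (1 - t) - R * s ^ 2 * t) * F0 * w) =
      (2 * β * ψ * (1 - t) - 4 * β * s ^ 2 * t) * (F0 * w) := by
    have : R * (ψ / R) = ψ := by field_simp
    linear_combination (2 * β * (1 - t) * F0 * w) * this - (2 * β * s ^ 2 * t * F0 * w) * hR
  have a7 := mul_le_mul_of_nonneg_right hy hw.le
  have a8 := mul_le_mul_of_nonneg_right a3 hw.le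
  have a9 := mul_le_mul_of_nonneg_right a2 (mul_pos hF0 hw).le
  have a10 : (2 * l ^ 2 + 3 * l + 5 / 2 * l) * (F0 * w) ≤ (1 - β) * (F0 * w) := by
    refine mul_le_mul_of_nonneg_right ?_ (mul_pos hF0 hw).le
    have := mul_le_mul_of_nonneg_left hl1 hl0.le
    linarith
  have e2 : 5 / 2 * (l * F0 + G / l ^ 2) * w = 5 / 2 * l * (F0 * w) + 5 / 2 / l ^ 2 * (G * w) := by
    ring
  have e3 : F1 * w * (p * (2 * ψ * u - g)) = 2 * ψ * (Y * F1 * w) - F1 * (p * g) * w := by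
    rw [hYu]; ring
  have e4 : Y * F1 * c0 * w = 2 * ψ * (Y * F1 * w) + F1 * w * (Y * (-(1 + β) * ψ * (1 - t) +
      2 * (1 + β) * (1 - β) * s ^ 2 * (1 - t) + 2 * (1 + β) * s ^ 2 * t)) := by
    rw [hc0]; ring
  rw [mul_add (2 * R * β), e1, mul_add (F1 * w)]
  linarith

theorem geS (n : ℕ) : GEStmt n := by
  intro β h0 h1
  set l := (1 - β) / 10 with hl
  have hl0 : 0 < l := by rw [hl]; linarith
  have hl1 : l ≤ 1 := by rw [hl]; linarith
  have hβ : 0 < 1 - β := by linarith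
  refine ⟨l, 5 / 2 / l ^ 2 / (1 - β), hl0, by positivity, ?_⟩
  intro v P om u g M hv hw hu hg hb hL
  set Y : EE n → ℝ := fun y => pb β v y * u y with hY
  have hY2 : ContDiff ℝ 2 Y := (pb_cd hv β 2).mul hu
  have hY1 : ContDiff ℝ 1 Y := hY2.of_le (by norm_num)
  have hYd : Differentiable ℝ Y := hY1.differentiable (by simp)
  have hYp : ∀ x, 0 < Y x := fun x => mul_pos (pb_pos hv β x) (hb x).1
  have hYM : ∀ x, Y x ≤ M := fun x =>
    (mul_le_of_le_one_left (hb x).1.le (pb_le_one hv h0 x)).trans (hb x).2.1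
  have hM : 0 < M := (hYp 0).trans_le (hYM 0)
  have hF : ContDiff ℝ 1 fun x => P.F (Y x) := P.cd_comp hY1 hYp
  have hF' : ContDiff ℝ 1 fun x => deriv P.F (Y x) := P.cd_comp_deriv hY1 hYp
  have hFb : ∀ x, |P.F (Y x)| ≤ P.F M := fun x => by
    rw [abs_of_pos (P.pos _ (hYp x))]; exact P.mono (hYp x).le (hYM x)
  have hF'b : ∀ x, |deriv P.F (Y x)| ≤ 5 / 2 * (P.W M * M) := fun x => by
    rw [abs_of_pos (P.deriv_pos (hYp x))]
    refine (P.deriv_le (hYp x)).trans (mul_le_mul_of_nonneg_left ?_ (by norm_num))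
    have e : P.F (Y x) / Y x = P.W (Y x) * Y x := by
      have := (hYp x).ne'
      rw [Prof.W]; field_simp
    rw [e]
    exact mul_le_mul (P.W_mono (hYp x) (hYM x)) (hYM x) (hYp x).le (P.W_pos hM).le
  have hn : ∀ i x, |pdv i (dd v) x| ≤ 1 := fun i x =>
    (Ker.abs_pdv_le_fderiv _ i x).trans ((norm_grad _ x).symm.le.trans (hv.norm_grad_dd_le x))
  have hYi : ∀ i x, |pdv i Y x| ≤ 5 * M := fun i x => by
    have e : pdv i Y x = pdv i (pb β v) x * u x + pb β v x * pdv i u x :=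
      pdv_mul (pb_diff hv β x) (hu.differentiable (by simp) x) i
    have b1 : |pdv i u x| ≤ M :=
      (Ker.abs_pdv_le_fderiv _ i x).trans ((norm_grad _ x).symm.le.trans (hb x).2.2.1)
    have b2 : |pdv i (pb β v) x| ≤ 4 := by
      rw [pdv_pb hv]
      simp only [abs_mul, abs_neg, abs_of_pos sqrt2_pos, abs_of_pos (pb_pos hv β x),
        abs_of_pos (show 0 < 1 + β by linarith)]
      have c1 : Real.sqrt 2 ≤ 2 := by nlinarith [sqrt2_mul, sqrt2_pos]
      calc _ ≤ 2 * 2 * 1 * 1 * (1 : ℝ) := by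
            gcongr
            · exact (pb_pos hv β x).le
            · linarith
            · exact (hv.lt x).le
            · exact pb_le_one hv h0 x
            · exact hn i x
        _ = 4 := by norm_num
    rw [e]
    refine (abs_add_le _ _).trans ?_
    rw [abs_mul, abs_mul, abs_of_pos (pb_pos hv β x), abs_of_pos (hb x).1]
    nlinarith [mul_le_mul b2 (hb x).2.1 (hb x).1.le (by norm_num : (0 : ℝ) ≤ 4),
      mul_le_mul (pb_le_one hv h0 x) b1 (abs_nonneg _) zero_le_one]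
  set a1 : EE n → ℝ := fun y => deriv P.F (Y y) * om y with ha1
  set a2 : EE n → ℝ := fun y => 2 * Real.sqrt 2 * β * (v y * (P.F (Y y) * om y)) with ha2
  have ha1c : ContDiff ℝ 1 a1 := hF'.mul hw.cd
  have ha2c : ContDiff ℝ 1 a2 := contDiff_const.mul ((hv.cd 1).mul (hF.mul hw.cd))
  have key := div_le' (X := fun i y => a1 y * pdv i Y y + a2 y * pdv i (dd v) y)
    (a := fun x => (1 - β) * (P.F (Y x) * om x))
    (b := fun x => 5 / 2 / l ^ 2 * (P.F (pb β v x * g x) * om x))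
    (fun i => (ha1c.mul (contDiff_pdv hY2 (by norm_num) i)).add
      (ha2c.mul (contDiff_pdv (hv.dd_cd 2) (by norm_num) i))) (fun i => ?_)
    ((hw.integ hF.continuous hFb).const_mul _)
    ((integ_F hv h0 P hw hg fun x => ⟨(hb x).2.2.2.1, (hb x).2.2.2.2⟩).const_mul _) fun x => ?_
  · rw [integral_const_mul, integral_const_mul] at key
    rw [div_mul_eq_mul_div, le_div_iff₀ hβ, mul_comm]
    exact key
  · refine Integrable.add ?_ ?_
    · refine ((hw.integ hF'.continuous hF'b).mul_bdd (c := 5 * M)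
        (St.continuous_pdv hY1 i).aestronglyMeasurable (ae_of_all _ (hYi i)))
    · refine Integrable.mul_bdd (c := 1) (Integrable.const_mul ?_ _)
        (hv.pdv_dd_sm i).continuous.aestronglyMeasurable (ae_of_all _ (hn i))
      exact (hw.integ hF.continuous hFb).bdd_mul (c := 1) hv.sm.continuous.aestronglyMeasurable
        (ae_of_all _ fun x => (hv.lt x).le)
  · have d1 : DifferentiableAt ℝ a1 x := ha1c.differentiable (by simp) x
    have d2 : DifferentiableAt ℝ a2 x := ha2c.differentiable (by simp) x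
    have dF : DifferentiableAt ℝ (fun y => P.F (Y y)) x := hF.differentiable (by simp) x
    have dF' : DifferentiableAt ℝ (fun y => deriv P.F (Y y)) x := hF'.differentiable (by simp) x
    have e0 : ∑ i, pdv i (fun y => a1 y * pdv i Y y + a2 y * pdv i (dd v) y) x =
        (gin Y a1 x + a1 x * (Δ Y) x) + (gin (dd v) a2 x + a2 x * (Δ (dd v)) x) := by
      rw [← div_mul_grad d1 hY2.contDiffAt, ← div_mul_grad d2 (hv.dd_cd 2).contDiffAt,
        ← Finset.sum_add_distrib]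
      exact Finset.sum_congr rfl fun i _ => pdv_add (d1.mul (diffAt_pdv hY2.contDiffAt i))
        (d2.mul (diffAt_pdv (hv.dd_cd 2).contDiffAt i)) i
    have e1 : gin Y a1 x = deriv (deriv P.F) (Y x) * ‖∇ Y x‖ ^ 2 * om x +
        deriv P.F (Y x) * gin Y om x := by
      rw [ha1, gin_mul_right dF' (hw.diff x), gin_comp_right (P.hd2 (hYp x)) (hYd x), gin_self,
        gsq_eq]
    have e2 : gin (dd v) a2 x = 2 * Real.sqrt 2 * β * (psi v x / Real.sqrt 2 * (1 - tt v x) *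
        (P.F (Y x) * om x) + v x * (deriv P.F (Y x) * gin (dd v) Y x * om x +
          P.F (Y x) * gin (dd v) om x)) := by
      rw [ha2, gin_const_mul_right ((hv.diff x).fun_mul (dF.fun_mul (hw.diff x))),
        gin_mul_right (hv.diff x) (dF.fun_mul (hw.diff x)), gin_mul_right dF (hw.diff x),
        gin_comp_right (P.hd (hYp x)) (hYd x), gin_dd_v hv]
    have e3 := lap_pb_mul hv β hu x
    have al := ge_alg (G := P.F (pb β v x * g x)) h0 h1 hl (P.pos _ (hYp x))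
      (P.deriv_pos (hYp x)) (hYp x) (hw.pos x)
      (norm_nonneg (∇ Y x)) (P.lo _ (hYp x)) (P.hi _ (hYp x)) (P.cv _ (hYp x)) (hw.abs_gin Y x)
      (hw.abs_nor hv x) (rfl : psi v x = _) (hv.psi_pos x) (hv.lt x) (hv.tt_nonneg x)
      (tt_le_one v x) sqrt2_mul sqrt2_pos (pb_pos hv β x) (rfl : Y x = _) (hL x)
      (P.youngD (hYp x) (mul_nonneg (pb_pos hv β x).le (hb x).2.2.2.1) hl0 hl1)
    rw [e0, e1, e2, hv.lap_dd]
    refine al.trans (le_of_eq ?_)
    simp only [ha1, ha2]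
    change (Δ Y) x + 2 * Real.sqrt 2 * β * v x * gin (dd v) Y x = pb β v x * Lm v u x + Y x * _ at e3
    linear_combination (-(deriv P.F (Y x) * om x)) * e3

end

end Crest.Agent.N067.Y
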