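import Crest.Agent.N067.Y.Ord

/-!
# Row 67, block X5 (helper54): frozen definitions and statements of the truncated SSY estimate

`b = |Hess d|² = hsq (dd v)`, `n = ∇d`, `pb = ψ^(1+β)`, profile `F` (model
`y^(5/2) / √(1 + ρ² y)`), `W(y) = F y / y²` is increasing, weights are log-Lipschitz.
-/

set_option autoImplicit false

open MeasureTheory Laplacian InnerProductSpace Topology Filter Set
open scoped RealInnerProductSpace Gradient ContDiff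

namespace Crest.Agent.N067.Y

open Crest.Agent.R077

noncomputable section

variable {n : ℕ}

/-- SSY profiles: `F (a²) = a² f(a)²` -/
structure Prof where
  F : ℝ → ℝ
  sm : ContDiffOn ℝ ∞ F (Ioi 0)
  zero : F 0 = 0
  pos : ∀ y, 0 < y → 0 < F y
  lo : ∀ y, 0 < y → 2 * F y ≤ y * deriv F y
  hi : ∀ y, 0 < y → y * deriv F y ≤ 5 / 2 * F y
  cv : ∀ y, 0 < y → F y ≤ y ^ 2 * deriv (deriv F) y

/-- `W = f² / a²` -/
def Prof.W (P : Prof) (y : ℝ) : ℝ := P.F y / y ^ 2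

/-- the exponent `p = a f' / f ∈ [1, 3/2]` -/
def Prof.p (P : Prof) (y : ℝ) : ℝ := y * deriv P.F y / P.F y - 1

/-- log-Lipschitz integrable weights -/
structure Wt (lam : ℝ) (om : EE n → ℝ) : Prop where
  cd : ContDiff ℝ 1 om
  pos : ∀ x, 0 < om x
  int : Integrable om
  lip : ∀ x, ‖∇ om x‖ ≤ lam * om x

/-- non planar strict solutions -/
structure Pos (v : EE n → ℝ) : Prop extends Sol v where
  tpos : ∀ x, 0 < tt v x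

/-- `ψ` as a function of `d` -/
def Psi (s : ℝ) : ℝ := 1 - Real.tanh (s / Real.sqrt 2) ^ 2

/-- the weight of the SSY inequality -/
def mh (h s : ℝ) : ℝ := Psi (s / h) ^ 2 / h

/-- `ψ^(1+β)` -/
def pb (β : ℝ) (v : EE n → ℝ) (x : EE n) : ℝ := psi v x ^ (1 + β)

/-- `N² |δ f|²`, the tangential part of the gradient -/
def tg (v f : EE n → ℝ) (x : EE n) : ℝ := (1 - tt v x) * gsq f x - gin (dd v) f x ^ 2

/-- `∇d ∧ ∇f` -/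
def wg (v f : EE n → ℝ) (i j : Fin n) (x : EE n) : ℝ :=
  pdv i (dd v) x * pdv j f x - pdv j (dd v) x * pdv i f x

/-- `|Ω|² + |∇Ω|²` for `Ω = ∇d ∧ ∇t` -/
def os (v : EE n → ℝ) (x : EE n) : ℝ :=
  ∑ i, ∑ j, (wg v (tt v) i j x ^ 2 + gsq (wg v (tt v) i j) x)

/-- `|δ b|`, regularised -/
def yb (v : EE n → ℝ) (ε : ℝ) (x : EE n) : ℝ := √(tg v (hsq (dd v)) x + ε ^ 2)

/-- `1` for `t ≤ e`, `0` for `t ≥ 2 e` -/
def cut (e : ℝ) (v : EE n → ℝ) (x : EE n) : ℝ := Real.smoothTransition (2 - tt v x / e)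

/-- the main quantity -/
def TT (β : ℝ) (v : EE n → ℝ) (P : Prof) (om : EE n → ℝ) : ℝ :=
  ∫ x, P.F (pb β v x * tt v x) * om x

/-- cores and ridges -/
def BAD (β : ℝ) (v : EE n → ℝ) (P : Prof) (om : EE n → ℝ) (e : ℝ) : ℝ :=
  ∫ x in {x | e ≤ tt v x}, P.F (pb β v x) * om x

/-- the cost of the weight -/
def LAM (v : EE n → ℝ) (P : Prof) (om : EE n → ℝ) : ℝ :=
  ∫ x, P.F ((‖∇ om x‖ / om x) ^ 2) * (psi v x ^ 2 * om x)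

/-- the mass -/
def MU (v om : EE n → ℝ) : ℝ := ∫ x, psi v x ^ 2 * om x

/-- GE (helper54): the global Orlicz estimate -/
def GEStmt (n : ℕ) : Prop := ∀ β : ℝ, 0 ≤ β → β < 1 → ∃ lam C : ℝ, 0 < lam ∧ 0 ≤ C ∧
  ∀ (v : EE n → ℝ) (P : Prof) (om u g : EE n → ℝ) (M : ℝ), Sol v → Wt lam om →
    ContDiff ℝ 2 u → Continuous g →
    (∀ x, 0 < u x ∧ u x ≤ M ∧ ‖∇ u x‖ ≤ M ∧ 0 ≤ g x ∧ g x ≤ M) →
    (∀ x, -Lm v u x + 2 * psi v x * u x ≤ g x) →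
    ∫ x, P.F (pb β v x * u x) * om x ≤ C * ∫ x, P.F (pb β v x * g x) * om x

/-- NP1: from all depths to the centre -/
def NP1Stmt (n : ℕ) : Prop := ∀ β K δ : ℝ, 0 ≤ β → β < 1 → 0 < δ →
  ∃ e1 lam : ℝ, 0 < e1 ∧ 0 < lam ∧ ∀ e, 0 < e → e ≤ e1 → ∃ C : ℝ, 0 ≤ C ∧
    ∀ (v : EE n → ℝ) (P : Prof) (om y : EE n → ℝ), Pos v → Wt lam om → ContDiff ℝ 1 y →
      (∀ x, 0 < y x ∧ y x ≤ K) →
      (∀ x, tt v x ≤ 1 / 4 → |gin (dd v) y x| ≤ K * (tt v x * √(tt v x))) →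
      ∫ x, P.F (pb β v x * y x) * (cut e v x ^ 2 * om x) ≤
        200 * (∫ x, psi v x ^ 8 * P.F (y x) * (cut e v x ^ 2 * om x)) +
          δ * TT β v P om + C * BAD β v P om e

/-- NP2: change of the weight in the normal direction -/
def NP2Stmt (n : ℕ) : Prop := ∀ β K M δ : ℝ, 0 ≤ β → β < 1 → 0 < δ →
  ∃ e1 lam : ℝ, 0 < e1 ∧ 0 < lam ∧ ∀ e, 0 < e → e ≤ e1 → ∃ C : ℝ, 0 ≤ C ∧
    ∀ (v : EE n → ℝ) (P : Prof) (om y : EE n → ℝ) (m1 m2 : ℝ → ℝ) (ε : ℝ), Pos v → Wt lam om →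
      ContDiff ℝ 1 y → 0 < ε → ε ≤ 1 → (∀ x, 0 < y x ∧ y x ≤ K * (tt v x + ε)) →
      (∀ x, tt v x ≤ 1 / 4 → |gin (dd v) y x| ≤ K * (tt v x * √(tt v x))) →
      Continuous m1 → Continuous m2 → (∀ s, |m1 s| ≤ M * Psi s ^ 8 ∧ |m2 s| ≤ M * Psi s ^ 8) →
      ∫ s, m1 s = ∫ s, m2 s →
      ∫ x, m1 (dd v x) * P.F (y x) * (cut e v x ^ 2 * om x) ≤
        (∫ x, m2 (dd v x) * P.F (y x) * (cut e v x ^ 2 * om x)) +
          δ * TT β v P om + C * (BAD β v P om e + P.F ε * MU v om)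

/-- YB: `yb` and `b + ε` are admissible for NP1 and NP2 -/
def YBStmt (n : ℕ) : Prop := ∃ K : ℝ, 1 ≤ K ∧ ∀ (v : EE n → ℝ) (ε : ℝ), Pos v → 0 < ε →
  ContDiff ℝ 1 (yb v ε) ∧ ∀ x, 0 < yb v ε x ∧ yb v ε x ≤ K * (tt v x + ε) ∧
    |gin (dd v) (yb v ε) x| ≤ K * (tt v x * √(tt v x)) ∧
    |gin (dd v) (hsq (dd v)) x| ≤ K * (tt v x * √(tt v x))

/-- OM: the tangential gradient of `t` is small -/
def OMStmt (n : ℕ) : Prop := ∀ β δ : ℝ, 0 ≤ β → β < 1 → 0 < δ →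
  ∃ C0 e1 lam : ℝ, 0 ≤ C0 ∧ 0 < e1 ∧ 0 < lam ∧ ∀ e, 0 < e → e ≤ e1 → ∃ C : ℝ, 0 ≤ C ∧
    ∀ (v : EE n → ℝ) (P : Prof) (om : EE n → ℝ) (ε : ℝ), Pos v → Wt lam om → 0 < ε → ε ≤ 1 →
      ∫ x, P.F (pb β v x * tt v x) / tt v x ^ 2 * os v x * om x ≤
        δ * TT β v P om + C0 * (∫ x, psi v x ^ 8 * P.F (yb v ε x) * (cut e v x ^ 2 * om x)) +
          C * BAD β v P om e

/-- the data of SK: `yy = |A₀|²`, `HH = H` on `{t ≤ 1/4}` -/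
structure SKData (yy HH : Fam n) (K θ e1 C : ℝ) : Prop where
  o2 : Ord 2 yy
  oH : Ord 2 HH
  nonneg : ∀ v, Sol v → ∀ x, 0 ≤ yy v x
  cmp : ∀ v, Sol v → ∀ x, tt v x ≤ 1 / 4 → |yy v x - hsq (dd v) x| ≤ K * tt v x ^ 2
  cmp' : ∀ v, Sol v → ∀ x, tt v x ≤ 1 / 4 →
    tg v (hsq (dd v)) x ≤ 2 * tg v (yy v) x + K * tt v x ^ 4
  nor : ∀ v, Sol v → ∀ x, tt v x ≤ 1 / 4 → |gin (dd v) (yy v) x| ≤ K * (√(yy v x) * tt v x)
  dH : ∀ v, Sol v → ∀ x, tt v x ≤ 1 / 4 → tg v (HH v) x ≤ K * os v x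
  /-- Simons + Kato, tested with `W(Y) g² m(d)`, `Y = yy + ε` -/
  sim : ∀ (v : EE n → ℝ) (P : Prof) (ε M : ℝ) (m : ℝ → ℝ) (g : EE n → ℝ), Sol v → 0 < ε → ε ≤ 1 →
    ContDiff ℝ 1 m → (∀ s, 0 ≤ m s ∧ m s ≤ M ∧ |deriv m s| ≤ M) → ContDiff ℝ 1 g →
    (∀ x, e1 ≤ tt v x → g x = 0) → Integrable (fun x => g x ^ 2) → Integrable (gsq g) →
    ∫ x, P.p (yy v x + ε) ^ 2 * P.W (yy v x + ε) * (tg v (yy v) x / (4 * (yy v x + ε))) *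
        (g x ^ 2 * m (dd v x)) ≤
      θ * (∫ x, P.F (yy v x + ε) * (g x ^ 2 * m (dd v x))) +
        C * (∫ x, P.W (yy v x + ε) * (tg v (HH v) x + tt v x ^ 4) * (g x ^ 2 * m (dd v x))) +
        C * ∫ x, P.F (yy v x + ε) / (yy v x + ε) * (gsq g x * m (dd v x))

/-- SK (helper66): Simons and Kato on the level sets of `d` -/
def SKStmt (n : ℕ) : Prop := 3 ≤ n → n ≤ 8 → ∃ (yy HH : Fam n) (K θ e1 C : ℝ),
  0 ≤ K ∧ 0 ≤ θ ∧ θ < 1 ∧ 0 < e1 ∧ 0 ≤ C ∧ SKData yy HH K θ e1 C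

/-- ST (helper16): stability on the level sets near `d = 0` -/
def STStmt (n : ℕ) : Prop := ∀ β η δ : ℝ, 0 ≤ β → β < 1 → 0 < η → 0 < δ →
  ∃ h e1 lam : ℝ, 0 < h ∧ h ≤ 1 / 8 ∧ 0 < e1 ∧ 0 < lam ∧
    ∀ (v : EE n → ℝ) (P : Prof) (om z A : EE n → ℝ) (M : ℝ), Pos v → Stable v → Wt lam om →
      ContDiff ℝ 1 z → (∀ x, e1 ≤ tt v x → z x = 0) → Integrable (fun x => z x ^ 2) →
      Integrable (gsq z) → Continuous A → (∀ x, 0 ≤ A x ∧ A x ≤ M) →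
      (∀ x s, 0 < s → z x ^ 2 * s ≤ (A x + P.F s) * om x) →
      ∫ x, hsq (dd v) x * z x ^ 2 * mh h (dd v x) ≤
        (1 + η) * (∫ x, tg v z x * mh h (dd v x)) +
          δ * (∫ x, psi v x ^ 8 * gin (dd v) z x ^ 2) +
          δ * (∫ x, psi v x ^ 8 * A x * om x) + δ * TT β v P om

/-- OUT: the Hessian away from the ridges -/
def OUTStmt (n : ℕ) : Prop := ∀ β : ℝ, 0 ≤ β → β < 1 → ∃ lam C : ℝ, 0 < lam ∧ 0 ≤ C ∧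
  ∀ (v : EE n → ℝ) (P : Prof) (om : EE n → ℝ), Pos v → Wt lam om →
    ∫ x in {x | tt v x ≤ psi v x ^ (13 / 10 : ℝ)}, psi v x ^ 2 * P.F (hsq (dd v) x) * om x ≤
      C * TT β v P om

/-- **X5**: the truncated SSY estimate -/
def X5Stmt (n : ℕ) : Prop := ∀ β : ℝ, 0 ≤ β → β < 1 → ∃ e0 lam C : ℝ, 0 < e0 ∧ 0 < lam ∧ 0 ≤ C ∧
  ∀ (v : EE n → ℝ) (P : Prof) (om : EE n → ℝ), Pos v → Stable v → Wt lam om →
    TT β v P om ≤ C * (BAD β v P om e0 + LAM v P om)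

end

end Crest.Agent.N067.Y
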