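import Crest.Agent.N067.Y.Defs

/-!
# Row 67, block X5, OUT (helper19): the pointwise bound along the normal segment
-/

set_option autoImplicit false

open MeasureTheory Laplacian InnerProductSpace Topology Filter Set
open scoped RealInnerProductSpace Gradient ContDiff

namespace Crest.Agent.N067.Y.Ou

open Crest.Agent.R077

noncomputable section

variable {n : ℕ}

/-! ### `ψ` and `d` -/

theorem psi_cosh {v : EE n → ℝ} (h : Sol v) (x : EE n) :
    psi v x * Real.cosh (dd v x / √2) ^ 2 = 1 := by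
  have := Real.cosh_pos (dd v x / √2)
  rw [psi, h.eq_tanh x, Real.tanh_eq_sinh_div_cosh]
  field_simp
  exact Real.cosh_sq_sub_sinh_sq _

theorem exp_sq (s : ℝ) : Real.exp |s / √2| ^ 2 = Real.exp (√2 * |s|) := by
  rw [← Real.exp_nat_mul, abs_div, abs_of_pos sqrt2_pos]
  congr 1
  have := sqrt2_pos
  field_simp
  rw [sqrt2_sq]; push_cast; ring

theorem psi_ge {v : EE n → ℝ} (h : Sol v) (x : EE n) :
    1 ≤ psi v x * Real.exp (√2 * |dd v x|) := by
  rw [← psi_cosh h x, ← exp_sq, ← Real.cosh_abs]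
  refine mul_le_mul_of_nonneg_left (pow_le_pow_left₀ (Real.cosh_pos _).le ?_ 2) (h.psi_pos x).le
  rw [Real.cosh_eq]
  linarith [Real.exp_le_exp.2 (neg_le_self (abs_nonneg (dd v x / √2)))]

theorem psi_le {v : EE n → ℝ} (h : Sol v) (x : EE n) :
    psi v x * Real.exp (√2 * |dd v x|) ≤ 4 := by
  have h1 : Real.exp |dd v x / √2| ≤ 2 * Real.cosh (dd v x / √2) := by
    rw [← Real.cosh_abs, Real.cosh_eq]
    linarith [Real.exp_pos (-|dd v x / √2|)]
  have h2 := mul_le_mul_of_nonneg_left (pow_le_pow_left₀ (Real.exp_pos _).le h1 2) (h.psi_pos x).le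
  rw [exp_sq] at h2
  linarith [psi_cosh h x]

/-! ### uniform constants -/

theorem bd_all {ι : Type} [Fintype ι] {a : ℕ} {F : ι → Fam n} (h : ∀ k, Ord a (F k)) :
    ∃ C : ℝ, 0 ≤ C ∧ ∀ k v, Sol v → ∀ x, |F k v x| ≤ C * √(tt v x) ^ a := by
  choose C h0 hC using fun k => (h k).bd
  exact ⟨∑ k, C k, Finset.sum_nonneg fun k _ => h0 k, fun k v hv x => (hC k v hv x).trans
    (mul_le_mul_of_nonneg_right (Finset.single_le_sum (fun k _ => h0 k) (Finset.mem_univ k))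
      (by positivity))⟩

theorem ord_nB (hk : HKStmt n) (i j : Fin n) : Ord 2 fun v => gin (dd v) (hs (dd v) i j) := by
  refine ((((hk.t2.pdv j).pdv i).const_mul (-1 / 2)).sub
    (Ord.usum fun l => (hk.b1 i l).mul (hk.b1 l j))).congr' fun v hv x => ?_
  have h2 : ∀ y, ContDiffAt ℝ 2 (dd v) y := fun y => (hv.dd_cd 2).contDiffAt
  have h3 : ContDiff ℝ 2 (pdv j (dd v)) := contDiff_infty.1 (hv.pdv_dd_sm j) 2
  have e : pdv j (tt v) = fun y => -2 * gin (dd v) (pdv j (dd v)) y := funext fun y => by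
    rw [tt_fun, pdv_const_sub, pdv_gsq (h2 y), gin]
    simp only [pdv_comm (h2 y) j, neg_mul]
  rw [e, pdv_const_mul ((contDiffAt_gin (m := 1) (h2 x) h3.contDiffAt (by norm_num)).differentiableAt
    (by norm_num)), pdv_gin (h2 x) h3.contDiffAt, Finset.sum_add_distrib]
  simp only [pdv_comm h3.contDiffAt i, gin]
  change _ = ∑ l, pdv l (dd v) x * pdv l (pdv i (pdv j (dd v))) x
  simp only [hs]
  ring

/-- the bounds of the Hessian and its derivatives -/
def KB (n : ℕ) (K : ℝ) : Prop := ∀ v : EE n → ℝ, Sol v → ∀ x i j, |hs (dd v) i j x| ≤ K * √(tt v x) ∧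
  (∀ l, |pdv l (hs (dd v) i j) x| ≤ K * √(tt v x)) ∧
    |gin (dd v) (hs (dd v) i j) x| ≤ K * √(tt v x) ^ 2

theorem exists_KB (hk : HKStmt n) : ∃ K, 0 ≤ K ∧ KB n K := by
  obtain ⟨A, a0, hA⟩ := bd_all fun p : Fin n × Fin n => hk.b1 p.1 p.2
  obtain ⟨B, b0, hB⟩ := bd_all fun p : Fin n × Fin n × Fin n => (hk.b1 p.1 p.2.1).pdv p.2.2
  obtain ⟨C, c0, hC⟩ := bd_all fun p : Fin n × Fin n => ord_nB hk p.1 p.2
  refine ⟨A + B + C, by positivity, fun v hv x i j => ⟨?_, fun l => ?_, ?_⟩⟩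
  · exact (hA (i, j) v hv x).trans (by rw [pow_one]; gcongr; linarith)
  · exact (hB (i, j, l) v hv x).trans (by rw [pow_one]; gcongr; linarith)
  · exact (hC (i, j) v hv x).trans (by gcongr; linarith)

/-! ### the segment -/

theorem hasDerivAt_seg {f : EE n → ℝ} (hf : Differentiable ℝ f) (x w : EE n) (r : ℝ) :
    HasDerivAt (fun s : ℝ => f (x + s • w)) (∑ l, pdv l f (x + r • w) * w l) r := by
  have h1 : HasDerivAt (fun s : ℝ => x + s • w) w r := by
    simpa using ((hasDerivAt_id r).smul_const w).const_add x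
  rw [← fderiv_eq_sum']
  exact (hf _).hasFDerivAt.comp_hasDerivAt r h1

theorem mvt {g g' : ℝ → ℝ} (hg : ∀ r, HasDerivAt g (g' r) r) {s M : ℝ} (hs : 0 ≤ s)
    (h : ∀ r ∈ Ico 0 s, |g' r| ≤ M) : |g s - g 0| ≤ M * s := by
  simpa using norm_image_sub_le_of_norm_deriv_le_segment' (f := g) (f' := g') (a := 0) (b := s)
    (fun r _ => (hg r).hasDerivWithinAt) h s ⟨hs, le_rfl⟩

theorem sum_le {a b : Fin n → ℝ} {A B : ℝ} (hA : 0 ≤ A) (ha : ∀ l, |a l| ≤ A) (hb : ∀ l, |b l| ≤ B) :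
    |∑ l, a l * b l| ≤ n * (A * B) := by
  refine (Finset.abs_sum_le_sum_abs _ _).trans ((Finset.sum_le_card_nsmul _ _ (A * B) fun l _ => ?_).trans
    (by simp))
  rw [abs_mul]
  exact mul_le_mul (ha l) (hb l) (abs_nonneg _) hA

theorem abs_pdv_le {v : EE n → ℝ} (h : Sol v) (l : Fin n) (x : EE n) : |pdv l (dd v) x| ≤ 1 :=
  (sq_le_one_iff_abs_le_one _).1 ((Finset.single_le_sum (f := fun i => pdv i (dd v) x ^ 2)
    (fun _ _ => sq_nonneg _) (Finset.mem_univ l)).trans (h.gsq_dd_le x))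

/-- the constant of the segment -/
def KK (n : ℕ) (K : ℝ) : ℝ := 1 + K + n * (n * K) + n * (n * K * K)

theorem geo {K : ℝ} (hK : 0 ≤ K) (hB : KB n K) {v : EE n → ℝ} (hv : Sol v) (x : EE n) {σ a s D : ℝ}
    (hσ : σ = 1 ∨ σ = -1) (hs0 : 0 ≤ s) (hsD : s ≤ D) (hD : 1 ≤ D) (a1 : a ≤ 1)
    (hx : √(tt v x) ≤ a) (ha : ∀ r ∈ Ico 0 s, √(tt v (x + r • (-σ) • ∇ (dd v) x)) ≤ a) :
    |σ * dd v (x + s • (-σ) • ∇ (dd v) x) + s - σ * dd v x| ≤ KK n K * D ^ 2 * a ∧
      ∀ i j, |hs (dd v) i j (x + s • (-σ) • ∇ (dd v) x) - hs (dd v) i j x| ≤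
        KK n K * D ^ 2 * a ^ 2 := by
  obtain ⟨w, hw⟩ : ∃ w, w = (-σ) • ∇ (dd v) x := ⟨_, rfl⟩
  rw [← hw] at ha ⊢
  have a0 : 0 ≤ a := (Real.sqrt_nonneg _).trans hx
  have σ1 : |σ| = 1 := by rcases hσ with rfl | rfl <;> simp
  have σ2 : σ * σ = 1 := by rcases hσ with rfl | rfl <;> simp
  have wl : ∀ l, w l = -σ * pdv l (dd v) x := fun l => by simp [hw, grad_apply]
  have w1 : ∀ l, |w l| ≤ 1 := fun l => by
    rw [wl, abs_mul, abs_neg, σ1, one_mul]; exact abs_pdv_le hv l x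
  have hA : ∀ r ∈ Ico 0 s, ∀ i, |pdv i (dd v) (x + r • w) - pdv i (dd v) x| ≤ n * K * a * D := by
    intro r hr i
    have := mvt (hasDerivAt_seg ((hv.pdv_dd_sm i).differentiable (by simp)) x w) hr.1
      (M := n * (K * a * 1)) fun q hq => sum_le (by positivity) (fun l => (hB v hv _ l i).1.trans
        (mul_le_mul_of_nonneg_left (ha q ⟨hq.1, hq.2.trans hr.2⟩) hK)) w1
    rw [zero_smul, add_zero] at this
    exact this.trans (mul_le_mul (le_of_eq (by ring)) (hr.2.le.trans hsD) hr.1 (by positivity))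
  have key : ∀ (f : EE n → ℝ) (y : EE n), ∑ l, pdv l f y * w l = -σ * (gin (dd v) f y -
      ∑ l, (pdv l (dd v) y - pdv l (dd v) x) * pdv l f y) := fun f y => by
    rw [gin, ← Finset.sum_sub_distrib, Finset.mul_sum]
    exact Finset.sum_congr rfl fun l _ => by rw [wl]; ring
  have n0 : (0 : ℝ) ≤ n := Nat.cast_nonneg n
  have hD2 : D ≤ D * D := le_mul_of_one_le_left (by linarith) hD
  refine ⟨?_, fun i j => ?_⟩
  · have := mvt (fun r => ((hasDerivAt_seg hv.dd_diff x w r).const_mul σ).fun_add (hasDerivAt_id' r))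
      hs0 (M := a + n * (n * K * a * D * 1)) fun r hr => by
        rw [key, ← mul_assoc, mul_neg, σ2, gin_self]
        have h1 := abs_le.1 (sum_le (by positivity) (hA r hr) fun l => abs_pdv_le hv l (x + r • w))
        have h2 := hv.tt_nonneg (x + r • w)
        have h3 : tt v (x + r • w) ≤ a := by
          have := pow_le_pow_left₀ (Real.sqrt_nonneg _) (ha r hr) 2
          rw [Real.sq_sqrt h2] at this
          nlinarith
        rw [tt_eq] at h2 h3
        rw [abs_le]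
        constructor <;> linarith [h1.1, h1.2]
    rw [zero_smul, add_zero, add_zero] at this
    refine this.trans ((mul_le_mul_of_nonneg_left hsD (by positivity)).trans ?_)
    have h1 : a * D ≤ a * (D * D) := by gcongr
    have h2 : 0 ≤ (K + n * (n * K * K)) * (D * D) * a := by positivity
    unfold KK
    linarith
  · have := mvt (hasDerivAt_seg ((hv.hs_sm i j).differentiable (by simp)) x w) hs0
      (M := K * a ^ 2 + n * (n * K * a * D * (K * a))) fun r hr => by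
        rw [key, abs_mul, abs_neg, σ1, one_mul]
        refine (abs_sub _ _).trans (add_le_add ((hB v hv _ i j).2.2.trans ?_)
          (sum_le (by positivity) (hA r hr) fun l => ((hB v hv _ i j).2.1 l).trans ?_))
        · gcongr; exact ha r hr
        · gcongr; exact ha r hr
    rw [zero_smul, add_zero] at this
    refine this.trans ((mul_le_mul_of_nonneg_left hsD (by positivity)).trans ?_)
    have h1 : K * a ^ 2 * D ≤ K * a ^ 2 * (D * D) := by gcongr
    have h2 : 0 ≤ (1 + n * (n * K)) * (D * D) * a ^ 2 := by positivity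
    unfold KK
    linarith

theorem boot {h : ℝ → ℝ} (hc : Continuous h) {D : ℝ}
    (H : ∀ s ∈ Icc 0 D, (∀ r ∈ Ico 0 s, h r < 1) → h s < 1) : ∀ s ∈ Icc 0 D, h s < 1 := by
  by_contra hn
  push Not at hn
  obtain ⟨s, hs, h1⟩ := hn
  obtain ⟨m, hm, hl⟩ := (isCompact_Icc.inter_right (isClosed_le continuous_const hc)).exists_isLeast
    ⟨s, hs, h1⟩
  exact (H m hm.1 fun r hr => not_le.1 fun h' =>
    hr.2.not_ge (hl ⟨⟨hr.1, hr.2.le.trans hm.1.2⟩, h'⟩)).not_ge hm.2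

theorem num {D E : ℝ} (hD : 0 ≤ D) (hE : E = Real.exp (√2 * (1 / 50) * D)) :
    1 + D / 50 ≤ E ∧ D ^ 4 ≤ 24 * 17 ^ 4 * E ^ 3 := by
  have h1 : D / 50 ≤ √2 * (1 / 50) * D := by nlinarith [Real.one_lt_sqrt_two]
  refine ⟨by linarith [Real.add_one_le_exp (√2 * (1 / 50) * D)], ?_⟩
  have h2 := Real.pow_div_factorial_le_exp (D / 17) (by positivity) 4
  have h3 : Real.exp (D / 17) ≤ E ^ 3 := by
    rw [hE, ← Real.exp_nat_mul]
    exact Real.exp_le_exp.2 (by push_cast; linarith)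
  rw [div_pow, show ((4 : ℕ).factorial : ℝ) = 24 by norm_num [Nat.factorial]] at h2
  linarith

/-- the pointwise bound far from the zero set; `p = ψ^(1/10)` -/
theorem pt (hk : HKStmt n) : ∃ D0 C : ℝ, 0 ≤ C ∧ ∀ v : EE n → ℝ, Sol v → ∀ (x : EE n) (p : ℝ), 0 < p →
    p ^ 10 = psi v x → tt v x ≤ p ^ 13 → D0 ≤ |dd v x| → ∃ x0, ‖x0 - x‖ ≤ |dd v x| ∧ |dd v x0| ≤ 1 ∧
      hsq (dd v) x ≤ C * tt v x0 + C * (p ^ 12 * tt v x) := by
  obtain ⟨K, hK, hB⟩ := exists_KB hk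
  obtain ⟨C, hC, hS⟩ := hk.sharp (1 / 50) (by norm_num)
  obtain ⟨C1, hC1⟩ : ∃ C1, C1 = 4 * C * Real.exp √2 + 1 := ⟨_, rfl⟩
  have c1 : 1 ≤ C1 := by rw [hC1]; exact le_add_of_nonneg_left (by positivity)
  have k1 : 1 ≤ KK n K := by
    have : 0 ≤ K + n * (n * K) + n * (n * K * K) := by positivity
    unfold KK
    linarith
  obtain ⟨A, hA⟩ : ∃ A, A = KK n K ^ 2 * C1 * (24 * 17 ^ 4) * 4 := ⟨_, rfl⟩
  have A0 : 0 ≤ A := by rw [hA]; positivity
  refine ⟨50 * A + 1, 2 * n ^ 2 * (K ^ 2 + A * C1), by positivity, fun v hv x p p0 hp ht hD => ?_⟩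
  obtain ⟨σ, hσ, hσD⟩ : ∃ σ : ℝ, (σ = 1 ∨ σ = -1) ∧ σ * dd v x = |dd v x| := by
    rcases le_total 0 (dd v x) with h | h
    · exact ⟨1, Or.inl rfl, by rw [abs_of_nonneg h, one_mul]⟩
    · exact ⟨-1, Or.inr rfl, by rw [abs_of_nonpos h, neg_one_mul]⟩
  have σ1 : |σ| = 1 := by rcases hσ with rfl | rfl <;> simp
  have ψ1 := psi_le hv x
  have G := fun a s => geo (a := a) (s := s) (D := |dd v x|) hK hB hv x hσ
  have hw : ‖(-σ) • ∇ (dd v) x‖ ≤ 1 := by
    rw [norm_smul, Real.norm_eq_abs, abs_neg, σ1, one_mul]; exact hv.norm_grad_dd_le x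
  rw [hσD] at G
  generalize (-σ) • ∇ (dd v) x = w at G hw
  generalize |dd v x| = D at *
  have D1 : 1 ≤ D := by linarith
  obtain ⟨E, hE⟩ : ∃ E, E = Real.exp (√2 * (1 / 50) * D) := ⟨_, rfl⟩
  obtain ⟨E1, E2⟩ := num (by linarith) hE
  have E3 : 1 ≤ E := by linarith
  have t0 := hv.tt_nonneg x
  have p1 : p ≤ 1 := (pow_le_one_iff_of_nonneg p0.le (by norm_num)).1 (hp ▸ psi_le_one v x)
  have pE : p * E ^ 5 ≤ 4 := by
    by_contra hc
    have h1 : (p * E ^ 5) ^ 10 ≤ 4 := by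
      rw [mul_pow, hp, ← pow_mul, hE, ← Real.exp_nat_mul]
      exact le_of_eq_of_le (by congr 2; push_cast; ring) ψ1
    linarith [le_self_pow₀ (show 1 ≤ p * E ^ 5 by linarith) (show 10 ≠ 0 by norm_num)]
  obtain ⟨τ, hτ⟩ : ∃ τ, τ = C1 * E * tt v x := ⟨_, rfl⟩
  have τ0 : 0 ≤ τ := by rw [hτ]; positivity
  have h1 : KK n K ^ 2 * D ^ 4 * τ * E ≤ A * p ^ 12 :=
    calc _ = KK n K ^ 2 * C1 * D ^ 4 * E ^ 2 * tt v x := by rw [hτ]; ring
      _ ≤ KK n K ^ 2 * C1 * (24 * 17 ^ 4 * E ^ 3) * E ^ 2 * p ^ 13 := by gcongr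
      _ = KK n K ^ 2 * C1 * (24 * 17 ^ 4) * (p * E ^ 5) * p ^ 12 := by ring
      _ ≤ _ := by rw [hA]; gcongr
  have h2 : (KK n K * D ^ 2 * √τ) ^ 2 < 1 := by
    rw [mul_pow, mul_pow, Real.sq_sqrt τ0, ← pow_mul, show 2 * 2 = 4 from rfl]
    have := mul_le_of_le_one_right A0 (pow_le_one₀ p0.le p1 (n := 12))
    exact lt_of_mul_lt_mul_right (a := E) (by linarith) (by linarith)
  have h3 : KK n K * D ^ 2 * √τ < 1 := (sq_lt_one_iff₀ (by positivity)).1 h2
  have h4 : √τ ≤ 1 := (le_mul_of_one_le_left (Real.sqrt_nonneg _)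
    (one_le_mul_of_one_le_of_one_le k1 (one_le_pow₀ D1))).trans h3.le
  have h5 : √(tt v x) ≤ √τ := Real.sqrt_le_sqrt (hτ ▸ le_mul_of_one_le_left t0
    (one_le_mul_of_one_le_of_one_le c1 E3))
  have hn : ∀ r, 0 ≤ r → ‖x - (x + r • w)‖ ≤ r := fun r hr => by
    rw [sub_add_cancel_left, norm_neg, norm_smul, Real.norm_of_nonneg hr]
    exact mul_le_of_le_one_right hr hw
  have h6 : ∀ r ∈ Icc 0 D, |σ * dd v (x + r • w) + r - D| < 1 → √(tt v (x + r • w)) ≤ √τ := by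
    intro r hr h
    refine Real.sqrt_le_sqrt ?_
    have a1 : |dd v (x + r • w)| ≤ D - r + 1 := by
      rw [← one_mul |dd v _|, ← σ1, ← abs_mul, abs_le]
      constructor <;> linarith [(abs_lt.1 h).1, (abs_lt.1 h).2, hr.2]
    have a2 := (psi_ge hv (x + r • w)).trans (mul_le_mul_of_nonneg_left (Real.exp_le_exp.2
      (mul_le_mul_of_nonneg_left a1 sqrt2_pos.le)) (hv.psi_pos _).le)
    have a3 := (hS v hv x (x + r • w)).trans (mul_le_mul_of_nonneg_right (mul_le_mul_of_nonneg_left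
      (Real.exp_le_exp.2 (mul_le_mul_of_nonneg_left (hn r hr.1) (by positivity))) hC) (hv.qq_nonneg x))
    have a4 : Real.exp (√2 * (D - r + 1)) * Real.exp (√2 * (1 + 1 / 50) * r) ≤
        Real.exp (√2 * D) * Real.exp √2 * E := by
      rw [hE, ← Real.exp_add, ← Real.exp_add, ← Real.exp_add]
      exact Real.exp_le_exp.2 (by nlinarith [sqrt2_pos, hr.2])
    have a5 := hv.tt_nonneg (x + r • w)
    have a6 := (hv.psi_pos x).le
    calc tt v (x + r • w) ≤ psi v (x + r • w) * Real.exp (√2 * (D - r + 1)) * tt v (x + r • w) :=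
          le_mul_of_one_le_left a5 a2
      _ = Real.exp (√2 * (D - r + 1)) * qq v (x + r • w) := by rw [qq]; ring
      _ ≤ Real.exp (√2 * (D - r + 1)) * (C * Real.exp (√2 * (1 + 1 / 50) * r) * qq v x) := by gcongr
      _ = C * (Real.exp (√2 * (D - r + 1)) * Real.exp (√2 * (1 + 1 / 50) * r)) * psi v x * tt v x := by
          rw [qq]; ring
      _ ≤ C * (Real.exp (√2 * D) * Real.exp √2 * E) * psi v x * tt v x := by gcongr
      _ = psi v x * Real.exp (√2 * D) * C * Real.exp √2 * E * tt v x := by ring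
      _ ≤ 4 * C * Real.exp √2 * E * tt v x := by gcongr
      _ ≤ τ := by rw [hτ, hC1]; gcongr; linarith
  have h7 := boot (h := fun r => |σ * dd v (x + r • w) + r - D|) (D := D)
    (by have := hv.dd_sm.continuous; fun_prop) fun s hs h =>
      (G _ s hs.1 hs.2 D1 h4 h5 fun r hr => h6 r ⟨hr.1, hr.2.le.trans hs.2⟩ (h r hr)).1.trans_lt h3
  have h8 := (G _ D (by linarith) le_rfl D1 h4 h5 fun r hr =>
    h6 r ⟨hr.1, hr.2.le⟩ (h7 r ⟨hr.1, hr.2.le⟩)).2
  refine ⟨x + D • w, by rw [norm_sub_rev]; exact hn D (by linarith), ?_, ?_⟩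
  · have := h7 D ⟨by linarith, le_rfl⟩
    rw [add_sub_cancel_right, abs_mul, σ1, one_mul] at this
    exact this.le
  have t1 := hv.tt_nonneg (x + D • w)
  have h9 : (KK n K * D ^ 2 * √τ ^ 2) ^ 2 ≤ A * C1 * (p ^ 12 * tt v x) :=
    calc _ = KK n K ^ 2 * D ^ 4 * τ * E * (C1 * tt v x) := by
          rw [Real.sq_sqrt τ0, mul_pow, sq τ]
          nth_rewrite 2 [hτ]
          ring
      _ ≤ A * p ^ 12 * (C1 * tt v x) := by gcongr
      _ = _ := by ring
  have h10 : ∀ i j, hs (dd v) i j x ^ 2 ≤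
      2 * (K ^ 2 * tt v (x + D • w)) + 2 * (A * C1 * (p ^ 12 * tt v x)) := fun i j => by
    have b1 := pow_le_pow_left₀ (abs_nonneg _) (h8 i j) 2
    have b2 := pow_le_pow_left₀ (abs_nonneg _) (hB v hv (x + D • w) i j).1 2
    rw [sq_abs] at b1 b2
    rw [mul_pow, Real.sq_sqrt t1] at b2
    nlinarith [sq_nonneg (2 * hs (dd v) i j (x + D • w) - hs (dd v) i j x)]
  have h11 := Finset.sum_le_sum fun i (_ : i ∈ Finset.univ) =>
    Finset.sum_le_sum fun j (_ : j ∈ Finset.univ) => h10 i j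
  simp only [Finset.sum_const, Finset.card_univ, Fintype.card_fin, nsmul_eq_mul] at h11
  have h12 : 0 ≤ (n : ℝ) ^ 2 * (A * C1) * tt v (x + D • w) := by positivity
  have h13 : 0 ≤ (n : ℝ) ^ 2 * K ^ 2 * (p ^ 12 * tt v x) := by positivity
  unfold hsq
  linarith

end

end Crest.Agent.N067.Y.Ou
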