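import Crest.Agent.N067.Y.NP0

/-! # Row 67, X5: NP1 (helper46): test with the field `v ∇d F(pb y) cut² om` -/

set_option autoImplicit false

open MeasureTheory Laplacian InnerProductSpace Topology Filter Set Metric
open scoped RealInnerProductSpace Gradient ContDiff

namespace Crest.Agent.N067.Y

open Crest.Agent.R077 NP

variable {n : ℕ}

theorem NP.alg1 {s ψ v t γ G D B E R : ℝ} (hs : 7 / 5 ≤ s) (hψ : ψ = 1 - v ^ 2) (hψ0 : 0 < ψ)
    (ht0 : 0 ≤ t) (ht : t ≤ 1 / 10) (hγ : 1 ≤ γ) (hG : 0 ≤ G) (hD : 2 * G ≤ D) (hB : 0 ≤ B)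
    (hGB : 2 / 3 ≤ ψ → G ≤ 26 * B) (hE : |E| ≤ G / 10 + R) :
    G - 200 * B - 4 * R ≤ -4 * (ψ / s * (1 - t)) * G + -4 * v * (-(s * γ * v * (1 - t)) * D + E) -
      s * v * t * (-4 * v * G) := by
  have hv : v ^ 2 ≤ 1 := by linarith
  have hv1 : |v| ≤ 1 := (sq_le_one_iff_abs_le_one _).1 hv
  have h1 : ψ / s * (1 - t) ≤ 5 / 7 * ψ := by
    have : ψ / s ≤ 5 / 7 * ψ := by rw [div_le_iff₀ (by linarith)]; nlinarith
    exact (mul_le_of_le_one_right (div_nonneg hψ0.le (by linarith)) (by linarith)).trans this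
  have h2 : |v * E| ≤ G / 10 + R := by
    rw [abs_mul]; exact (mul_le_of_le_one_left (abs_nonneg _) hv1).trans hE
  have h3 : 63 / 50 ≤ s * γ * (1 - t) := by
    have : 7 / 5 ≤ s * γ := by nlinarith
    nlinarith
  have h4 : 63 / 50 * (v ^ 2 * (2 * G)) ≤ s * γ * (1 - t) * (v ^ 2 * D) :=
    mul_le_mul h3 (mul_le_mul_of_nonneg_left hD (sq_nonneg _)) (by positivity) (by linarith)
  have h5 : 0 ≤ s * t * (v ^ 2 * G) := mul_nonneg (mul_nonneg (by linarith) ht0) (by positivity)
  have h6 := mul_le_mul_of_nonneg_right h1 hG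
  have h7 := (abs_le.1 h2).2
  have h8 : G - 200 * B ≤ 252 / 25 * (v ^ 2 * G) - 20 / 7 * (ψ * G) - 2 / 5 * G := by
    rcases le_total (2 / 3) ψ with h | h
    · have := hGB h
      have h9 : ψ * G ≤ G := mul_le_of_le_one_left hG (by nlinarith [sq_nonneg v])
      have : 0 ≤ v ^ 2 * G := by positivity
      linarith
    · have h9 : ψ * G ≤ 2 / 3 * G := mul_le_mul_of_nonneg_right h hG
      have h10 : 1 / 3 * G ≤ v ^ 2 * G := mul_le_mul_of_nonneg_right (by linarith) hG
      linarith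
  nlinarith

theorem np1 (hk : HKStmt n) : NP1Stmt n := by
  intro β K δ h0 h1 hδ
  obtain ⟨M, hM, hcut⟩ := exists_gin_cut hk
  obtain ⟨K', hK1, hKK⟩ : ∃ K' : ℝ, 1 ≤ K' ∧ K ≤ K' := ⟨max K 1, le_max_right _ _, le_max_left _ _⟩
  refine ⟨min (1 / 20) (δ / (86400 * K' ^ 3)), 1 / 20, by positivity, by norm_num,
    fun e he he1 => ⟨8 * M * K' ^ 3, by positivity, ?_⟩⟩
  intro v P om y hv hw hy hy0 hyn
  have hs := hv.toSol
  have he2 : e ≤ 1 / 20 := he1.trans (min_le_left _ _)
  have he3 : 86400 * K' ^ 3 * e ≤ δ := by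
    have := he1.trans (min_le_right _ _)
    rwa [le_div_iff₀' (by positivity)] at this
  have hZ : ContDiff ℝ 1 fun x => pb β v x * y x := (pb_cd hs β).mul hy
  have hZ0 : ∀ x, 0 < pb β v x * y x := fun x => mul_pos (pb_pos hs β x) (hy0 x).1
  have hZy : ∀ x, P.F (pb β v x * y x) ≤ P.F (y x) := fun x =>
    mono P (hZ0 x).le (mul_le_of_le_one_left (hy0 x).1.le (pb_le hs h0 x))
  have hyK : ∀ x, P.F (y x) ≤ P.F K := fun x => mono P (hy0 x).1.le (hy0 x).2
  have hc := cut_cd hs e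
  have hG : ContDiff ℝ 1 fun x => P.F (pb β v x * y x) * (cut e v x ^ 2 * om x) :=
    (cd P hZ hZ0).mul ((hc.pow 2).mul hw.cd)
  have hw0 : ∀ x, 0 ≤ cut e v x ^ 2 * om x := fun x => mul_nonneg (sq_nonneg _) (hw.pos x).le
  have hw1 : ∀ x, cut e v x ^ 2 * om x ≤ om x := fun x =>
    mul_le_of_le_one_left (hw.pos x).le ((le_abs_self _).trans (cut_sq_le e v x))
  have hGb : ∀ x, |P.F (pb β v x * y x) * (cut e v x ^ 2 * om x)| ≤ P.F K * om x := fun x => by
    rw [abs_of_nonneg (mul_nonneg (nonneg P (hZ0 x).le) (hw0 x))]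
    exact mul_le_mul ((hZy x).trans (hyK x)) (hw1 x) (hw0 x)
      ((nonneg P (hy0 x).1.le).trans (hyK x))
  have i1 := intw hw hG.continuous.aestronglyMeasurable _ hGb
  have hψ8 : ∀ x, 0 ≤ psi v x ^ 8 ∧ psi v x ^ 8 ≤ 1 := fun x =>
    ⟨by positivity, pow_le_one₀ (hs.psi_pos x).le (psi_le_one v x)⟩
  have i2 : Integrable fun x => psi v x ^ 8 * P.F (y x) * (cut e v x ^ 2 * om x) :=
    intw hw (((hs.psi_sm.continuous.pow 8).mul (cont P hy.continuous fun x => (hy0 x).1)).mul
      ((hc.continuous.pow 2).mul hw.cd.continuous)).aestronglyMeasurable (P.F K) fun x => by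
        have := nonneg P (hy0 x).1.le
        rw [abs_of_nonneg (mul_nonneg (mul_nonneg (hψ8 x).1 this) (hw0 x))]
        exact mul_le_mul ((mul_le_of_le_one_left this (hψ8 x).2).trans (hyK x)) (hw1 x) (hw0 x)
          (this.trans (hyK x))
  have i3 := int_TT P hv hw h0
  have i4 := int_BAD P hs hw h0 e
  have key := int_le hs hw (A := 4 * P.F K) (a := fun x => -4 * v x) (contDiff_const.mul (hs.cd 1)) hG
    (fun x => by
      rw [abs_mul, mul_assoc]
      refine mul_le_mul ?_ (hGb x) (abs_nonneg _) (by norm_num)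
      rw [abs_mul]; norm_num; exact (hs.lt x).le)
    (((i1.sub (i2.const_mul 200)).sub (i3.const_mul δ)).sub (i4.const_mul (8 * M * K' ^ 3)))
    fun x => ?_
  · rw [integral_sub' ((i1.sub (i2.const_mul 200)).sub (i3.const_mul δ)) (i4.const_mul _),
      integral_sub' (i1.sub (i2.const_mul 200)) (i3.const_mul δ),
      integral_sub' i1 (i2.const_mul 200), integral_const_mul, integral_const_mul,
      integral_const_mul, ← BAD_eq P hs] at key
    unfold TT
    linarith
  simp only [Pi.sub_apply]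
  have hp := pb_pos hs β x
  have ht := hv.tpos x
  have hT := nonneg P (mul_pos hp ht).le
  have hB := nonneg P hp.le
  have ho := hw.pos x
  have hi := ind_nonneg e v x
  rw [gin_G P hs hw hZ hZ0]
  rcases le_total (2 * e) (tt v x) with h2 | h2
  · rw [cut_zero he h2]
    have : 0 ≤ δ * (P.F (pb β v x * tt v x) * om x) := by positivity
    have : 0 ≤ 8 * M * K' ^ 3 * (ind e v x * (P.F (pb β v x) * om x)) := by positivity
    simp only [ne_eq, OfNat.ofNat_ne_zero, not_false_eq_true, zero_pow, zero_mul, mul_zero,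
      add_zero, sub_zero]
    linarith
  have hg : |pb β v x * gin (dd v) y x| ≤ pb β v x * (K' * (tt v x * √(tt v x))) := by
    rw [abs_mul, abs_of_pos hp]
    exact mul_le_mul_of_nonneg_left ((hyn x (by linarith)).trans
      (mul_le_mul_of_nonneg_right hKK (by positivity))) hp.le
  have hE := abs_gin_G P hs hw hZ0 x (δ := 1 / 60) (by norm_num) (by norm_num) hg
    (hcut v e hs he x h2)
  have a1 := F_sqrt P hp.le hK1 ht.le (tt_le_one v x)
  have a2 : P.F (pb β v x * (K' * (tt v x * √(tt v x)))) * (cut e v x ^ 2 * om x) ≤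
      K' ^ 3 * (2 * e * P.F (pb β v x * tt v x)) * om x :=
    mul_le_mul (a1.trans (by gcongr)) (hw1 x) (hw0 x) (by positivity)
  have a3 : P.F (pb β v x * y x) ≤ K' ^ 3 * P.F (pb β v x) :=
    (mono P (hZ0 x).le (by rw [mul_comm K']; gcongr; exact (hy0 x).2.trans hKK)).trans
      (up P hK1 hp.le)
  have a4 : M * (ind e v x * (P.F (pb β v x * y x) * om x)) ≤
      M * (ind e v x * (K' ^ 3 * P.F (pb β v x) * om x)) := by gcongr
  have a5 := mul_le_mul_of_nonneg_right he3 (mul_nonneg hT ho.le)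
  have a6 := alg1 (s := Real.sqrt 2) (ψ := psi v x) (v := v x) (t := tt v x) (γ := 1 + β)
    (G := P.F (pb β v x * y x) * (cut e v x ^ 2 * om x))
    (D := pb β v x * y x * deriv P.F (pb β v x * y x) * (cut e v x ^ 2 * om x))
    (B := psi v x ^ 8 * P.F (y x) * (cut e v x ^ 2 * om x))
    (R := 10800 * (P.F (pb β v x * (K' * (tt v x * √(tt v x)))) * (cut e v x ^ 2 * om x)) +
      2 * M * (ind e v x * (P.F (pb β v x * y x) * om x)))
    (Real.le_sqrt_of_sq_le (by norm_num)) rfl (hs.psi_pos x) ht.le (by linarith) (by linarith)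
    (mul_nonneg (nonneg P (hZ0 x).le) (hw0 x))
    (by have := mul_le_mul_of_nonneg_right (P.lo _ (hZ0 x)) (hw0 x); linarith)
    (mul_nonneg (mul_nonneg (hψ8 x).1 (nonneg P (hy0 x).1.le)) (hw0 x))
    (fun h => by
      have b1 : (2 / 3 : ℝ) ^ 8 ≤ psi v x ^ 8 := by gcongr
      have b2 := mul_le_mul_of_nonneg_right b1 (nonneg P (hy0 x).1.le)
      have b3 : P.F (pb β v x * y x) ≤ 26 * (psi v x ^ 8 * P.F (y x)) := by
        have := hZy x
        have := nonneg P (hy0 x).1.le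
        norm_num at b2
        linarith
      have := mul_le_mul_of_nonneg_right b3 (hw0 x)
      linarith)
    (hE.trans_eq (by ring))
  rw [gin_const_mul_right (hs.diff x), hs.gin_v, gin_self, ← sub_sub_cancel 1 (gsq (dd v) x),
    ← tt_eq, gin_mul_right ((pb_cd hs β).differentiable (by norm_num) x)
      (hy.differentiable (by norm_num) x), gin_pb hs]
  linarith

end Crest.Agent.N067.Y
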