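import Crest.Agent.N067.Y.NP0

/-! # Row 67, X5: NP2 (helper46): test with the field `μ(d) ∇d F(y) cut² om`, `μ' = m2 - m1` -/

set_option autoImplicit false

open MeasureTheory Laplacian InnerProductSpace Topology Filter Set Metric
open scoped RealInnerProductSpace Gradient ContDiff

namespace Crest.Agent.N067.Y

open Crest.Agent.R077 NP

variable {n : ℕ}

namespace NP

theorem Psi_cosh (s : ℝ) : Psi s = 1 / Real.cosh (s / Real.sqrt 2) ^ 2 := by
  have := Real.cosh_pos (s / Real.sqrt 2)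
  rw [Psi, Real.tanh_eq_sinh_div_cosh]
  field_simp
  rw [Real.cosh_sq]; ring

theorem Psi_pos (s : ℝ) : 0 < Psi s := by
  have := Real.cosh_pos (s / Real.sqrt 2)
  rw [Psi_cosh]; positivity

theorem Psi_le (s : ℝ) : Psi s ≤ 1 := by unfold Psi; nlinarith [sq_nonneg (Real.tanh (s / √2))]

theorem Psi_anti {s r : ℝ} (h : |s| ≤ |r|) : Psi r ≤ Psi s := by
  have h1 := Real.cosh_pos (s / Real.sqrt 2)
  have h2 : Real.cosh (s / Real.sqrt 2) ≤ Real.cosh (r / Real.sqrt 2) := by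
    rw [Real.cosh_le_cosh, abs_div, abs_div]; gcongr
  rw [Psi_cosh, Psi_cosh]; gcongr

theorem Psi_cont : Continuous Psi := by
  have : Psi = fun s => 1 / Real.cosh (s / Real.sqrt 2) ^ 2 := funext Psi_cosh
  rw [this]
  exact continuous_const.div (by fun_prop) fun s => (pow_pos (Real.cosh_pos _) 2).ne'

theorem Psi_int : Integrable Psi := by
  refine (integrable_inv_one_add_sq.const_mul 2).mono' Psi_cont.aestronglyMeasurable
    (Eventually.of_forall fun s => ?_)
  have h1 : |s / Real.sqrt 2| ≤ |Real.sinh (s / Real.sqrt 2)| := by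
    rw [Real.abs_sinh]; exact Real.self_le_sinh_iff.2 (abs_nonneg _)
  have h2 : s ^ 2 / 2 ≤ Real.sinh (s / Real.sqrt 2) ^ 2 := by
    have := sq_le_sq.2 h1
    rwa [div_pow, sqrt2_sq] at this
  rw [Real.norm_of_nonneg (Psi_pos s).le, Psi_cosh, Real.cosh_sq, ← div_eq_mul_inv,
    div_le_div_iff₀ (by positivity) (by positivity)]
  linarith

theorem Psi_dd {v : EE n → ℝ} (hv : Sol v) (x : EE n) : Psi (dd v x) = psi v x := by
  rw [Psi, ← hv.eq_tanh]; rfl

/-- the primitive of a function with integral zero decays -/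
theorem exists_mu {m : ℝ → ℝ} {M : ℝ} (hm : Continuous m) (hM : 0 ≤ M)
    (hb : ∀ s, |m s| ≤ M * Psi s ^ 8) (h0 : ∫ s, m s = 0) : ∃ μ : ℝ → ℝ, (∀ s, HasDerivAt μ (m s) s) ∧
      ∀ s, |μ s| ≤ M * (∫ r, Psi r) * Psi s ^ 6 := by
  have h8 : ∀ s r, |s| ≤ |r| → ‖m r‖ ≤ M * Psi s ^ 6 * Psi r := fun s r h => by
    have h1 := Psi_pos r
    have h2 : Psi r ^ 8 ≤ Psi s ^ 6 * Psi r := by
      have h3 : Psi r ^ 6 ≤ Psi s ^ 6 := pow_le_pow_left₀ h1.le (Psi_anti h) 6
      calc Psi r ^ 8 = Psi r ^ 6 * Psi r * Psi r := by ring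
        _ ≤ Psi r ^ 6 * Psi r := mul_le_of_le_one_right (by positivity) (Psi_le r)
        _ ≤ _ := mul_le_mul_of_nonneg_right h3 h1.le
    rw [mul_assoc]
    exact (hb r).trans (mul_le_mul_of_nonneg_left h2 hM)
  have hi : Integrable m := (Psi_int.const_mul (M * Psi 0 ^ 6)).mono' hm.aestronglyMeasurable
    (Eventually.of_forall fun r => h8 0 r (by simp))
  have hS : ∀ (s : ℝ) (S : Set ℝ), MeasurableSet S → (∀ r ∈ S, |s| ≤ |r|) →
      |∫ r in S, m r| ≤ M * (∫ r, Psi r) * Psi s ^ 6 := fun s S hS h => by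
    have h1 : ‖∫ r in S, m r‖ ≤ ∫ r in S, M * Psi s ^ 6 * Psi r :=
      norm_integral_le_of_norm_le (Psi_int.const_mul _).integrableOn
        ((ae_restrict_mem hS).mono fun r hr => h8 s r (h r hr))
    have h2 : ∫ r in S, Psi r ≤ ∫ r, Psi r :=
      setIntegral_le_integral Psi_int (Eventually.of_forall fun r => (Psi_pos r).le)
    have h3 := Psi_pos s
    rw [integral_const_mul] at h1
    refine h1.trans ((mul_le_mul_of_nonneg_left h2 (by positivity)).trans_eq (by ring))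
  refine ⟨fun s => ∫ r in Iic s, m r, fun s => ?_, fun s => ?_⟩
  · have e : (fun s => ∫ r in Iic s, m r) = fun s => (∫ r in (0 : ℝ)..s, m r) + ∫ r in Iic 0, m r := by
      funext s
      rw [← intervalIntegral.integral_Iic_sub_Iic hi.integrableOn hi.integrableOn]; ring
    rw [e]
    exact (hm.integral_hasStrictDerivAt 0 s).hasDerivAt.add_const _
  · rcases le_total s 0 with h | h
    · exact hS s _ measurableSet_Iic fun r hr => by
        rw [abs_of_nonpos h, abs_of_nonpos (le_trans hr h)]; exact neg_le_neg hr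
    · have e : ∫ r in Iic s, m r = -∫ r in Ioi s, m r := by
        have := intervalIntegral.integral_Iic_add_Ioi (b := s) hi.integrableOn hi.integrableOn
        linarith
      simp only [e, abs_neg]
      exact hS s _ measurableSet_Ioi fun r hr => by
        rw [abs_of_nonneg h]; exact (le_of_lt hr).trans (le_abs_self _)

theorem alg2 {m μ s v t G E B η R : ℝ} (hs0 : 0 ≤ s) (hs : s ≤ 2) (hv : |v| ≤ 1) (ht0 : 0 ≤ t)
    (ht : t ≤ 2 * η) (hG : 0 ≤ G) (hm : |m| ≤ B) (hμ : |μ| ≤ B) (hE : |E| ≤ 4 * η * G + R) :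
    m * G - B * (10 * η * G + R) ≤ m * (1 - t) * G + -μ * E - s * v * t * (-μ * G) := by
  have hB := (abs_nonneg _).trans hm
  have h1 : |m * (t * G)| ≤ B * (2 * η * G) := by
    rw [abs_mul, abs_of_nonneg (mul_nonneg ht0 hG)]
    exact mul_le_mul hm (mul_le_mul_of_nonneg_right ht hG) (mul_nonneg ht0 hG) hB
  have h2 : |μ * E| ≤ B * (4 * η * G + R) := by
    rw [abs_mul]; exact mul_le_mul hμ hE (abs_nonneg _) hB
  have h3 : |μ * (v * (s * (t * G)))| ≤ B * (2 * (2 * η * G)) := by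
    rw [abs_mul, abs_mul, abs_of_nonneg (mul_nonneg hs0 (mul_nonneg ht0 hG))]
    refine mul_le_mul hμ ((mul_le_of_le_one_left (by positivity) hv).trans ?_) (by positivity) hB
    exact mul_le_mul hs (mul_le_mul_of_nonneg_right ht hG) (mul_nonneg ht0 hG) (by norm_num)
  linarith [(abs_le.1 h1).2, (abs_le.1 h2).2, (abs_le.1 h3).1]

end NP

theorem np2 (hk : HKStmt n) : NP2Stmt n := by
  intro β K M δ h0 h1 hδ
  obtain ⟨Mc, hMc, hcut⟩ := exists_gin_cut hk
  obtain ⟨K', hK1, hKK⟩ : ∃ K' : ℝ, 1 ≤ K' ∧ K ≤ K' := ⟨max K 1, le_max_right _ _, le_max_left _ _⟩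
  obtain ⟨M', hM1, hMM⟩ : ∃ M' : ℝ, 1 ≤ M' ∧ M ≤ M' := ⟨max M 1, le_max_right _ _, le_max_left _ _⟩
  have hI : 0 ≤ ∫ r, Psi r := integral_nonneg fun r => (Psi_pos r).le
  obtain ⟨A, hA, hA1, hA2⟩ : ∃ A : ℝ, 0 < A ∧ 2 * M' ≤ A ∧ 2 * M' * ∫ r, Psi r ≤ A :=
    ⟨2 * M' * ((∫ r, Psi r) + 1), by positivity, by nlinarith, by nlinarith⟩
  obtain ⟨η, hη, hη1, hη2⟩ : ∃ η : ℝ, 0 < η ∧ η ≤ 1 ∧ 100 * A * K' ^ 3 * η ≤ δ :=
    ⟨min 1 (δ / (100 * A * K' ^ 3)), by positivity, min_le_left _ _,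
      (le_div_iff₀' (by positivity)).1 (min_le_right _ _)⟩
  refine ⟨min (1 / 8) (η ^ 3), η, by positivity, hη,
    fun e he he1 => ⟨A * K' ^ 3 * (80 + 16 * Mc), by positivity, ?_⟩⟩
  intro v P om y m1 m2 ε hv hw hy hε hε1 hy0 hyn c1 c2 hm hint
  have hs := hv.toSol
  have he2 : e ≤ 1 / 8 := he1.trans (min_le_left _ _)
  have he3 : e ≤ η ^ 3 := he1.trans (min_le_right _ _)
  have he4 : e ≤ η := he3.trans (pow_le_of_le_one hη.le hη1 (by norm_num))
  have hP8 : ∀ s, M * Psi s ^ 8 ≤ M' * Psi s ^ 8 := fun s => by gcongr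
  have hmi : ∀ {m : ℝ → ℝ}, Continuous m → (∀ s, |m s| ≤ M * Psi s ^ 8) → Integrable m :=
    fun hc h => (Psi_int.const_mul M').mono' hc.aestronglyMeasurable (Eventually.of_forall fun s =>
      ((h s).trans (hP8 s)).trans (mul_le_mul_of_nonneg_left
        (pow_le_of_le_one (Psi_pos s).le (Psi_le s) (by norm_num)) (by linarith)))
  have hm12 : ∀ s, |m2 s - m1 s| ≤ 2 * M' * Psi s ^ 8 := fun s =>
    (abs_sub _ _).trans (by linarith [(hm s).1, (hm s).2, hP8 s])
  obtain ⟨μ, hμ, hμb⟩ := exists_mu (m := fun s => m2 s - m1 s) (c2.sub c1) (by linarith) hm12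
    (by rw [integral_sub (hmi c2 fun s => (hm s).2) (hmi c1 fun s => (hm s).1), hint, sub_self])
  have hμ1 : ContDiff ℝ 1 μ := contDiff_one_iff_deriv.2 ⟨fun s => (hμ s).differentiableAt, by
    rw [show deriv μ = fun s => m2 s - m1 s from funext fun s => (hμ s).deriv]; exact c2.sub c1⟩
  have hψ : ∀ (k : ℕ) x, 0 < psi v x ^ k ∧ psi v x ^ k ≤ 1 := fun k x =>
    ⟨pow_pos (hs.psi_pos x) k, pow_le_one₀ (hs.psi_pos x).le (psi_le_one v x)⟩
  have hμx : ∀ x, |μ (dd v x)| ≤ A * psi v x ^ 6 := fun x => by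
    have := hμb (dd v x)
    rw [Psi_dd hs] at this
    exact this.trans (mul_le_mul_of_nonneg_right hA2 (hψ 6 x).1.le)
  have hy1 : ∀ x, 0 < y x := fun x => (hy0 x).1
  have hy2 : ∀ x, y x ≤ K' * (tt v x + ε) := fun x =>
    (hy0 x).2.trans (mul_le_mul_of_nonneg_right hKK (by linarith [hv.tpos x]))
  have hyK : ∀ x, P.F (y x) ≤ P.F (K' * 2) := fun x => mono P (hy1 x).le ((hy2 x).trans
    (mul_le_mul_of_nonneg_left (by linarith [tt_le_one v x]) (by linarith)))
  have hc := cut_cd hs e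
  have hG : ContDiff ℝ 1 fun x => P.F (y x) * (cut e v x ^ 2 * om x) :=
    (cd P hy hy1).mul ((hc.pow 2).mul hw.cd)
  have hw0 : ∀ x, 0 ≤ cut e v x ^ 2 * om x := fun x => mul_nonneg (sq_nonneg _) (hw.pos x).le
  have hw1 : ∀ x, cut e v x ^ 2 * om x ≤ om x := fun x =>
    mul_le_of_le_one_left (hw.pos x).le ((le_abs_self _).trans (cut_sq_le e v x))
  have hGb : ∀ x, |P.F (y x) * (cut e v x ^ 2 * om x)| ≤ P.F (K' * 2) * om x := fun x => by
    rw [abs_of_nonneg (mul_nonneg (nonneg P (hy1 x).le) (hw0 x))]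
    exact mul_le_mul (hyK x) (hw1 x) (hw0 x) ((nonneg P (hy1 x).le).trans (hyK x))
  have im : ∀ {m : ℝ → ℝ}, Continuous m → (∀ s, |m s| ≤ M * Psi s ^ 8) →
      Integrable fun x => m (dd v x) * P.F (y x) * (cut e v x ^ 2 * om x) := fun {m} hc h => by
    simp only [mul_assoc (m _)]
    refine intw hw ((hc.comp hs.dd_sm.continuous).mul hG.continuous).aestronglyMeasurable
      (M' * P.F (K' * 2)) fun x => ?_
    rw [abs_mul, mul_assoc]
    exact mul_le_mul (((h _).trans (hP8 _)).trans (mul_le_of_le_one_right (by linarith)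
      (pow_le_one₀ (Psi_pos _).le (Psi_le _)))) (hGb x) (abs_nonneg _) (by linarith)
  have i1 := im c1 fun s => (hm s).1
  have i2 := im c2 fun s => (hm s).2
  have i3 := int_TT P hv hw h0
  have i4 := int_BAD P hs hw h0 e
  have i5 : Integrable fun x => psi v x ^ 2 * om x :=
    intb hw (hs.psi_sm.continuous.pow 2) 1 fun x => by rw [abs_of_pos (hψ 2 x).1]; exact (hψ 2 x).2
  have key := int_le hs hw (A := A * P.F (K' * 2)) (a := fun x => -μ (dd v x))
    (hμ1.comp (hs.dd_cd 1)).neg hG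
    (fun x => by
      rw [abs_mul, mul_assoc, abs_neg]
      exact mul_le_mul ((hμx x).trans (mul_le_of_le_one_right hA.le (hψ 6 x).2)) (hGb x)
        (abs_nonneg _) hA.le)
    (((i1.sub i2).sub (i3.const_mul δ)).sub
      ((i4.add (i5.const_mul (P.F ε))).const_mul (A * K' ^ 3 * (80 + 16 * Mc))))
    fun x => ?_
  · rw [integral_sub' ((i1.sub i2).sub (i3.const_mul δ)) ((i4.add (i5.const_mul _)).const_mul _),
      integral_sub' (i1.sub i2) (i3.const_mul δ), integral_sub' i1 i2, integral_const_mul,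
      integral_const_mul, integral_add' i4 (i5.const_mul _), integral_const_mul,
      ← BAD_eq P hs] at key
    unfold TT MU
    linarith
  simp only [Pi.sub_apply, Pi.add_apply]
  have hp := pb_pos hs β x
  have ht := hv.tpos x
  have hT := nonneg P (mul_pos hp ht).le
  have hB := nonneg P hp.le
  have hFε := nonneg P hε.le
  have ho := hw.pos x
  have hi := ind_nonneg e v x
  have hψ2 := (hψ 2 x).1
  have hψ6 := (hψ 6 x).1
  rw [gin_G P hs hw hy hy1]
  rcases le_total (2 * e) (tt v x) with h2 | h2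
  · rw [cut_zero he h2]
    have : 0 ≤ δ * (P.F (pb β v x * tt v x) * om x) := by positivity
    have : 0 ≤ A * K' ^ 3 * (80 + 16 * Mc) * (ind e v x * (P.F (pb β v x) * om x) +
      P.F ε * (psi v x ^ 2 * om x)) := by positivity
    simp only [ne_eq, OfNat.ofNat_ne_zero, not_false_eq_true, zero_pow, zero_mul, mul_zero,
      add_zero, sub_zero]
    linarith
  have hg : |gin (dd v) y x| ≤ 1 * (K' * (tt v x * √(tt v x))) := by
    rw [one_mul]
    exact (hyn x (by linarith)).trans (mul_le_mul_of_nonneg_right hKK (by positivity))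
  have hE := abs_gin_G P hs hw hy1 x hη hη1 hg (hcut v e hs he x h2)
  have a0 : psi v x ^ 6 * P.F (tt v x) ≤ P.F (pb β v x * tt v x) := by
    have b1 := up P (c := (psi v x ^ 2)⁻¹) (y := psi v x ^ 2 * tt v x)
      (one_le_inv_iff₀.2 (hψ 2 x)) (by positivity)
    rw [inv_mul_cancel_left₀ hψ2.ne'] at b1
    have b2 := mono P (x := psi v x ^ 2 * tt v x) (by positivity)
      (mul_le_mul_of_nonneg_right (sq_le_pb hs h1 x) ht.le)
    refine (mul_le_mul_of_nonneg_left b1 hψ6.le).trans (le_of_eq_of_le ?_ b2)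
    have := (hs.psi_pos x).ne'
    field_simp
  have a1 : psi v x ^ 6 * P.F (y x) ≤
      8 * K' ^ 3 * (P.F (pb β v x * tt v x) + P.F ε * psi v x ^ 2) := by
    have b1 := (mono P (hy1 x).le (hy2 x)).trans (up P hK1 (by positivity))
    have b2 := mul_le_mul_of_nonneg_left (add_le P ht.le hε.le) (by positivity : 0 ≤ K' ^ 3)
    have b3 : psi v x ^ 6 ≤ psi v x ^ 2 :=
      pow_le_pow_of_le_one (hs.psi_pos x).le (psi_le_one v x) (by norm_num)
    have b4 := mul_le_mul_of_nonneg_left b3 hFε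
    calc psi v x ^ 6 * P.F (y x) ≤ psi v x ^ 6 * (K' ^ 3 * (8 * (P.F (tt v x) + P.F ε))) :=
          mul_le_mul_of_nonneg_left (b1.trans b2) hψ6.le
      _ = 8 * K' ^ 3 * (psi v x ^ 6 * P.F (tt v x) + P.F ε * psi v x ^ 6) := by ring
      _ ≤ _ := by gcongr
  have a2 : psi v x ^ 6 * (3 / η ^ 2 * P.F (1 * (K' * (tt v x * √(tt v x))))) ≤
      6 * η * K' ^ 3 * P.F (pb β v x * tt v x) := by
    have b1 := F_sqrt P zero_le_one hK1 ht.le (tt_le_one v x)
    have b0 := nonneg P ht.le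
    rw [one_mul (tt v x)] at b1
    calc _ ≤ psi v x ^ 6 * (3 / η ^ 2 * (K' ^ 3 * (2 * η ^ 3 * P.F (tt v x)))) := by
          gcongr
          exact b1.trans (by gcongr; linarith)
      _ = 6 * η * K' ^ 3 * (psi v x ^ 6 * P.F (tt v x)) := by field_simp; ring
      _ ≤ _ := by gcongr
  have a3 : ind e v x * P.F (pb β v x * tt v x) ≤ ind e v x * P.F (pb β v x) :=
    mul_le_mul_of_nonneg_left (mono P (by positivity)
      (mul_le_of_le_one_right hp.le (tt_le_one v x))) hi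
  have a4 : ind e v x ≤ 1 := by unfold ind; split_ifs <;> norm_num
  have hmx : |m1 (dd v x) - m2 (dd v x)| ≤ A * psi v x ^ 6 := by
    have := hm12 (dd v x)
    rw [Psi_dd hs] at this
    rw [abs_sub_comm]
    exact this.trans (mul_le_mul hA1 (pow_le_pow_of_le_one (hs.psi_pos x).le (psi_le_one v x)
      (by norm_num)) (hψ 8 x).1.le hA.le)
  have a6 := alg2 (s := Real.sqrt 2) (η := η) (G := P.F (y x) * (cut e v x ^ 2 * om x))
    (R := 3 / η ^ 2 * (P.F (1 * (K' * (tt v x * √(tt v x)))) * (cut e v x ^ 2 * om x)) +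
      2 * Mc * (ind e v x * (P.F (y x) * om x)))
    (Real.sqrt_nonneg 2) (Real.sqrt_le_iff.2 (by norm_num)) (hs.lt x).le ht.le (by linarith)
    (mul_nonneg (nonneg P (hy1 x).le) (hw0 x)) hmx (hμx x) (hE.trans_eq (by ring))
  have g1 : gin (dd v) (fun x => -μ (dd v x)) x = (m1 (dd v x) - m2 (dd v x)) * (1 - tt v x) := by
    rw [gin_comp_right (φ := fun s => -μ s) (hμ _).neg (hs.dd_diff x), gin_self, tt_eq]; ring
  rw [g1]
  refine le_trans ?_ a6
  have d1 : psi v x ^ 6 * P.F (y x) * (cut e v x ^ 2 * om x) ≤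
      8 * K' ^ 3 * (P.F (pb β v x * tt v x) + P.F ε * psi v x ^ 2) * om x :=
    mul_le_mul a1 (hw1 x) (hw0 x) (by positivity)
  have d2 : psi v x ^ 6 * (3 / η ^ 2 * P.F (1 * (K' * (tt v x * √(tt v x))))) *
      (cut e v x ^ 2 * om x) ≤ 6 * η * K' ^ 3 * P.F (pb β v x * tt v x) * om x :=
    mul_le_mul a2 (hw1 x) (hw0 x) (by positivity)
  have d3 : ind e v x * (psi v x ^ 6 * P.F (y x)) ≤
      8 * K' ^ 3 * (ind e v x * P.F (pb β v x) + P.F ε * psi v x ^ 2) := by
    have := mul_le_of_le_one_left (by positivity : 0 ≤ P.F ε * psi v x ^ 2) a4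
    calc _ ≤ ind e v x * (8 * K' ^ 3 * (P.F (pb β v x * tt v x) + P.F ε * psi v x ^ 2)) :=
          mul_le_mul_of_nonneg_left a1 hi
      _ = 8 * K' ^ 3 * (ind e v x * P.F (pb β v x * tt v x) +
          ind e v x * (P.F ε * psi v x ^ 2)) := by ring
      _ ≤ _ := by gcongr
  have f1 := mul_le_mul_of_nonneg_left d1 (by positivity : 0 ≤ 10 * η * A)
  have f2 := mul_le_mul_of_nonneg_left d2 hA.le
  have f3 := mul_le_mul_of_nonneg_left d3 (by positivity : 0 ≤ 2 * Mc * A * om x)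
  have f4 := mul_le_mul_of_nonneg_right hη2 (mul_nonneg hT ho.le)
  have f5 := mul_le_mul_of_nonneg_right hη1
    (by positivity : 0 ≤ A * K' ^ 3 * (P.F ε * (psi v x ^ 2 * om x)))
  have f6 : 0 ≤ A * K' ^ 3 * η * (P.F (pb β v x * tt v x) * om x) := by positivity
  have f7 : 0 ≤ A * K' ^ 3 * (ind e v x * (P.F (pb β v x) * om x)) := by positivity
  linarith

end Crest.Agent.N067.Y
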