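import Crest.Agent.N067.Y.OM0

/-!
# Row 67, block X5 (helper62): the subsolution `u = √(|Ω|² + η² t²)` and the weight `V`
-/

set_option autoImplicit false

open MeasureTheory Laplacian InnerProductSpace Topology Filter Set
open scoped RealInnerProductSpace Gradient ContDiff

namespace Crest.Agent.N067.Y.Om

open Crest.Agent.R077

noncomputable section

variable {n : ℕ} {v : EE n → ℝ}

/-- `|Ω|²` -/
def SO (v : EE n → ℝ) (x : EE n) : ℝ := ∑ p : Fin n × Fin n, wg v (tt v) p.1 p.2 x ^ 2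

/-- `|∇Ω|²` -/
def SD (v : EE n → ℝ) (x : EE n) : ℝ := ∑ p : Fin n × Fin n, gsq (wg v (tt v) p.1 p.2) x

theorem os_eq (v : EE n → ℝ) (x : EE n) : os v x = SO v x + SD v x := by
  simp only [os, SO, SD, Fintype.sum_prod_type, Finset.sum_add_distrib]

theorem SO_nonneg (v : EE n → ℝ) (x : EE n) : 0 ≤ SO v x := by unfold SO; positivity

theorem SD_nonneg (v : EE n → ℝ) (x : EE n) : 0 ≤ SD v x :=
  Finset.sum_nonneg fun _ _ => gsq_nonneg _ _

theorem o_SO (hk : HKStmt n) : Ord 4 fun v : EE n → ℝ => SO v :=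
  Ord.usum fun p : Fin n × Fin n => (o_wg hk hk.t2 p.1 p.2).sq

theorem o_SD (hk : HKStmt n) : Ord 4 fun v : EE n → ℝ => SD v :=
  Ord.usum fun p : Fin n × Fin n => (o_wg hk hk.t2 p.1 p.2).gsq

/-- the subsolution -/
theorem exists_u (hk : HKStmt n) : ∃ K : ℝ, 1 ≤ K ∧ ∀ (v : EE n → ℝ) (η ε : ℝ), Pos v → 0 < η →
    η ≤ 1 → ∃ u : EE n → ℝ, ContDiff ℝ ∞ u ∧ ∀ x, 0 < u x ∧ u x ≤ K ∧ ‖∇ u x‖ ≤ K ∧
      SO v x ≤ u x ^ 2 ∧
      -Lm v u x + 2 * psi v x * u x ≤ K * yb v ε x + K * (√(tt v x) + η) * tt v x := by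
  obtain ⟨C1, h1, b1⟩ := (o_SO hk).bd0
  obtain ⟨C2, h2, b2⟩ := (o_SD hk).bd0
  obtain ⟨C3, h3, b3⟩ := hk.t2.gsq.bd0
  obtain ⟨C4, h4, b4⟩ := ubd3 (ι := Fin n × Fin n) fun p => o_RR hk p.1 p.2
  obtain ⟨C5, h5, b5⟩ := (o_b hk).bd2
  have hn : (0 : ℝ) ≤ 4 * (n * n) := by positivity
  refine ⟨2 + C1 + C2 + C3 + C4 + 2 * C5 + 4 * (n * n), by linarith, fun v η ε hv h0 hη => ?_⟩
  set K : ℝ := 2 + C1 + C2 + C3 + C4 + 2 * C5 + 4 * (n * n) with hK
  have hS := hv.toSol
  let U : Option (Fin n × Fin n) → EE n → ℝ := fun k =>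
    k.elim (fun x => η * tt v x) fun p => wg v (tt v) p.1 p.2
  have hU : ∀ k, ContDiff ℝ ∞ (U k) := fun k => by
    cases k with
    | none => exact contDiff_const.mul hS.tt_sm
    | some p => exact (o_wg hk hk.t2 p.1 p.2).sm hS
  have e1 : ∀ x, ∑ k, U k x ^ 2 = (η * tt v x) ^ 2 + SO v x := fun x => Fintype.sum_option _
  have hp : ∀ x, 0 < ∑ k, U k x ^ 2 := fun x => by
    have := hv.tpos x
    have := SO_nonneg v x
    rw [e1]; positivity
  obtain ⟨u, hud⟩ : ∃ u : EE n → ℝ, u = fun x => √(∑ k, U k x ^ 2) := ⟨_, rfl⟩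
  obtain ⟨hs, hu⟩ := kato (v := v) hU hp hud
  refine ⟨u, hs, fun x => ?_⟩
  obtain ⟨u0, u1, u2, u3⟩ := hu x
  have ht := hv.tpos x
  have ht1 := tt_le_one v x
  have e2 : u x ^ 2 = (η * tt v x) ^ 2 + SO v x := by
    rw [← e1, hud]; exact Real.sq_sqrt (hp x).le
  have hK1 : K ≤ K ^ 2 := by nlinarith
  have hηt : η * tt v x ≤ 1 := by nlinarith
  refine ⟨u0, ?_, ?_, by nlinarith [sq_nonneg (η * tt v x)], ?_⟩
  · refine (abs_le_of_sq_le_sq' ?_ (by linarith)).2
    have := (le_abs_self _).trans (b1 v hS x)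
    have : (η * tt v x) ^ 2 ≤ 1 := pow_le_one₀ (by positivity) hηt
    linarith
  · refine (abs_le_of_sq_le_sq' ?_ (by linarith)).2
    rw [← gsq_eq]
    rw [Fintype.sum_option] at u2
    have e3 : gsq (U none) x = η ^ 2 * gsq (tt v) x := by
      simp only [U, Option.elim, gsq, pdv_const_mul (df hS.tt_sm x), mul_pow, Finset.mul_sum]
    have := (le_abs_self _).trans (b2 v hS x)
    have := (le_abs_self _).trans (b3 v hS x)
    have : η ^ 2 * gsq (tt v) x ≤ gsq (tt v) x :=
      mul_le_of_le_one_left (gsq_nonneg _ _) (pow_le_one₀ h0.le hη)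
    change gsq u x ≤ gsq (U none) x + SD v x at u2
    linarith
  · have h := u3 (2 * psi v x)
    rw [Fintype.sum_option] at h
    have hy : 0 ≤ yb v ε x := Real.sqrt_nonneg _
    have hst : 0 ≤ √(tt v x) := Real.sqrt_nonneg _
    have f1 : U none x * (-Lm v (U none) x + 2 * psi v x * U none x) ≤
        u x * ((2 + 2 * C5) * η * tt v x) := by
      have e3 : Lm v (U none) x = η * Lm v (tt v) x := lm_cmul (c2 hS.tt_sm x) η
      have e4 : U none x = η * tt v x := rfl
      have g1 : U none x ≤ u x := (le_abs_self _).trans (u1 none)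
      have g2 := hS.Lm_tt x
      have g3 := (le_abs_self _).trans (b5 v hS x)
      have g4 := hsq_nonneg (dd v) x
      have g5 := hS.psi_pos x
      have g6 := psi_le_one v x
      have e5 : -Lm v (U none) x + 2 * psi v x * U none x =
          η * (2 * (psi v x * tt v x) * tt v x + 2 * hsq (dd v) x) := by
        rw [e3, e4, show Lm v (tt v) x = 2 * (qq v x * (1 - tt v x) - hsq (dd v) x) by linarith,
          qq]
        ring
      rw [e5]
      refine mul_le_mul g1 ?_ (by positivity) u0.le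
      have g7 : psi v x * tt v x ≤ 1 := by nlinarith
      have g8 : 2 * (psi v x * tt v x) * tt v x + 2 * hsq (dd v) x ≤ (2 + 2 * C5) * tt v x := by
        nlinarith
      calc _ ≤ η * ((2 + 2 * C5) * tt v x) := mul_le_mul_of_nonneg_left g8 h0.le
        _ = _ := by ring
    have f2 : ∑ p : Fin n × Fin n, U (some p) x *
        (-Lm v (U (some p)) x + 2 * psi v x * U (some p) x) ≤
        u x * (4 * (n * n) * yb v ε x + C4 * (tt v x * √(tt v x))) := by
      calc _ ≤ ∑ p : Fin n × Fin n, u x * (4 * yb v ε x + |RR p.1 p.2 v x|) := by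
            refine Finset.sum_le_sum fun p _ => (le_abs_self _).trans ?_
            rw [abs_mul]
            refine mul_le_mul (u1 (some p)) ?_ (abs_nonneg _) u0.le
            have e3 : -Lm v (U (some p)) x + 2 * psi v x * U (some p) x =
                2 * wg v (hsq (dd v)) p.1 p.2 x + RR p.1 p.2 v x := by
              simp only [RR, U, Option.elim]; ring
            have := abs_wg_le v ε p.1 p.2 x
            rw [e3]
            refine (abs_add_le _ _).trans ?_
            rw [abs_mul, abs_two]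
            linarith
        _ ≤ _ := by
            rw [← Finset.mul_sum, Finset.sum_add_distrib]
            refine mul_le_mul_of_nonneg_left (add_le_add (le_of_eq ?_) (b4 v hS x)) u0.le
            simp only [Finset.sum_const, Finset.card_univ, Fintype.card_prod, Fintype.card_fin,
              nsmul_eq_mul, Nat.cast_mul]
            ring
    refine le_of_mul_le_mul_left (h.trans ((add_le_add f1 f2).trans ?_)) u0
    rw [← mul_add]
    refine mul_le_mul_of_nonneg_left ?_ u0.le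
    have k1 : 4 * (n * n) * yb v ε x ≤ K * yb v ε x := by gcongr; linarith
    have k2 : C4 * (tt v x * √(tt v x)) ≤ K * (tt v x * √(tt v x)) := by gcongr; linarith
    have k3 : (2 + 2 * C5) * η * tt v x ≤ K * η * tt v x := by gcongr; linarith
    linarith

/-- the pointwise Caccioppoli inequality for a log-Lipschitz weight -/
theorem cacc (hk : HKStmt n) : ∃ C : ℝ, 0 ≤ C ∧ ∀ (v V : EE n → ℝ) (L σ : ℝ), Sol v →
    ContDiff ℝ 1 V → 0 < σ → ∀ x, 0 ≤ V x → gsq V x ≤ L * V x ^ 2 →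
      V x * (SD v x - (L + 1 / σ) * SO v x - σ * C * tt v x ^ 2) ≤
        ∑ l, pdv l (fun y => V y * pdv l (SO v) y) x := by
  obtain ⟨C, h0, b⟩ := (Ord.usum fun p : Fin n × Fin n => (o_wg hk hk.t2 p.1 p.2).lap.sq).bd4
  refine ⟨C, h0, fun v V L σ hv hV hσ x V0 hL => ?_⟩
  have sw := fun p : Fin n × Fin n => (o_wg hk hk.t2 p.1 p.2).sm hv
  have sS := (o_SO hk).sm hv
  have dV : DifferentiableAt ℝ V x := hV.differentiable (by simp) x
  have e1 : ∑ l, pdv l (fun y => V y * pdv l (SO v) y) x =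
      gin V (SO v) x + V x * (Δ (SO v)) x := by
    rw [lap_eq (c2 sS x), gin, Finset.mul_sum, ← Finset.sum_add_distrib]
    exact Finset.sum_congr rfl fun l _ => pdv_mul dV (df (sm_pdv sS l) x) l
  have e2 : gin V (SO v) x = ∑ p : Fin n × Fin n,
      2 * wg v (tt v) p.1 p.2 x * gin V (wg v (tt v) p.1 p.2) x := by
    change gin V (fun y => ∑ p : Fin n × Fin n, wg v (tt v) p.1 p.2 y ^ 2) x = _
    rw [gin_sum _ fun p _ => (df (sw p) x).fun_pow 2]
    exact Finset.sum_congr rfl fun p _ => gin_sq (df (sw p) x)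
  have e3 : (Δ (SO v)) x = ∑ p : Fin n × Fin n, (2 * wg v (tt v) p.1 p.2 x *
      (Δ (wg v (tt v) p.1 p.2)) x + 2 * gsq (wg v (tt v) p.1 p.2) x) := by
    change (Δ fun y => ∑ p : Fin n × Fin n, wg v (tt v) p.1 p.2 y ^ 2) x = _
    rw [lap_sum _ fun p _ => (c2 (sw p) x).pow 2]
    exact Finset.sum_congr rfl fun p _ => lap_sq (c2 (sw p) x)
  have b1 := (le_abs_self _).trans (b v hv x)
  have key : ∀ p : Fin n × Fin n, V x * (gsq (wg v (tt v) p.1 p.2) x -
      (L + 1 / σ) * wg v (tt v) p.1 p.2 x ^ 2 - σ * (Δ (wg v (tt v) p.1 p.2)) x ^ 2) ≤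
      2 * wg v (tt v) p.1 p.2 x * gin V (wg v (tt v) p.1 p.2) x +
        V x * (2 * wg v (tt v) p.1 p.2 x * (Δ (wg v (tt v) p.1 p.2)) x +
          2 * gsq (wg v (tt v) p.1 p.2) x) := fun p => by
    have c1 := gin_sq_le V (wg v (tt v) p.1 p.2) x
    have c0 := gsq_nonneg (wg v (tt v) p.1 p.2) x
    have cV := gsq_nonneg V x
    generalize wg v (tt v) p.1 p.2 x = w, gin V (wg v (tt v) p.1 p.2) x = g,
      gsq (wg v (tt v) p.1 p.2) x = D, (Δ (wg v (tt v) p.1 p.2)) x = l at *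
    have c2 : 0 ≤ 1 / σ * w ^ 2 + σ * l ^ 2 + 2 * w * l := by
      have : 1 / σ * w ^ 2 + σ * l ^ 2 + 2 * w * l = (w + σ * l) ^ 2 / σ := by field_simp; ring
      rw [this]; positivity
    have c3 : -(V x * D + L * V x * w ^ 2) ≤ 2 * w * g := by
      have hA : 0 ≤ V x * D := mul_nonneg V0 c0
      have hB : 0 ≤ L * V x * w ^ 2 := by
        rcases V0.eq_or_lt with h | h
        · rw [← h]; simp
        · have : 0 ≤ L := by
            by_contra hneg
            have := mul_neg_of_neg_of_pos (not_le.1 hneg) (pow_pos h 2)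
            linarith
          positivity
      have c4 : (2 * w * g) ^ 2 ≤ (V x * D + L * V x * w ^ 2) ^ 2 := by
        have c5 : g ^ 2 ≤ L * V x ^ 2 * D := c1.trans (mul_le_mul_of_nonneg_right hL c0)
        nlinarith [mul_le_mul_of_nonneg_left c5 (sq_nonneg w),
          sq_nonneg (V x * D - L * V x * w ^ 2)]
      exact (abs_le_of_sq_le_sq' c4 (by linarith)).1
    nlinarith [mul_nonneg V0 c2]
  have k2 := Finset.sum_le_sum fun p (_ : p ∈ Finset.univ) => key p
  rw [Finset.sum_add_distrib, ← Finset.mul_sum, ← Finset.mul_sum, Finset.sum_sub_distrib,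
    Finset.sum_sub_distrib, ← Finset.mul_sum, ← Finset.mul_sum, ← e2, ← e3] at k2
  rw [e1]
  refine le_trans (mul_le_mul_of_nonneg_left ?_ V0) k2
  have := mul_le_mul_of_nonneg_left b1 hσ.le
  change SD v x - (L + 1 / σ) * SO v x - _ ≤ SD v x - (L + 1 / σ) * SO v x - _
  linarith

end

end Crest.Agent.N067.Y.Om
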