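import Crest.Agent.N067.Y.Base
import Crest.Agent.N067.Y.OM1

/-!
# Row 67, block X5 (helper62): the statement OM
-/

set_option autoImplicit false

open MeasureTheory Laplacian InnerProductSpace Topology Filter Set
open scoped RealInnerProductSpace Gradient ContDiff

namespace Crest.Agent.N067.Y

open Crest.Agent.R077

noncomputable section

variable {n : ℕ}

namespace Om

variable {v f g om : EE n → ℝ} {x : EE n} {β lam : ℝ}

theorem ll_mul {a b : ℝ} {l : Fin n} (hf : DifferentiableAt ℝ f x) (hg : DifferentiableAt ℝ g x)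
    (f0 : 0 ≤ f x) (g0 : 0 ≤ g x) (ha : |pdv l f x| ≤ a * f x) (hb : |pdv l g x| ≤ b * g x) :
    |pdv l (fun y => f y * g y) x| ≤ (a + b) * (f x * g x) := by
  rw [pdv_mul hf hg]
  refine (abs_add_le _ _).trans ?_
  rw [abs_mul, abs_mul, abs_of_nonneg f0, abs_of_nonneg g0]
  nlinarith [mul_le_mul_of_nonneg_right ha g0, mul_le_mul_of_nonneg_left hb f0]

theorem ll_pb (hv : Sol v) (h0 : 0 ≤ β) (h1 : β < 1) (l : Fin n) (x : EE n) :
    |pdv l (pb β v) x| ≤ 4 * pb β v x := by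
  have hp := pb_pos hv β x
  have h2 : √2 ≤ 2 := by
    rw [Real.sqrt_le_left (by norm_num)]; norm_num
  rw [pdv_pb hv]
  simp only [abs_mul, abs_neg, abs_of_pos sqrt2_pos, abs_of_pos hp,
    abs_of_nonneg (show 0 ≤ 1 + β by linarith)]
  calc _ ≤ 2 * 2 * 1 * pb β v x * 1 := by
        gcongr
        exacts [by linarith, (hv.lt x).le, hv.abs_pdv_dd_le l x]
    _ = _ := by ring

/-- the weight of the Caccioppoli inequality -/
def VV (β : ℝ) (v : EE n → ℝ) (P : Prof) (om : EE n → ℝ) (x : EE n) : ℝ :=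
  P.W (pb β v x * tt v x) * (pb β v x * pb β v x) * om x

theorem VV_eq (hv : Pos v) (P : Prof) (x : EE n) :
    VV β v P om x = P.F (pb β v x * tt v x) / tt v x ^ 2 * om x := by
  have := (hv.tpos x).ne'
  have := (pb_pos hv.toSol β x).ne'
  rw [VV, Prof.W]
  field_simp

theorem VV_t (hv : Pos v) (P : Prof) (x : EE n) :
    VV β v P om x * tt v x ^ 2 = P.F (pb β v x * tt v x) * om x := by
  have := (hv.tpos x).ne'
  rw [VV_eq hv]
  field_simp

theorem Y_pos (hv : Pos v) (x : EE n) : 0 < pb β v x * tt v x :=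
  mul_pos (pb_pos hv.toSol β x) (hv.tpos x)

theorem VV_nonneg (hv : Pos v) (P : Prof) (hw : Wt lam om) (x : EE n) : 0 ≤ VV β v P om x :=
  mul_nonneg (mul_nonneg (P.W_pos (Y_pos hv x)).le (mul_self_nonneg _)) (hw.pos x).le

theorem VV_cd (hv : Pos v) (P : Prof) (hw : Wt lam om) : ContDiff ℝ 1 (VV β v P om) :=
  ((P.cd_comp_W ((pb_cd hv.toSol β 1).mul (hv.toSol.tt_cd 1)) (Y_pos hv)).mul
    ((pb_cd hv.toSol β 1).mul (pb_cd hv.toSol β 1))).mul hw.cd

theorem VV_integ (hv : Pos v) (h0 : 0 ≤ β) (P : Prof) (hw : Wt lam om) (hf : Continuous f) {C : ℝ}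
    (hb : ∀ x, |f x| ≤ C * tt v x ^ 2) : Integrable fun x => VV β v P om x * f x := by
  refine ((integ_TT hv.toSol h0 P hw).const_mul C).mono'
    ((VV_cd hv P hw).continuous.mul hf).aestronglyMeasurable (ae_of_all _ fun x => ?_)
  rw [Real.norm_eq_abs, abs_mul, abs_of_nonneg (VV_nonneg hv P hw x), ← VV_t hv]
  nlinarith [mul_le_mul_of_nonneg_left (hb x) (VV_nonneg (β := β) hv P hw x)]

theorem gsq_VV (hk : HKStmt n) : ∃ L : ℝ, 0 ≤ L ∧ ∀ (β : ℝ) (v om : EE n → ℝ) (P : Prof), 0 ≤ β →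
    β < 1 → Pos v → Wt 1 om → ∀ x, gsq (VV β v P om) x ≤ L * VV β v P om x ^ 2 := by
  obtain ⟨K, hK, b⟩ := ubd2 (ι := Fin n) fun l => hk.t2.pdv l
  refine ⟨n * (4 + K + (4 + 4) + 1) ^ 2, by positivity, fun β v om P h0 h1 hv hw x => ?_⟩
  have hS := hv.toSol
  have hp := pb_pos hS β x
  have hY := Y_pos (β := β) hv x
  have dp := pb_diff hS β x
  have dY := dp.fun_mul (hS.tt_diff x)
  have dW : DifferentiableAt ℝ (fun y => P.W (pb β v y * tt v y)) x :=
    DifferentiableAt.comp (g := P.W) (f := fun y => pb β v y * tt v y) x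
      (P.hdW hY).differentiableAt dY
  have key : ∀ l, |pdv l (VV β v P om) x| ≤ (4 + K + (4 + 4) + 1) * VV β v P om x := fun l => by
    have a1 : |pdv l (tt v) x| ≤ K * tt v x := le_trans (Finset.single_le_sum
      (f := fun l => |pdv l (tt v) x|) (fun _ _ => abs_nonneg _) (Finset.mem_univ l)) (b v hS x)
    have a2 := ll_mul dp (hS.tt_diff x) hp.le (hv.tpos x).le (ll_pb hS h0 h1 l x) a1
    have a3 : |pdv l (fun y => P.W (pb β v y * tt v y)) x| ≤
        (4 + K) * P.W (pb β v x * tt v x) := by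
      have hW := P.W_pos hY
      have := P.one_le_p hY
      have := P.p_le hY
      rw [pdv_comp (f := fun y => pb β v y * tt v y) (P.hdW hY) dY, abs_mul, abs_mul,
        abs_of_nonneg (show 0 ≤ P.p _ - 1 by linarith), abs_of_pos (div_pos hW hY)]
      calc _ ≤ 1 * (P.W (pb β v x * tt v x) / (pb β v x * tt v x)) *
            ((4 + K) * (pb β v x * tt v x)) := by gcongr; linarith
        _ = _ := by have := (hv.tpos x).ne'; field_simp
    have a4 := ll_mul dp dp hp.le hp.le (ll_pb hS h0 h1 l x) (ll_pb hS h0 h1 l x)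
    have a5 := ll_mul dW (dp.fun_mul dp) (P.W_pos hY).le (mul_self_nonneg _) a3 a4
    exact ll_mul (dW.fun_mul (dp.fun_mul dp)) (hw.diff x)
      (mul_nonneg (P.W_pos hY).le (mul_self_nonneg _)) (hw.pos x).le a5 (hw.abs_pdv l x)
  calc gsq (VV β v P om) x ≤ ∑ _l : Fin n, ((4 + K + (4 + 4) + 1) * VV β v P om x) ^ 2 :=
        Finset.sum_le_sum fun l _ => sq_le_sq' (abs_le.1 (key l)).1 (abs_le.1 (key l)).2
    _ = _ := by simp [mul_pow, mul_assoc]

/-- Caccioppoli + Young -/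
theorem step1 (hk : HKStmt n) {δ : ℝ} (hδ : 0 < δ) : ∃ D : ℝ, 0 ≤ D ∧ ∀ (β : ℝ) (v om u : EE n → ℝ)
    (P : Prof) (M : ℝ), 0 ≤ β → β < 1 → Pos v → Wt 1 om → Continuous u →
    (∀ x, 0 ≤ u x ∧ u x ≤ M ∧ SO v x ≤ u x ^ 2) →
    ∫ x, P.F (pb β v x * tt v x) / tt v x ^ 2 * os v x * om x ≤
      δ * TT β v P om + D * ∫ x, P.F (pb β v x * u x) * om x := by
  obtain ⟨C, hC, hc⟩ := cacc hk
  obtain ⟨L, hL, hl⟩ := gsq_VV hk
  obtain ⟨C1, -, b1⟩ := Ord.os4.bd4 (n := n)
  choose C2 h2 b2 using fun l => ((o_SO hk).pdv l).bd4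
  obtain ⟨σ, hσ, sσ⟩ : ∃ σ : ℝ, 0 < σ ∧ σ * C ≤ δ / 2 := by
    refine ⟨δ / (2 * (C + 1)), by positivity, ?_⟩
    rw [div_mul_eq_mul_div, div_le_div_iff₀ (by positivity) two_pos]
    nlinarith
  set A : ℝ := L + 1 / σ + 1 with hA
  have A0 : 0 < A := by positivity
  obtain ⟨τ, hτ, τ1, sτ⟩ : ∃ τ : ℝ, 0 < τ ∧ τ ≤ 1 ∧ A * τ ^ 2 ≤ δ / 2 := by
    refine ⟨min 1 (δ / 2 / A), by positivity, min_le_left _ _, ?_⟩
    have h1 : min 1 (δ / 2 / A) ≤ δ / 2 / A := min_le_right _ _
    have h2 : min 1 (δ / 2 / A) ≤ 1 := min_le_left _ _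
    have h3 : 0 < min 1 (δ / 2 / A) := by positivity
    rw [le_div_iff₀ A0] at h1
    nlinarith [mul_le_mul_of_nonneg_left h2 (mul_pos h3 A0).le]
  refine ⟨A / τ, by positivity, fun β v om u P M h0 h1 hv hw hu hb => ?_⟩
  have hS := hv.toSol
  have sS := (o_SO hk).sm hS
  have i1 := integ_TT hS h0 P hw
  have i2 := integ_F hS h0 P hw hu fun x => ⟨(hb x).1, (hb x).2.1⟩
  have e : (fun x => P.F (pb β v x * tt v x) / tt v x ^ 2 * os v x * om x) =
      fun x => VV β v P om x * os v x := funext fun x => by rw [VV_eq hv]; ring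
  rw [e, TT, ← integral_const_mul, ← integral_const_mul,
    ← integral_add (i1.const_mul _) (i2.const_mul _)]
  refine div_le' (X := fun l y => VV β v P om y * pdv l (SO v) y)
    (fun l => (VV_cd hv P hw).mul (contDiff_infty.1 (sm_pdv sS l) 1))
    (fun l => VV_integ hv h0 P hw (sm_pdv sS l).continuous (b2 l v hS))
    (VV_integ hv h0 P hw (Ord.os4.cont hS) (b1 v hS)) ((i1.const_mul _).add (i2.const_mul _))
    fun x => ?_
  have V0 := VV_nonneg (β := β) hv P hw x
  have k1 := hc v _ L σ hS (VV_cd hv P hw) hσ x V0 (hl β v om P h0 h1 hv hw x)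
  have k2 := VV_t (β := β) (om := om) hv P x
  have hp := pb_pos hS β x
  have k3 : VV β v P om x * SO v x ≤
      (τ ^ 2 * P.F (pb β v x * tt v x) + P.F (pb β v x * u x) / τ) * om x := by
    refine (mul_le_mul_of_nonneg_left (hb x).2.2 V0).trans (le_trans (le_of_eq ?_)
      (mul_le_mul_of_nonneg_right (P.youngW (Y_pos hv x) (mul_nonneg hp.le (hb x).1) hτ τ1)
        (hw.pos x).le))
    rw [VV]; ring
  have F0 : 0 ≤ P.F (pb β v x * tt v x) * om x := mul_nonneg (P.nonneg (Y_pos hv x).le) (hw.pos x).le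
  have k4 := mul_le_mul_of_nonneg_left k3 A0.le
  have k5 := mul_le_mul_of_nonneg_right sσ F0
  have k6 := mul_le_mul_of_nonneg_right sτ F0
  have k7 : VV β v P om x * (σ * C * tt v x ^ 2) = σ * C * (P.F (pb β v x * tt v x) * om x) := by
    rw [← k2]; ring
  have k8 : A * ((τ ^ 2 * P.F (pb β v x * tt v x) + P.F (pb β v x * u x) / τ) * om x) =
      A * τ ^ 2 * (P.F (pb β v x * tt v x) * om x) + A / τ * (P.F (pb β v x * u x) * om x) := by
    ring
  have k9 : VV β v P om x * os v x = VV β v P om x * (SD v x - (L + 1 / σ) * SO v x -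
      σ * C * tt v x ^ 2) + A * (VV β v P om x * SO v x) +
      VV β v P om x * (σ * C * tt v x ^ 2) := by
    rw [os_eq, hA]; ring
  linarith

/-- the source term of the global estimate -/
theorem step2 (hv : Pos v) (h0 : 0 ≤ β) (P : Prof) (hw : Wt lam om) {y : EE n → ℝ}
    (hy : Continuous y) {K M e η s : ℝ} (hK : 1 ≤ K) (he : 0 < e) (hη : 0 ≤ η) (hη1 : η ≤ 1)
    (hs : √e + η ≤ s) (hs1 : s ≤ 1) (hM : 1 ≤ M) (hb : ∀ x, 0 ≤ y x ∧ y x ≤ M) :
    ∫ x, P.F (pb β v x * (K * y x + K * (√(tt v x) + η) * tt v x)) * om x ≤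
      8 * K ^ 3 * (∫ x, P.F (pb β v x * y x) * (cut e v x ^ 2 * om x)) +
        8 * K ^ 3 * s ^ 2 * TT β v P om + (3 * K * M) ^ 3 * BAD β v P om e := by
  have hS := hv.toSol
  have i1 := integ_TT hS h0 P hw
  have i3 := integ_bad hS h0 P hw e
  have i2 : Integrable fun x => P.F (pb β v x * y x) * (cut e v x ^ 2 * om x) := by
    refine (integ_F hS h0 P hw hy hb).mono' ((P.cont ((pb_cont hS β).mul hy) fun x =>
      mul_nonneg (pb_pos hS β x).le (hb x).1).mul
        (((cut_cont hS e).pow 2).mul hw.cont)).aestronglyMeasurable (ae_of_all _ fun x => ?_)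
    have F0 := P.nonneg (mul_nonneg (pb_pos hS β x).le (hb x).1)
    have := hw.pos x
    rw [Real.norm_eq_abs, abs_of_nonneg (by positivity)]
    exact mul_le_mul_of_nonneg_left (mul_le_of_le_one_left this.le (cut_sq_le_one e v x)) F0
  have i4 : Integrable fun x => 8 * K ^ 3 * (P.F (pb β v x * y x) * (cut e v x ^ 2 * om x)) +
      8 * K ^ 3 * s ^ 2 * (P.F (pb β v x * tt v x) * om x) :=
    (i2.const_mul _).add (i1.const_mul _)
  rw [TT, BAD_eq hS, ← integral_const_mul, ← integral_const_mul, ← integral_const_mul,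
    ← integral_add (i2.const_mul _) (i1.const_mul _), ← integral_add i4 (i3.const_mul _)]
  refine integral_mono_of_nonneg (ae_of_all _ fun x => ?_)
    (i4.add (i3.const_mul _)) (ae_of_all _ fun x => ?_)
  · have := pb_pos hS β x
    have := hv.tpos x
    have := (hb x).1
    exact mul_nonneg (P.nonneg (by positivity)) (hw.pos x).le
  have hp := pb_pos hS β x
  have ht := hv.tpos x
  have ht1 := tt_le_one v x
  have y0 := (hb x).1
  have ho := hw.pos x
  have s0 : 0 ≤ s := le_trans (by positivity) hs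
  have p1 : 0 ≤ 8 * K ^ 3 * (P.F (pb β v x * y x) * (cut e v x ^ 2 * om x)) := by
    have := P.nonneg (mul_nonneg hp.le y0); positivity
  have p2 : 0 ≤ 8 * K ^ 3 * s ^ 2 * (P.F (pb β v x * tt v x) * om x) := by
    have := P.nonneg (mul_pos hp ht).le; positivity
  have p3 : 0 ≤ (3 * K * M) ^ 3 * bad β v P om e x :=
    mul_nonneg (by positivity) (bad_nonneg hS P hw e x)
  beta_reduce
  rcases le_total e (tt v x) with h | h
  · have q1 : (√(tt v x) + η) * tt v x ≤ 2 * M := by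
      have := Ok.sqrt_le (v := v) x
      nlinarith [Real.sqrt_nonneg (tt v x)]
    have q2 : P.F (pb β v x * (K * y x + K * (√(tt v x) + η) * tt v x)) ≤
        (3 * K * M) ^ 3 * P.F (pb β v x) := by
      refine P.le_of_le_mul (by nlinarith) (by positivity) hp.le ?_
      rw [mul_comm _ (pb β v x)]
      refine mul_le_mul_of_nonneg_left ?_ hp.le
      nlinarith [mul_le_mul_of_nonneg_left q1 (zero_le_one.trans hK),
        mul_le_mul_of_nonneg_left (hb x).2 (zero_le_one.trans hK)]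
    rw [bad_of_le h]
    nlinarith [mul_le_mul_of_nonneg_right q2 ho.le]
  · have q0 : √(tt v x) + η ≤ s := le_trans (by gcongr) hs
    have q1 := P.add_le (a := pb β v x * (K * y x))
      (b := pb β v x * (K * (√(tt v x) + η) * tt v x)) (by positivity) (by positivity)
    have q2 : P.F (pb β v x * (K * y x)) ≤ K ^ 3 * P.F (pb β v x * y x) :=
      P.le_of_le_mul hK (by positivity) (by positivity) (le_of_eq (by ring))
    have q3 : P.F (pb β v x * (K * (√(tt v x) + η) * tt v x)) ≤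
        K ^ 3 * s ^ 2 * P.F (pb β v x * tt v x) := by
      refine P.le_of_le_small hK s0 hs1 (by positivity) (by positivity) ?_
      calc _ = K * ((√(tt v x) + η) * (pb β v x * tt v x)) := by ring
        _ ≤ _ := by gcongr
    rw [← mul_add] at q1
    rw [cut_one he h]
    nlinarith [mul_le_mul_of_nonneg_right (q1.trans
      (mul_le_mul_of_nonneg_left (add_le_add q2 q3) (by norm_num))) ho.le]

end Om

open Om in
/-- **OM** -/
theorem omS (hk : HKStmt n) (hG : GEStmt n) (hN : NP1Stmt n) : OMStmt n := by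
  intro β δ h0 h1 hδ
  obtain ⟨lG, CG, lG0, CG0, hG⟩ := hG β h0 h1
  obtain ⟨K, hK, hu⟩ := exists_u hk
  obtain ⟨Ky, hKy, hy⟩ := ybS hk
  obtain ⟨D, D0, hD⟩ := step1 hk (half_pos hδ)
  set E : ℝ := D * CG * (8 * K ^ 3) with hE
  have E0 : 0 ≤ E := by positivity
  obtain ⟨s, s0, s1, ss⟩ : ∃ s : ℝ, 0 < s ∧ s ≤ 1 ∧ E * s ≤ δ / 4 := by
    refine ⟨min 1 (δ / 4 / (E + 1)), by positivity, min_le_left _ _, ?_⟩
    have h1 : min 1 (δ / 4 / (E + 1)) ≤ δ / 4 / (E + 1) := min_le_right _ _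
    have h3 : 0 < min 1 (δ / 4 / (E + 1)) := by positivity
    rw [le_div_iff₀ (by positivity)] at h1
    nlinarith
  obtain ⟨e1, l1, e10, l10, hN⟩ := hN β (2 * Ky) s h0 h1 s0
  refine ⟨E * 200, min e1 ((s / 2) ^ 2), min (min lG l1) 1, by positivity, by positivity,
    by positivity, fun e he hee => ?_⟩
  obtain ⟨C, C0, hN⟩ := hN e he (hee.trans (min_le_left _ _))
  refine ⟨E * C + D * CG * (3 * K * (2 * Ky)) ^ 3, by positivity,
    fun v P om ε hv hw hε hε1 => ?_⟩
  have hS := hv.toSol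
  have w1 : Wt 1 om := hw.mono (min_le_right _ _)
  have wG : Wt lG om := hw.mono ((min_le_left _ _).trans (min_le_left _ _))
  have wN : Wt l1 om := hw.mono ((min_le_left _ _).trans (min_le_right _ _))
  obtain ⟨u, us, ub⟩ := hu v (s / 2) ε hv (half_pos s0) (by linarith)
  obtain ⟨yc, yb'⟩ := hy v ε hv hε
  have y2 : ∀ x, yb v ε x ≤ 2 * Ky := fun x => (yb' x).2.1.trans (by
    have := tt_le_one v x
    nlinarith)
  have a1 := hD β v om u P K h0 h1 hv w1 us.continuous fun x =>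
    ⟨(ub x).1.le, (ub x).2.1, (ub x).2.2.2.1⟩
  have a2 := hG v P om u (fun x => K * yb v ε x + K * (√(tt v x) + s / 2) * tt v x)
    (4 * K * Ky) hS wG (contDiff_infty.1 us 2)
    ((continuous_const.mul yc.continuous).add ((continuous_const.mul
      (hS.continuous_tt.sqrt.add continuous_const)).mul hS.continuous_tt))
    (fun x => by
      have := (yb' x).1
      have ht := hv.tpos x
      have ht1 := tt_le_one v x
      have q1 : (√(tt v x) + s / 2) * tt v x ≤ 2 * Ky := by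
        have := Ok.sqrt_le (v := v) x
        nlinarith [Real.sqrt_nonneg (tt v x)]
      have hKK : K ≤ 4 * K * Ky := by nlinarith
      refine ⟨(ub x).1, (ub x).2.1.trans hKK, (ub x).2.2.1.trans hKK, by positivity, ?_⟩
      nlinarith [mul_le_mul_of_nonneg_left q1 (zero_le_one.trans hK),
        mul_le_mul_of_nonneg_left (y2 x) (zero_le_one.trans hK)])
    fun x => (ub x).2.2.2.2
  have hse : √e + s / 2 ≤ s := by
    have : √e ≤ s / 2 := Real.sqrt_le_iff.2 ⟨by linarith, hee.trans (min_le_right _ _)⟩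
    linarith
  have a3 := step2 hv h0 P w1 yc.continuous hK he (half_pos s0).le (by linarith) hse s1
    (M := 2 * Ky) (by linarith) fun x => ⟨(yb' x).1.le, y2 x⟩
  have a4 := hN v P om (yb v ε) hv wN yc (fun x => ⟨(yb' x).1, y2 x⟩) fun x _ =>
    (yb' x).2.2.1.trans (by
      have := hv.tpos x
      gcongr
      linarith)
  have T0 := TT_nonneg (β := β) hS P w1
  have b1 := mul_le_mul_of_nonneg_left a2 D0
  have b2 := mul_le_mul_of_nonneg_left a3 (mul_nonneg D0 CG0)
  have b3 := mul_le_mul_of_nonneg_left a4 E0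
  have b4 := mul_le_mul_of_nonneg_right ss T0
  have b5 : E * s ^ 2 * TT β v P om ≤ E * s * TT β v P om := by
    gcongr
    nlinarith
  rw [hE] at b3 b4 b5 ⊢
  linarith

end

end Crest.Agent.N067.Y
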