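import Crest.Agent.N067.Y.Out0

/-!
# Row 67, block X5, OUT (helper19): the Hessian away from the ridges
-/

set_option autoImplicit false

open MeasureTheory Laplacian InnerProductSpace Topology Filter Set Metric
open scoped RealInnerProductSpace Gradient ContDiff Convolution

namespace Crest.Agent.N067.Y

open Crest.Agent.R077

noncomputable section

variable {n : ℕ}

namespace Ou

/-! ### profiles -/

theorem F_nonneg (P : Prof) {y : ℝ} (h : 0 ≤ y) : 0 ≤ P.F y :=
  h.eq_or_lt.elim (fun e => e ▸ P.zero.ge) fun h => (P.pos y h).le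

theorem F_diff (P : Prof) {y : ℝ} (h : 0 < y) : DifferentiableAt ℝ P.F y :=
  (P.sm.contDiffAt (Ioi_mem_nhds h)).differentiableAt (by simp)

theorem F_mono (P : Prof) {y z : ℝ} (h : 0 ≤ y) (hz : y ≤ z) : P.F y ≤ P.F z := by
  rcases h.eq_or_lt with rfl | h
  · rw [P.zero]; exact F_nonneg P hz
  refine monotoneOn_of_deriv_nonneg (convex_Ioi 0) P.sm.continuousOn
    (fun x hx => (F_diff P (interior_subset hx)).differentiableWithinAt) (fun x hx => ?_) h
    (h.trans_le hz) hz
  have h1 : 0 < x := interior_subset hx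
  exact le_of_mul_le_mul_left (by linarith [P.lo x h1, P.pos x h1]) h1

theorem F_anti (P : Prof) {y z : ℝ} (h : 0 < y) (hz : y ≤ z) :
    P.F z ^ 2 / z ^ 5 ≤ P.F y ^ 2 / y ^ 5 := by
  have hd : ∀ x, 0 < x → HasDerivAt (fun x => P.F x ^ 2 / x ^ 5)
      (P.F x * (2 * (x * deriv P.F x) - 5 * P.F x) / x ^ 6) x := fun x hx =>
    (((F_diff P hx).hasDerivAt.fun_pow 2).fun_div (hasDerivAt_pow 5 x) (by positivity)).congr_deriv
      (by norm_num; field_simp)
  refine antitoneOn_of_deriv_nonpos (f := fun x => P.F x ^ 2 / x ^ 5) (convex_Ioi 0)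
    (fun x hx => (hd x hx).continuousAt.continuousWithinAt)
    (fun x hx => (hd x (interior_subset hx)).differentiableAt.differentiableWithinAt)
    (fun x hx => ?_) h (h.trans_le hz) hz
  have h1 : 0 < x := interior_subset hx
  rw [(hd x h1).deriv]
  exact div_nonpos_of_nonpos_of_nonneg (mul_nonpos_of_nonneg_of_nonpos (P.pos x h1).le
    (by linarith [P.hi x h1])) (by positivity)

theorem F_dn (P : Prof) {q y : ℝ} (h0 : 0 < q) (h1 : q ≤ 1) (h : 0 ≤ y) :
    q ^ 5 * P.F y ≤ P.F (q ^ 2 * y) := by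
  rcases h.eq_or_lt with rfl | h
  · simp [P.zero]
  have h2 := F_anti P (show 0 < q ^ 2 * y by positivity)
    (mul_le_of_le_one_left h.le (pow_le_one₀ h0.le h1))
  rw [div_le_div_iff₀ (by positivity) (by positivity)] at h2
  refine (pow_le_pow_iff_left₀ (mul_nonneg (by positivity) (P.pos y h).le)
    (F_nonneg P (by positivity)) two_ne_zero).1 (le_of_mul_le_mul_right ?_ (pow_pos h 5))
  linarith

theorem F_up (P : Prof) {M y z : ℝ} (h1 : 1 ≤ M) (h : 0 ≤ y) (hz : 0 ≤ z) (hyz : y ≤ M * z) :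
    P.F y ≤ M ^ 5 * P.F z := by
  have M0 : 0 < M := by linarith
  have h2 := F_dn P (inv_pos.2 M0) (inv_le_one_of_one_le₀ h1) h
  have h3 : M⁻¹ ^ 2 * y ≤ z := by
    rw [inv_pow, inv_mul_le_iff₀ (by positivity)]
    exact hyz.trans (mul_le_mul_of_nonneg_right (le_self_pow₀ h1 two_ne_zero) hz)
  rw [inv_pow, inv_mul_le_iff₀ (by positivity)] at h2
  exact h2.trans (mul_le_mul_of_nonneg_left (F_mono P (by positivity) h3) (by positivity))

theorem F_add (P : Prof) {y a b : ℝ} (h : 0 ≤ y) (ha : 0 ≤ a) (hb : 0 ≤ b) (hy : y ≤ a + b) :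
    P.F y ≤ 32 * P.F a + 32 * P.F b := by
  have := F_nonneg P ha
  have := F_nonneg P hb
  rcases le_total a b with l | l
  · linarith [F_up P one_le_two h hb (by linarith)]
  · linarith [F_up P one_le_two h ha (by linarith)]

/-! ### weights, kernel -/

theorem om_le {om : EE n → ℝ} (h : Wt 1 om) (x u : EE n) : om x ≤ Real.exp ‖x - u‖ * om u := by
  have hd := h.cd.differentiable (by norm_num)
  have h1 := convex_univ.norm_image_sub_le_of_norm_hasFDerivWithin_le (C := 1)
    (fun y _ => ((hd y).hasFDerivAt.log (h.pos y).ne').hasFDerivWithinAt) (fun y _ => by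
      rw [norm_smul, norm_inv, Real.norm_of_nonneg (h.pos y).le, inv_mul_le_iff₀ (h.pos y),
        ← norm_grad, mul_comm]
      exact h.lip y) (mem_univ u) (mem_univ x)
  rw [← Real.exp_log (h.pos x), ← Real.exp_log (h.pos u), ← Real.exp_add]
  exact Real.exp_le_exp.2 (by linarith [(abs_le.1 h1).2])

theorem int_ker : Integrable fun z : EE n => Real.exp (-‖z‖) := by
  refine ((integrable_one_add_norm (E := EE n) (μ := volume) (r := ((n + 1 : ℕ) : ℝ))
    (by simp)).const_mul (((n + 1).factorial : ℝ) * Real.exp 1)).mono' (by fun_prop)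
    (Eventually.of_forall fun z => ?_)
  have h1 := Real.pow_div_factorial_le_exp (1 + ‖z‖) (by positivity) (n + 1)
  rw [Real.norm_of_nonneg (Real.exp_pos _).le, Real.rpow_neg (by positivity), Real.rpow_natCast,
    Real.exp_neg, ← div_eq_mul_inv, le_div_iff₀ (by positivity), inv_mul_le_iff₀ (Real.exp_pos _)]
  rw [div_le_iff₀ (by positivity), Real.exp_add] at h1
  linarith

theorem avg {G : EE n → ℝ} (hG : Integrable G) (G0 : ∀ u, 0 ≤ G u) {a c : ℝ} (hc : 0 ≤ c)
    (x x0 : EE n) (h : ∀ u ∈ ball x0 1, a ≤ c * (G u * Real.exp (-‖x - u‖))) :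
    a * volume.real (ball (0 : EE n) 1) ≤
      c * (G ⋆[ContinuousLinearMap.mul ℝ ℝ] fun z => Real.exp (-‖z‖)) x := by
  have h1 : Integrable fun u => G u * Real.exp (-‖x - u‖) :=
    hG.mul_bdd (c := 1) (by fun_prop) (Eventually.of_forall fun u => by
      rw [Real.norm_of_nonneg (Real.exp_pos _).le]
      exact Real.exp_le_one_iff.2 (neg_nonpos.2 (norm_nonneg _)))
  rw [← Measure.addHaar_real_ball_center volume x0]
  refine (setIntegral_ge_of_const_le_real measurableSet_ball measure_ball_lt_top.ne h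
    (h1.const_mul c).integrableOn).trans ?_
  rw [integral_const_mul]
  exact mul_le_mul_of_nonneg_left (setIntegral_le_integral h1 (Eventually.of_forall fun u =>
    mul_nonneg (G0 u) (Real.exp_pos _).le)) hc

theorem sq_le_pb {β : ℝ} (hβ : β < 1) {v : EE n → ℝ} (h : Sol v) (x : EE n) :
    psi v x ^ 2 ≤ pb β v x := by
  rw [← Real.rpow_natCast]
  exact Real.rpow_le_rpow_of_exponent_ge (h.psi_pos x) (psi_le_one v x) (by push_cast; linarith)

theorem le_pb {β : ℝ} (hβ : β < 1) {v : EE n → ℝ} (h : Sol v) {x : EE n} {R : ℝ}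
    (hR : |dd v x| ≤ R) : tt v x ≤ Real.exp (√2 * R) ^ 2 * (pb β v x * tt v x) := by
  have h1 := (psi_ge h x).trans (mul_le_mul_of_nonneg_left (Real.exp_le_exp.2
    (mul_le_mul_of_nonneg_left hR sqrt2_pos.le)) (h.psi_pos x).le)
  have h2 := h.tt_nonneg x
  calc tt v x ≤ (psi v x * Real.exp (√2 * R)) ^ 2 * tt v x :=
        le_mul_of_one_le_left h2 (one_le_pow₀ h1)
    _ = Real.exp (√2 * R) ^ 2 * (psi v x ^ 2 * tt v x) := by ring
    _ ≤ _ := by gcongr; exact sq_le_pb hβ h x

end Ou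

open Ou in
theorem outS (hk : HKStmt n) : OUTStmt n := by
  intro β hβ0 hβ
  obtain ⟨D0, C, hC, hpt⟩ := pt hk
  obtain ⟨K, hK, hB⟩ := exists_KB hk
  obtain ⟨H, hH, har⟩ := hk.har
  obtain ⟨M, hM⟩ : ∃ M, M = 1 + n ^ 2 * K ^ 2 * Real.exp (√2 * D0) ^ 2 + C +
    C * Real.exp H * Real.exp (√2 * 2) ^ 2 := ⟨_, rfl⟩
  have m1 : 0 ≤ n ^ 2 * K ^ 2 * Real.exp (√2 * D0) ^ 2 := by positivity
  have m2 : 0 ≤ C * Real.exp H * Real.exp (√2 * 2) ^ 2 := by positivity
  have M1 : 1 ≤ M := by linarith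
  obtain ⟨V, hV⟩ : ∃ V, V = volume.real (ball (0 : EE n) 1) := ⟨_, rfl⟩
  have V0 : 0 < V := hV ▸ ENNReal.toReal_pos (measure_ball_pos _ _ one_pos).ne' measure_ball_lt_top.ne
  obtain ⟨c, hc⟩ : ∃ c, c = M ^ 5 * (4 * Real.exp 1) ^ 2 := ⟨_, rfl⟩
  have c0 : 0 ≤ c := by rw [hc]; positivity
  have I0 : 0 ≤ ∫ z : EE n, Real.exp (-‖z‖) := integral_nonneg fun _ => (Real.exp_pos _).le
  refine ⟨1, 32 * M ^ 5 + 32 * c / V * ∫ z : EE n, Real.exp (-‖z‖), one_pos, by positivity,
    fun v P om hv hw => ?_⟩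
  have hs := hv.toSol
  have cψ := hs.psi_sm.continuous
  have pb0 : ∀ x, 0 < pb β v x * tt v x := fun x =>
    mul_pos (Real.rpow_pos_of_pos (hs.psi_pos x) _) (hv.tpos x)
  obtain ⟨G, hG⟩ : ∃ G : EE n → ℝ, G = fun x => P.F (pb β v x * tt v x) * om x := ⟨_, rfl⟩
  have G0 : ∀ x, 0 ≤ G x := fun x => by
    rw [hG]; exact mul_nonneg (P.pos _ (pb0 x)).le (hw.pos x).le
  have Gi : Integrable G := by
    rw [hG]
    refine hw.int.bdd_mul (c := P.F 1) (P.sm.continuousOn.comp_continuous
      ((cψ.rpow_const fun x => Or.inl (hs.psi_pos x).ne').mul hs.tt_sm.continuous)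
      pb0).aestronglyMeasurable (Eventually.of_forall fun x => ?_)
    rw [Real.norm_of_nonneg (P.pos _ (pb0 x)).le]
    exact F_mono P (pb0 x).le (mul_le_one₀ (Real.rpow_le_one (hs.psi_pos x).le (psi_le_one v x)
      (by linarith)) (hv.tpos x).le (tt_le_one v x))
  have Hi := Gi.integrable_convolution (ContinuousLinearMap.mul ℝ ℝ) int_ker
  have H0 : ∀ x, 0 ≤ (G ⋆[ContinuousLinearMap.mul ℝ ℝ] fun z => Real.exp (-‖z‖)) x := fun x =>
    integral_nonneg fun u => mul_nonneg (G0 u) (Real.exp_pos _).le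
  have key : ∀ x ∈ {x | tt v x ≤ psi v x ^ (13 / 10 : ℝ)},
      psi v x ^ 2 * P.F (hsq (dd v) x) * om x ≤ 32 * M ^ 5 * G x +
        32 * c / V * (G ⋆[ContinuousLinearMap.mul ℝ ℝ] fun z => Real.exp (-‖z‖)) x := by
    intro x hx
    have b0 := hsq_nonneg (dd v) x
    have ψ0 := hs.psi_pos x
    have o0 := hw.pos x
    have t0 := hv.tpos x
    have g0 := P.pos _ (pb0 x)
    have e0 : G x = P.F (pb β v x * tt v x) * om x := by rw [hG]
    rcases le_total |dd v x| D0 with hD | hD
    · have h1 : hsq (dd v) x ≤ n ^ 2 * K ^ 2 * tt v x := by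
        have := Finset.sum_le_sum fun i (_ : i ∈ Finset.univ) =>
          Finset.sum_le_sum fun j (_ : j ∈ Finset.univ) =>
            pow_le_pow_left₀ (abs_nonneg _) (hB v hs x i j).1 2
        simp only [sq_abs, mul_pow, Real.sq_sqrt t0.le, Finset.sum_const, Finset.card_univ,
          Fintype.card_fin, nsmul_eq_mul] at this
        unfold hsq
        linarith
      have h2 := F_up P M1 b0 (pb0 x).le (h1.trans ((mul_le_mul_of_nonneg_left (le_pb hβ hs hD)
        (by positivity)).trans (by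
          rw [← mul_assoc]
          exact mul_le_mul_of_nonneg_right (by linarith) (pb0 x).le)))
      have h3 : psi v x ^ 2 * P.F (hsq (dd v) x) ≤ P.F (hsq (dd v) x) :=
        mul_le_of_le_one_left (F_nonneg P b0) (pow_le_one₀ ψ0.le (psi_le_one v x))
      have h4 := mul_le_mul_of_nonneg_right (h3.trans h2) o0.le
      have h5 := mul_nonneg (show 0 ≤ 32 * c / V by positivity) (H0 x)
      have h6 : 0 ≤ M ^ 5 * P.F (pb β v x * tt v x) * om x := by positivity
      rw [e0]
      linarith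
    obtain ⟨p, hp⟩ : ∃ p, p = psi v x ^ (1 / 10 : ℝ) := ⟨_, rfl⟩
    have p0 : 0 < p := hp ▸ Real.rpow_pos_of_pos ψ0 _
    have p1 : p ≤ 1 := hp ▸ Real.rpow_le_one ψ0.le (psi_le_one v x) (by norm_num)
    have p10 : p ^ 10 = psi v x := by
      rw [hp, ← Real.rpow_natCast, ← Real.rpow_mul ψ0.le]; norm_num
    have p13 : p ^ 13 = psi v x ^ (13 / 10 : ℝ) := by
      rw [hp, ← Real.rpow_natCast, ← Real.rpow_mul ψ0.le]; norm_num
    obtain ⟨x0, x1, x2, x3⟩ := hpt v hs x p p0 p10 (p13 ▸ hx) hD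
    have t1 := hv.tpos x0
    have h1 := F_add P b0 (by positivity) (by positivity) x3
    have h2 : psi v x ^ 2 * P.F (C * (p ^ 12 * tt v x)) ≤ M ^ 5 * P.F (pb β v x * tt v x) := by
      rw [show psi v x ^ 2 = (p ^ 4) ^ 5 by rw [← p10]; ring]
      refine (F_dn P (by positivity) (pow_le_one₀ p0.le p1) (by positivity)).trans
        (F_up P M1 (by positivity) (pb0 x).le ?_)
      calc (p ^ 4) ^ 2 * (C * (p ^ 12 * tt v x)) = C * (psi v x ^ 2 * tt v x) := by
            rw [← p10]; ring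
        _ ≤ _ := by
            gcongr
            · linarith
            · exact sq_le_pb hβ hs x
    have h3 := avg Gi G0 (a := psi v x ^ 2 * P.F (C * tt v x0) * om x) c0 x x0 fun u hu => by
      rw [mem_ball, dist_eq_norm] at hu
      have a1 : |dd v u| ≤ 2 := by
        linarith [hs.abs_dd_sub_le u x0, abs_sub_abs_le_abs_sub (dd v u) (dd v x0)]
      have a2 : tt v x0 ≤ Real.exp H * tt v u := (har v hs u x0).trans
        (mul_le_mul_of_nonneg_right (Real.exp_le_exp.2 (mul_le_of_le_one_right hH hu.le))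
          (hv.tpos u).le)
      have a3' : C * tt v x0 ≤ M * (pb β v u * tt v u) :=
        calc _ ≤ C * (Real.exp H * (Real.exp (√2 * 2) ^ 2 * (pb β v u * tt v u))) :=
              mul_le_mul_of_nonneg_left (a2.trans
                (mul_le_mul_of_nonneg_left (le_pb hβ hs a1) (Real.exp_pos _).le)) hC
          _ = C * Real.exp H * Real.exp (√2 * 2) ^ 2 * (pb β v u * tt v u) := by ring
          _ ≤ _ := mul_le_mul_of_nonneg_right (by linarith) (pb0 u).le
      have a3 := F_up P M1 (show 0 ≤ C * tt v x0 by positivity) (pb0 u).le a3'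
      have a4 : ‖x - u‖ ≤ √2 * |dd v x| + 1 := by
        have := norm_sub_le_norm_sub_add_norm_sub x x0 u
        rw [norm_sub_rev x x0, norm_sub_rev x0 u] at this
        nlinarith [Real.one_lt_sqrt_two, abs_nonneg (dd v x)]
      have a5 : psi v x * Real.exp ‖x - u‖ ≤ 4 * Real.exp 1 := by
        refine (mul_le_mul_of_nonneg_left (Real.exp_le_exp.2 a4) ψ0.le).trans ?_
        rw [Real.exp_add, ← mul_assoc]
        exact mul_le_mul_of_nonneg_right (psi_le hs x) (Real.exp_pos _).le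
      have a6 := P.pos _ (pb0 u)
      have a7 := hw.pos u
      calc psi v x ^ 2 * P.F (C * tt v x0) * om x
          ≤ psi v x ^ 2 * (M ^ 5 * P.F (pb β v u * tt v u)) * (Real.exp ‖x - u‖ * om u) := by
            gcongr
            exact om_le hw x u
        _ = M ^ 5 * (psi v x * Real.exp ‖x - u‖) ^ 2 *
            (P.F (pb β v u * tt v u) * om u * Real.exp (-‖x - u‖)) := by
            rw [Real.exp_neg]; field_simp
        _ ≤ _ := by rw [hc, hG]; gcongr
    rw [← hV, ← le_div_iff₀ V0] at h3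
    have h4 := mul_le_mul_of_nonneg_right (mul_le_mul_of_nonneg_left h1 (sq_nonneg (psi v x))) o0.le
    have h5 := mul_le_mul_of_nonneg_right h2 o0.le
    rw [e0, mul_div_assoc, mul_assoc 32 (c / V), div_mul_eq_mul_div]
    linarith
  have i1 := (Gi.const_mul (32 * M ^ 5)).add (Hi.const_mul (32 * c / V))
  refine (integral_mono_of_nonneg (Eventually.of_forall fun x => mul_nonneg (mul_nonneg (sq_nonneg _)
    (F_nonneg P (hsq_nonneg _ x))) (hw.pos x).le) i1.integrableOn (ae_restrict_of_forall_mem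
      (isClosed_le hs.tt_sm.continuous (cψ.rpow_const fun x =>
        Or.inl (hs.psi_pos x).ne')).measurableSet key)).trans
    ((setIntegral_le_integral i1 (Eventually.of_forall fun x => add_nonneg
      (mul_nonneg (by positivity) (G0 x)) (mul_nonneg (by positivity) (H0 x)))).trans_eq ?_)
  simp only [Pi.add_apply]
  rw [integral_add (Gi.const_mul _) (Hi.const_mul _), integral_const_mul, integral_const_mul,
    integral_convolution _ Gi int_ker, ContinuousLinearMap.mul_apply', TT, ← hG]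
  ring

end

end Crest.Agent.N067.Y
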