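import Crest.Agent.N067.Y.Defs

/-!
# Row 67, block X5 (helper54): calculus of profiles
-/

set_option autoImplicit false

open MeasureTheory Topology Filter Set
open scoped ContDiff

namespace Crest.Agent.N067.Y

noncomputable section

namespace Prof

variable (P : Prof)

theorem cdAt {y : ℝ} (hy : 0 < y) : ContDiffAt ℝ ∞ P.F y :=
  P.sm.contDiffAt (Ioi_mem_nhds hy)

theorem cdAt' {y : ℝ} (hy : 0 < y) (k : ℕ) : ContDiffAt ℝ k P.F y :=
  (P.cdAt hy).of_le (by exact_mod_cast le_top)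

theorem sm_deriv : ContDiffOn ℝ ∞ (deriv P.F) (Ioi 0) :=
  ((contDiffOn_infty_iff_deriv_of_isOpen isOpen_Ioi).1 P.sm).2

theorem cdAt_deriv {y : ℝ} (hy : 0 < y) (k : ℕ) : ContDiffAt ℝ k (deriv P.F) y :=
  (P.sm_deriv.contDiffAt (Ioi_mem_nhds hy)).of_le (by exact_mod_cast le_top)

theorem hd {y : ℝ} (hy : 0 < y) : HasDerivAt P.F (deriv P.F y) y :=
  ((P.cdAt' hy 1).differentiableAt (by simp)).hasDerivAt

theorem hd2 {y : ℝ} (hy : 0 < y) : HasDerivAt (deriv P.F) (deriv (deriv P.F) y) y :=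
  ((P.cdAt_deriv hy 1).differentiableAt (by simp)).hasDerivAt

theorem nonneg {y : ℝ} (hy : 0 ≤ y) : 0 ≤ P.F y := by
  rcases hy.eq_or_lt with h | h
  · rw [← h, P.zero]
  · exact (P.pos y h).le

theorem deriv_pos {y : ℝ} (hy : 0 < y) : 0 < deriv P.F y := by
  have h1 := P.lo y hy
  have h2 := P.pos y hy
  by_contra h
  nlinarith [mul_nonneg hy.le (neg_nonneg.2 (not_lt.1 h))]

theorem deriv_le {y : ℝ} (hy : 0 < y) : deriv P.F y ≤ 5 / 2 * (P.F y / y) := by
  rw [← mul_div_assoc, le_div_iff₀ hy, mul_comm]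
  exact P.hi y hy

theorem le_deriv {y : ℝ} (hy : 0 < y) : 2 * (P.F y / y) ≤ deriv P.F y := by
  rw [← mul_div_assoc, div_le_iff₀ hy, mul_comm (deriv P.F y)]
  exact P.lo y hy

theorem deriv2_pos {y : ℝ} (hy : 0 < y) : 0 < deriv (deriv P.F) y := by
  have h1 := P.cv y hy
  have h2 := P.pos y hy
  by_contra h
  nlinarith [mul_nonneg (sq_nonneg y) (neg_nonneg.2 (not_lt.1 h))]

theorem one_le_p {y : ℝ} (hy : 0 < y) : 1 ≤ P.p y := by
  have h := P.lo y hy
  have h0 := P.pos y hy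
  rw [Prof.p, le_sub_iff_add_le, le_div_iff₀ h0]
  linarith

theorem p_le {y : ℝ} (hy : 0 < y) : P.p y ≤ 3 / 2 := by
  have h := P.hi y hy
  have h0 := P.pos y hy
  rw [Prof.p, sub_le_iff_le_add, div_le_iff₀ h0]
  linarith

theorem deriv_eq {y : ℝ} (hy : 0 < y) : deriv P.F y = (P.p y + 1) * (P.F y / y) := by
  have h0 := (P.pos y hy).ne'
  rw [Prof.p]
  field_simp
  ring

/-- `F y / y ^ a` as a function of `y` -/
theorem hd_rpow (a : ℝ) {y : ℝ} (hy : 0 < y) : HasDerivAt (fun y => P.F y * y ^ (-a))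
    ((y * deriv P.F y - a * P.F y) * y ^ (-a - 1)) y := by
  have h := (P.hd hy).mul (Real.hasDerivAt_rpow_const (x := y) (p := -a) (Or.inl hy.ne'))
  refine h.congr_deriv ?_
  have : y ^ (-a) = y * y ^ (-a - 1) := by
    rw [Real.rpow_sub_one hy.ne']
    field_simp
  rw [this]
  ring

theorem mono_two : MonotoneOn (fun y => P.F y * y ^ (-2 : ℝ)) (Ioi 0) := by
  refine monotoneOn_of_deriv_nonneg (convex_Ioi 0)
    (fun y hy => (P.hd_rpow 2 hy).continuousAt.continuousWithinAt)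
    (fun y hy => (P.hd_rpow 2 (by simpa using hy)).differentiableAt.differentiableWithinAt) ?_
  intro y hy
  have hy' : 0 < y := by simpa using hy
  rw [(P.hd_rpow 2 hy').deriv]
  exact mul_nonneg (by linarith [P.lo y hy']) (Real.rpow_nonneg hy'.le _)

theorem anti_five : AntitoneOn (fun y => P.F y * y ^ (-(5 / 2) : ℝ)) (Ioi 0) := by
  refine antitoneOn_of_deriv_nonpos (convex_Ioi 0)
    (fun y hy => (P.hd_rpow (5 / 2) hy).continuousAt.continuousWithinAt)
    (fun y hy => (P.hd_rpow (5 / 2) (by simpa using hy)).differentiableAt.differentiableWithinAt) ?_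
  intro y hy
  have hy' : 0 < y := by simpa using hy
  rw [(P.hd_rpow (5 / 2) hy').deriv]
  exact mul_nonpos_of_nonpos_of_nonneg (by linarith [P.hi y hy']) (Real.rpow_nonneg hy'.le _)

/-- `s² F y ≤ F (s y)` for `s ≥ 1` -/
theorem le_scale_up {s y : ℝ} (hs : 1 ≤ s) (hy : 0 ≤ y) : s ^ 2 * P.F y ≤ P.F (s * y) := by
  rcases hy.eq_or_lt with h | h
  · simp [← h, P.zero]
  have hs0 : 0 < s := by linarith
  have h1 := P.mono_two (a := y) (b := s * y) h (mul_pos hs0 h) (by nlinarith)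
  simp only at h1
  rw [Real.mul_rpow hs0.le hy, Real.rpow_neg hs0.le, ← mul_assoc, mul_right_comm] at h1
  have h2 : 0 < y ^ (-2 : ℝ) := Real.rpow_pos_of_pos h _
  have h3 : s ^ (2 : ℝ) = s ^ 2 := by exact_mod_cast Real.rpow_natCast s 2
  rw [h3, mul_right_comm] at h1
  have h4 := le_of_mul_le_mul_right h1 h2
  rw [← div_eq_mul_inv, le_div_iff₀ (by positivity)] at h4
  linarith

/-- `F (s y) ≤ s^(5/2) F y` for `s ≥ 1` -/
theorem scale_up' {s y : ℝ} (hs : 1 ≤ s) (hy : 0 ≤ y) :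
    P.F (s * y) ≤ s ^ (5 / 2 : ℝ) * P.F y := by
  rcases hy.eq_or_lt with h | h
  · simp [← h, P.zero]
  have hs0 : 0 < s := by linarith
  have h1 := P.anti_five (a := y) (b := s * y) h (mul_pos hs0 h) (by nlinarith)
  simp only at h1
  rw [Real.mul_rpow hs0.le hy, Real.rpow_neg hs0.le, ← mul_assoc] at h1
  have h2 : 0 < y ^ (-(5 / 2) : ℝ) := Real.rpow_pos_of_pos h _
  have h4 := le_of_mul_le_mul_right h1 h2
  rw [← div_eq_mul_inv, div_le_iff₀ (Real.rpow_pos_of_pos hs0 _)] at h4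
  linarith

/-- `F (s y) ≤ s³ F y` for `s ≥ 1` -/
theorem scale_up {s y : ℝ} (hs : 1 ≤ s) (hy : 0 ≤ y) : P.F (s * y) ≤ s ^ 3 * P.F y := by
  refine (P.scale_up' hs hy).trans (mul_le_mul_of_nonneg_right ?_ (P.nonneg hy))
  have h3 : s ^ (3 : ℝ) = s ^ 3 := by exact_mod_cast Real.rpow_natCast s 3
  rw [← h3]
  exact Real.rpow_le_rpow_of_exponent_le hs (by norm_num)

theorem mono {a b : ℝ} (ha : 0 ≤ a) (hab : a ≤ b) : P.F a ≤ P.F b := by
  rcases ha.eq_or_lt with h | h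
  · rw [← h, P.zero]
    exact P.nonneg (ha.trans hab)
  have h1 : 1 ≤ b / a := (one_le_div h).2 hab
  have h2 := P.le_scale_up h1 ha
  rw [div_mul_cancel₀ _ h.ne'] at h2
  nlinarith [P.nonneg ha, one_le_pow₀ (n := 2) h1]

/-- `F (s y) ≤ s² F y` for `s ≤ 1` -/
theorem scale_dn {s y : ℝ} (hs0 : 0 ≤ s) (hs : s ≤ 1) (hy : 0 ≤ y) :
    P.F (s * y) ≤ s ^ 2 * P.F y := by
  rcases hs0.eq_or_lt with h | h
  · simp [← h, P.zero]
  have h2 := P.le_scale_up ((one_le_inv₀ h).2 hs) (mul_nonneg hs0 hy)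
  rw [inv_mul_cancel_left₀ h.ne', inv_pow, inv_mul_le_iff₀ (by positivity)] at h2
  exact h2

/-- `s^(5/2) F y ≤ F (s y)` for `s ≤ 1` -/
theorem le_scale_dn' {s y : ℝ} (hs0 : 0 ≤ s) (hs : s ≤ 1) (hy : 0 ≤ y) :
    s ^ (5 / 2 : ℝ) * P.F y ≤ P.F (s * y) := by
  rcases hs0.eq_or_lt with h | h
  · simp [← h, P.zero]
  have h2 := P.scale_up' ((one_le_inv₀ h).2 hs) (mul_nonneg hs0 hy)
  rw [inv_mul_cancel_left₀ h.ne', Real.inv_rpow hs0,
    le_inv_mul_iff₀ (Real.rpow_pos_of_pos h _)] at h2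
  exact h2

/-- `s³ F y ≤ F (s y)` for `s ≤ 1` -/
theorem le_scale_dn {s y : ℝ} (hs0 : 0 ≤ s) (hs : s ≤ 1) (hy : 0 ≤ y) :
    s ^ 3 * P.F y ≤ P.F (s * y) := by
  rcases hs0.eq_or_lt with h | h
  · simp [← h, P.zero]
  have h2 := P.scale_up ((one_le_inv₀ h).2 hs) (mul_nonneg hs0 hy)
  rw [inv_mul_cancel_left₀ h.ne', inv_pow, le_inv_mul_iff₀ (by positivity)] at h2
  exact h2

/-- the comparison used most often -/
theorem le_of_le_mul {a b K : ℝ} (hK : 1 ≤ K) (ha : 0 ≤ a) (hb : 0 ≤ b) (h : a ≤ K * b) :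
    P.F a ≤ K ^ 3 * P.F b := (P.mono ha h).trans (P.scale_up hK hb)

/-- small factors gain a square -/
theorem le_of_le_small {a b K s : ℝ} (hK : 1 ≤ K) (hs0 : 0 ≤ s) (hs : s ≤ 1) (ha : 0 ≤ a)
    (hb : 0 ≤ b) (h : a ≤ K * (s * b)) : P.F a ≤ K ^ 3 * s ^ 2 * P.F b := by
  refine (P.le_of_le_mul hK ha (mul_nonneg hs0 hb) h).trans ?_
  rw [mul_assoc]
  exact mul_le_mul_of_nonneg_left (P.scale_dn hs0 hs hb) (by positivity)

theorem add_le {a b : ℝ} (ha : 0 ≤ a) (hb : 0 ≤ b) : P.F (a + b) ≤ 8 * (P.F a + P.F b) := by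
  have h1 := P.nonneg ha
  have h2 := P.nonneg hb
  rcases le_total a b with h | h
  · have := P.le_of_le_mul (K := 2) (a := a + b) (b := b) (by norm_num) (by positivity) hb
      (by linarith)
    linarith
  · have := P.le_of_le_mul (K := 2) (a := a + b) (b := a) (by norm_num) (by positivity) ha
      (by linarith)
    linarith

theorem add3_le {a b c : ℝ} (ha : 0 ≤ a) (hb : 0 ≤ b) (hc : 0 ≤ c) :
    P.F (a + b + c) ≤ 64 * (P.F a + P.F b + P.F c) := by
  have h1 := P.add_le (add_nonneg ha hb) hc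
  have h2 := P.add_le ha hb
  have := P.nonneg hc
  linarith

theorem W_pos {y : ℝ} (hy : 0 < y) : 0 < P.W y := div_pos (P.pos y hy) (by positivity)

theorem W_nonneg {y : ℝ} (hy : 0 ≤ y) : 0 ≤ P.W y := div_nonneg (P.nonneg hy) (by positivity)

theorem W_mul {y : ℝ} (hy : 0 < y) : P.W y * y ^ 2 = P.F y := div_mul_cancel₀ _ (by positivity)

theorem W_mono {a b : ℝ} (ha : 0 < a) (hab : a ≤ b) : P.W a ≤ P.W b := by
  have hb : 0 < b := ha.trans_le hab
  have h2 := P.le_scale_up ((one_le_div ha).2 hab) ha.le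
  rw [div_mul_cancel₀ _ ha.ne', div_pow] at h2
  rw [W, W, div_le_div_iff₀ (by positivity) (by positivity)]
  rw [div_mul_eq_mul_div, div_le_iff₀ (by positivity)] at h2
  linarith

theorem W_scale {s y : ℝ} (hs : 1 ≤ s) (hy : 0 < y) : P.W (s * y) ≤ s * P.W y := by
  have h := P.scale_up hs hy.le
  have hs0 : 0 < s := by linarith
  rw [W, W, div_le_iff₀ (by positivity)]
  calc _ ≤ _ := h
    _ = _ := by field_simp

theorem W_le_of_le_mul {a b K : ℝ} (hK : 1 ≤ K) (ha : 0 < a) (hb : 0 < b) (h : a ≤ K * b) :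
    P.W a ≤ K * P.W b := (P.W_mono ha h).trans (P.W_scale hK hb)

/-- `W(y) s² ≤ τ² F y + F s / τ` -/
theorem youngW {y s τ : ℝ} (hy : 0 < y) (hs : 0 ≤ s) (h0 : 0 < τ) (h1 : τ ≤ 1) :
    P.W y * s ^ 2 ≤ τ ^ 2 * P.F y + P.F s / τ := by
  have hF := P.nonneg hs
  have hy' := P.pos y hy
  rcases le_total s (τ * y) with h | h
  · have : P.W y * s ^ 2 ≤ P.W y * (τ * y) ^ 2 :=
      mul_le_mul_of_nonneg_left (pow_le_pow_left₀ hs h 2) (P.W_pos hy).le
    rw [mul_pow, mul_left_comm, P.W_mul hy] at this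
    have : 0 ≤ P.F s / τ := by positivity
    linarith
  · have hs' : 0 < s := (mul_pos h0 hy).trans_le h
    have h2 := P.W_le_of_le_mul (K := τ⁻¹) ((one_le_inv₀ h0).2 h1) hy hs'
      (by rw [le_inv_mul_iff₀ h0]; exact h)
    have h3 : P.W y * s ^ 2 ≤ τ⁻¹ * P.W s * s ^ 2 := mul_le_mul_of_nonneg_right h2 (by positivity)
    rw [mul_assoc, P.W_mul hs', ← div_eq_inv_mul] at h3
    have : 0 ≤ τ ^ 2 * P.F y := by positivity
    linarith

/-- `(F y / y) s ≤ δ F y + F s / δ²` -/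
theorem young {y s δ : ℝ} (hy : 0 < y) (hs : 0 ≤ s) (h0 : 0 < δ) (h1 : δ ≤ 1) :
    P.F y / y * s ≤ δ * P.F y + P.F s / δ ^ 2 := by
  have hF := P.nonneg hs
  have hy' := P.pos y hy
  rcases le_total s (δ * y) with h | h
  · have : P.F y / y * s ≤ P.F y / y * (δ * y) := mul_le_mul_of_nonneg_left h (by positivity)
    have e : P.F y / y * (δ * y) = δ * P.F y := by field_simp
    have : 0 ≤ P.F s / δ ^ 2 := by positivity
    linarith
  · have hs' : 0 < s := (mul_pos h0 hy).trans_le h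
    have hK := (one_le_inv₀ h0).2 h1
    have hys : y ≤ δ⁻¹ * s := by rw [le_inv_mul_iff₀ h0]; exact h
    have h2 := P.W_le_of_le_mul hK hy hs' hys
    have e1 : P.F y / y * s = P.W y * y * s := by rw [W]; field_simp
    have h3 : P.W y * y * s ≤ (δ⁻¹ * P.W s) * (δ⁻¹ * s) * s :=
      mul_le_mul_of_nonneg_right (mul_le_mul h2 hys hy.le
        (mul_nonneg (by positivity) (P.W_pos hs').le)) hs
    have e2 : (δ⁻¹ * P.W s) * (δ⁻¹ * s) * s = P.F s / δ ^ 2 := by rw [W]; field_simp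
    have : 0 ≤ δ * P.F y := by positivity
    linarith

theorem young1 {y s : ℝ} (hy : 0 < y) (hs : 0 ≤ s) : P.F y / y * s ≤ P.F y + P.F s := by
  simpa using P.young hy hs one_pos le_rfl

theorem youngW1 {y s : ℝ} (hy : 0 < y) (hs : 0 ≤ s) : P.W y * s ^ 2 ≤ P.F y + P.F s := by
  simpa using P.youngW hy hs one_pos le_rfl

/-- `F'(y) s ≤ (5/2) (δ F y + F s / δ²)` -/
theorem youngD {y s δ : ℝ} (hy : 0 < y) (hs : 0 ≤ s) (h0 : 0 < δ) (h1 : δ ≤ 1) :
    deriv P.F y * s ≤ 5 / 2 * (δ * P.F y + P.F s / δ ^ 2) := by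
  have h := P.young hy hs h0 h1
  have h2 := mul_le_mul_of_nonneg_right (P.deriv_le hy) hs
  linarith

theorem continuousOn : ContinuousOn P.F (Ici 0) := by
  intro y hy
  rcases (mem_Ici.1 hy).eq_or_lt with h | h
  · subst h
    have h1 : Tendsto (fun s : ℝ => s ^ 2 * P.F 1) (𝓝[Ici 0] 0) (𝓝 (P.F 0)) := by
      rw [P.zero]
      have : Continuous fun s : ℝ => s ^ 2 * P.F 1 := by fun_prop
      simpa using (this.tendsto 0).mono_left nhdsWithin_le_nhds
    refine tendsto_of_tendsto_of_tendsto_of_le_of_le' tendsto_const_nhds h1 ?_ ?_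
    · filter_upwards [self_mem_nhdsWithin] with s hs
      exact P.mono le_rfl hs
    · filter_upwards [self_mem_nhdsWithin, nhdsWithin_le_nhds (Iic_mem_nhds one_pos)] with s hs hs1
      simpa using P.scale_dn hs hs1 zero_le_one
  · exact (P.hd h).continuousAt.continuousWithinAt

theorem cont {α : Type*} [TopologicalSpace α] {g : α → ℝ} (hg : Continuous g) (h : ∀ x, 0 ≤ g x) :
    Continuous fun x => P.F (g x) := P.continuousOn.comp_continuous hg h

theorem cont_deriv {α : Type*} [TopologicalSpace α] {g : α → ℝ} (hg : Continuous g)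
    (h : ∀ x, 0 < g x) : Continuous fun x => deriv P.F (g x) :=
  P.sm_deriv.continuousOn.comp_continuous hg h

theorem cont_W {α : Type*} [TopologicalSpace α] {g : α → ℝ} (hg : Continuous g)
    (h : ∀ x, 0 < g x) : Continuous fun x => P.W (g x) :=
  (P.cont hg fun x => (h x).le).div (hg.pow 2) fun x => pow_ne_zero 2 (h x).ne'

theorem cont_p {α : Type*} [TopologicalSpace α] {g : α → ℝ} (hg : Continuous g)
    (h : ∀ x, 0 < g x) : Continuous fun x => P.p (g x) :=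
  ((hg.mul (P.cont_deriv hg h)).div (P.cont hg fun x => (h x).le)
    fun x => (P.pos _ (h x)).ne').sub continuous_const

theorem cd_comp {E : Type*} [NormedAddCommGroup E] [NormedSpace ℝ E] {g : E → ℝ} {k : ℕ}
    (hg : ContDiff ℝ k g) (h : ∀ x, 0 < g x) : ContDiff ℝ k fun x => P.F (g x) :=
  contDiff_iff_contDiffAt.2 fun x => (P.cdAt' (h x) k).comp x hg.contDiffAt

theorem cd_comp_deriv {E : Type*} [NormedAddCommGroup E] [NormedSpace ℝ E] {g : E → ℝ} {k : ℕ}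
    (hg : ContDiff ℝ k g) (h : ∀ x, 0 < g x) : ContDiff ℝ k fun x => deriv P.F (g x) :=
  contDiff_iff_contDiffAt.2 fun x => (P.cdAt_deriv (h x) k).comp x hg.contDiffAt

theorem cd_comp_W {E : Type*} [NormedAddCommGroup E] [NormedSpace ℝ E] {g : E → ℝ} {k : ℕ}
    (hg : ContDiff ℝ k g) (h : ∀ x, 0 < g x) : ContDiff ℝ k fun x => P.W (g x) :=
  (P.cd_comp hg h).div (hg.pow 2) fun x => pow_ne_zero 2 (h x).ne'

/-- `W' = (p - 1) W / y` -/
theorem hdW {y : ℝ} (hy : 0 < y) : HasDerivAt P.W ((P.p y - 1) * (P.W y / y)) y := by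
  have h := (P.hd hy).div (hasDerivAt_pow 2 y) (pow_ne_zero 2 hy.ne')
  refine h.congr_deriv ?_
  rw [P.deriv_eq hy, W]
  field_simp
  ring

end Prof

end

end Crest.Agent.N067.Y
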