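import Crest.Agent.N067.Y.SK1
import Crest.Agent.N067.Y.Prof

/-!
# Row 67, block X5 (helper66): Simons and Kato on the level sets of `d`, `sk : SKStmt n`
-/

set_option autoImplicit false

open MeasureTheory Laplacian Topology Filter Set
open scoped ContDiff

namespace Crest.Agent.N067.Y

open Crest.Agent.R077 Crest.Agent.N222 Crest.Agent.N067.Lv

noncomputable section

variable {n : ℕ} {v f g : EE n → ℝ} {x : EE n}

namespace Prof

variable (P : Prof) {y : ℝ}

theorem sm_W : ContDiffOn ℝ ∞ P.W (Ioi 0) :=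
  P.sm.div (contDiffOn_id.pow 2) fun _ hy => (pow_pos hy 2).ne'

theorem hasDerivAt_W (hy : 0 < y) : HasDerivAt P.W ((P.p y - 1) / y * P.W y) y := by
  have h1 := ((P.sm.contDiffAt (Ioi_mem_nhds hy)).differentiableAt (by simp)).hasDerivAt
  have h2 := P.pos y hy
  refine (h1.div (hasDerivAt_pow 2 y) (pow_pos hy 2).ne').congr_deriv ?_
  rw [p, W]
  field_simp
  ring

end Prof

namespace SK

/-- bounded continuous functions -/
def BC (f : EE n → ℝ) : Prop := Continuous f ∧ ∃ M, ∀ x, |f x| ≤ M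

theorem BC.mul (hf : BC f) (hg : BC g) : BC fun x => f x * g x :=
  let ⟨h1, M, h2⟩ := hf
  let ⟨h3, M', h4⟩ := hg
  ⟨h1.mul h3, M * M', fun x => by
    rw [abs_mul]; exact mul_le_mul (h2 x) (h4 x) (abs_nonneg _) ((abs_nonneg _).trans (h2 x))⟩

theorem BC.add (hf : BC f) (hg : BC g) : BC fun x => f x + g x :=
  let ⟨h1, M, h2⟩ := hf
  let ⟨h3, M', h4⟩ := hg
  ⟨h1.add h3, M + M', fun x => (abs_add_le _ _).trans (add_le_add (h2 x) (h4 x))⟩

theorem BC.int (hf : BC f) (hg : Integrable g) : Integrable fun x => f x * g x :=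
  let ⟨h1, _, h2⟩ := hf
  hg.bdd_mul h1.aestronglyMeasurable (.of_forall h2)

theorem bc_ord {k : ℕ} {F : Fam n} (h : Ord k F) (hv : Sol v) : BC (F v) :=
  let ⟨C, _, hC⟩ := h.bd0
  ⟨h.cont hv, C, hC v hv⟩

theorem BC.comp {φ : ℝ → ℝ} {ε : ℝ} (hf : BC f) (hε : 0 < ε) (h : ∀ x, ε ≤ f x)
    (hφ : ContinuousOn φ (Ioi 0)) : BC fun x => φ (f x) := by
  obtain ⟨h1, M, h2⟩ := hf
  obtain ⟨C, hC⟩ := (isCompact_Icc (a := ε) (b := M)).exists_bound_of_continuousOn
    (hφ.mono fun y hy => hε.trans_le hy.1)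
  exact ⟨hφ.comp_continuous h1 fun x => hε.trans_le (h x), C,
    fun x => hC _ ⟨h x, (le_abs_self _).trans (h2 x)⟩⟩

/-- bounded with bounded continuous derivatives -/
structure B1 (f : EE n → ℝ) : Prop where
  diff : Differentiable ℝ f
  bc : BC f
  d : ∀ i, BC (pdv i f)

theorem B1.mul (hf : B1 f) (hg : B1 g) : B1 fun x => f x * g x :=
  ⟨hf.diff.mul hg.diff, hf.bc.mul hg.bc, fun i => by
    rw [funext fun x => pdv_mul (hf.diff x) (hg.diff x) i]
    exact ((hf.d i).mul hg.bc).add (hf.bc.mul (hg.d i))⟩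

theorem b1_ord {k : ℕ} {F : Fam n} (h : Ord k F) (hv : Sol v) : B1 (F v) :=
  ⟨h.diff hv, bc_ord h hv, fun i => (bc_ord (h.pdv i) hv :)⟩

theorem int_pdv (hf : B1 f) (hg : ContDiff ℝ 1 g) (h1 : Integrable fun x => g x ^ 2)
    (h2 : Integrable (gsq g)) (a : Fin n) : Integrable (pdv a fun x => f x * g x ^ 2) ∧
      ∫ x, pdv a (fun x => f x * g x ^ 2) x = 0 := by
  have gd := hg.differentiable one_ne_zero
  have h3 : Integrable fun x => 2 * g x * pdv a g x := by
    refine (h1.add h2).mono' ((continuous_const.mul hg.continuous).mul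
      (contDiff_pdv (m := 0) hg (by simp) a).continuous).aestronglyMeasurable (.of_forall fun x => ?_)
    have h4 : pdv a g x ^ 2 ≤ gsq g x := Finset.single_le_sum (f := fun i => pdv i g x ^ 2)
      (fun _ _ => sq_nonneg _) (Finset.mem_univ a)
    rw [Real.norm_eq_abs, abs_le, Pi.add_apply]
    constructor <;> nlinarith [sq_nonneg (g x + pdv a g x), sq_nonneg (g x - pdv a g x)]
  have h4 : Integrable (pdv a fun x => f x * g x ^ 2) := by
    rw [funext fun x => pdv_mul (hf.diff x) ((gd x).fun_pow 2) a]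
    simp only [pdv_sq (gd _)]
    exact ((hf.d a).int h1).add (hf.bc.int h3)
  refine ⟨h4, ?_⟩
  have h5 := integral_mul_fderiv_eq_neg_fderiv_mul_of_integrable (μ := (volume : Measure (EE n)))
    (f := fun _ => (1 : ℝ)) (g := fun x => f x * g x ^ 2) (v := ev a) (by simp)
    (by simp only [one_mul]; exact h4) (by simp only [one_mul]; exact hf.bc.int h1)
    (fun _ _ => differentiableAt_const _) fun x _ => (hf.diff x).fun_mul ((gd x).fun_pow 2)
  simpa [pdv] using h5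

/-- the Simons field -/
def YY (a : Fin n) : Fam n := fun v => Hy.Y (pre (nu v)) (nu v) a

theorem o_C (a b c : Fin n) :
    Ord 1 fun v => (pre (nu v)).nab2 (Hy.A (pre (nu v)) (nu v)) a b c :=
  (Ord.usum fun e => Ord.usum fun f =>
    ((o_Pm b e).mul0 (o_Pm c f)).mul0 (o_dl (o_AA e f) a)).congr' fun v _ x => by
      simp only [Pre.nab2, Finset.sum_apply, Pi.mul_apply, P_eq]
      rfl

theorem o_YY (a : Fin n) : Ord 2 (YY a) :=
  (Ord.usum fun b => Ord.usum fun c =>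
    ((o_AA b c).mul (o_C b a c)).sub ((o_AA a c).mul (o_C b b c))).congr' fun v _ x => by
      simp only [YY, Hy.Y, Pre.sY, Finset.sum_apply, Pi.mul_apply, Pi.sub_apply]
      rfl

theorem sum_dl (h : Sol v) (hx : tt v x < 1 / 2) (f : EE n → ℝ) :
    ∑ a, dl (nu v) a f x ^ 2 = gsq f x - (iN (tt v x) * gin (dd v) f x) ^ 2 := by
  have e1 : ∑ b, nu v b x * pdv b f x = iN (tt v x) * gin (dd v) f x := by
    simp only [nu, gin, Finset.mul_sum, mul_assoc]
  have e2 : ∀ a, dl (nu v) a f x ^ 2 = pdv a f x ^ 2 -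
      2 * (iN (tt v x) * gin (dd v) f x) * (nu v a x * pdv a f x) +
      (iN (tt v x) * gin (dd v) f x) ^ 2 * (nu v a x * nu v a x) := fun a => by
    rw [dl, e1]; ring
  simp only [e2, Finset.sum_add_distrib, Finset.sum_sub_distrib, ← Finset.mul_sum, e1,
    (lev h).unit x hx, gsq]
  ring

theorem tg_dl (h : Sol v) (hx : tt v x < 1 / 2) (f : EE n → ℝ) :
    tg v f x = Nf (tt v x) ^ 2 * ∑ a, dl (nu v) a f x ^ 2 := by
  have := Nf_pos (tt v x)
  rw [sum_dl h hx, tg, ← Nf_sq hx.le, iN]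
  field_simp

theorem trP (h : Sol v) (hx : tt v x < 1 / 2) :
    ∑ a, (Hy.dat (Pi.evalRingHom _ x) (pre (nu v)) (nu v)).P a a = n - 1 := by
  simp only [Hy.dat, P_eq, Pi.evalRingHom_apply, Pm, if_true, Finset.sum_sub_distrib,
    (lev h).unit x hx, Finset.sum_const, Finset.card_univ, Fintype.card_fin, nsmul_eq_mul, mul_one]

theorem H_eq (v : EE n → ℝ) : Hy.H (pre (nu v)) (nu v) = HH v :=
  funext fun x => Finset.sum_apply x _ _

theorem nA_eq (v : EE n → ℝ) : Hy.nA (pre (nu v)) (nu v) = fun x => ∑ a, ∑ b, AA a b v x ^ 2 :=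
  funext fun x => by
    simp only [Hy.nA, Finset.sum_apply, Pi.mul_apply, sq]
    rfl

theorem yy_eq (v : EE n → ℝ) (x : EE n) :
    ∑ a, ∑ b, ((Hy.dat (Pi.evalRingHom _ x) (pre (nu v)) (nu v)).A a b - HH v x / (n - 1) *
      (Hy.dat (Pi.evalRingHom _ x) (pre (nu v)) (nu v)).P a b) ^ 2 = yy v x := by
  simp only [Hy.dat, P_eq]
  rfl

theorem dl_yy (hn : 3 ≤ n) (h : Sol v) (hx : tt v x < 1 / 2) (a : Fin n) :
    dl (nu v) a (yy v) x = dl (nu v) a (Hy.nA (pre (nu v)) (nu v)) x -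
      2 * HH v x * dl (nu v) a (Hy.H (pre (nu v)) (nu v)) x / (n - 1) := by
  have k0 : (n : ℝ) - 1 ≠ 0 := by
    have : (3 : ℝ) ≤ n := by exact_mod_cast hn
    linarith
  have h1 : yy v =ᶠ[𝓝 x] fun y => ∑ a, ∑ b, AA a b v y ^ 2 - HH v y ^ 2 / (n - 1) := by
    filter_upwards [(lev h).op.mem_nhds hx] with y hy
    exact (yy_eq v y).symm.trans (((lev h).ok hy).sq_eq (trP h hy) rfl k0)
  have h2 := o_HH.diff h x
  rw [dl_congr h1, nA_eq, H_eq, dl_sub ((Ord.usum fun a => Ord.usum fun b => (o_AA a b).sq).diff h x)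
    (by simpa only [div_eq_mul_inv] using (h2.fun_pow 2).mul_const _),
    dl_comp (φ := fun s => s ^ 2 / (n - 1)) ((hasDerivAt_pow 2 _).div_const _) h2]
  push_cast
  ring

theorem comb {N W m g Y p X τ H Γ Γ' S K t : ℝ} (N1 : N ^ 2 ≤ 1) (N2 : 1 / 2 ≤ N ^ 2) (N0 : 0 < N)
    (W0 : 0 ≤ W) (m0 : 0 ≤ m) (Y0 : 0 < Y) (X0 : 0 ≤ X) (τ0 : 0 ≤ τ) (Γ0 : 0 ≤ Γ) (hΓ : Γ ≤ Γ')
    (hH : |H| ≤ K * t)
    (h : p ^ 2 * (X / Y) * g ^ 2 ≤ 199 / 200 * S + 999 / 1000 * Y ^ 2 * g ^ 2 +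
      10 ^ 10 * (τ + H ^ 4) * g ^ 2 + 201 * Y * Γ) :
    p ^ 2 * W * (N ^ 2 * (4 * X) / (4 * Y)) * (g ^ 2 * m) ≤ 199 / 200 * (N * (W * m * S)) +
      (999 / 1000 * (W * Y ^ 2 * (g ^ 2 * m)) +
        10 ^ 10 * (2 + K ^ 4) * (W * (N ^ 2 * τ + t ^ 4) * (g ^ 2 * m)) +
        10 ^ 10 * (2 + K ^ 4) * (W * Y * (Γ' * m))) := by
  have a1 : N ≤ 1 := by nlinarith
  have a2 : N ≤ 2 * N ^ 2 := by nlinarith
  have a3 : H ^ 4 ≤ K ^ 4 * t ^ 4 := by
    rw [← mul_pow, ← (by norm_num : Even 4).pow_abs H]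
    exact pow_le_pow_left₀ (abs_nonneg _) hH 4
  have b0 : 0 ≤ X / Y := by positivity
  have b1 : N ^ 2 * (p ^ 2 * (X / Y) * g ^ 2) ≤ N * (p ^ 2 * (X / Y) * g ^ 2) :=
    mul_le_mul_of_nonneg_right (by nlinarith) (by positivity)
  have b2 := mul_le_mul_of_nonneg_left h N0.le
  have b3 : N * (Y ^ 2 * g ^ 2) ≤ Y ^ 2 * g ^ 2 := mul_le_of_le_one_left (by positivity) a1
  have b4 : N * (τ + H ^ 4) ≤ (2 + K ^ 4) * (N ^ 2 * τ + t ^ 4) := by
    have c1 := mul_le_mul_of_nonneg_right a2 τ0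
    have c2 : N * H ^ 4 ≤ H ^ 4 := mul_le_of_le_one_left (by positivity) a1
    have c3 : 0 ≤ K ^ 4 * (N ^ 2 * τ) := by positivity
    have c4 : 0 ≤ t ^ 4 := by positivity
    linarith
  have b5 := mul_le_mul_of_nonneg_right b4 (sq_nonneg g)
  have b6 : N * (Y * Γ) ≤ Y * Γ' :=
    (mul_le_of_le_one_left (by positivity) a1).trans (mul_le_mul_of_nonneg_left hΓ Y0.le)
  have b7 : 0 ≤ K ^ 4 * (Y * Γ') := by have := Γ0.trans hΓ; positivity
  have b8 : 0 ≤ Y * Γ' := by have := Γ0.trans hΓ; positivity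
  have b9 : N ^ 2 * (p ^ 2 * (X / Y) * g ^ 2) ≤ 199 / 200 * (N * S) + (999 / 1000 * (Y ^ 2 * g ^ 2) +
      10 ^ 10 * ((2 + K ^ 4) * (N ^ 2 * τ + t ^ 4) * g ^ 2) + 10 ^ 10 * (2 + K ^ 4) * (Y * Γ')) := by
    linarith
  have e : N ^ 2 * (4 * X) / (4 * Y) = N ^ 2 * (X / Y) := by field_simp
  rw [e]
  linarith [mul_le_mul_of_nonneg_left b9 (mul_nonneg W0 m0)]

/-- the pointwise inequality -/
theorem ptw (hn : 3 ≤ n) (hn' : n ≤ 8) (h : Sol v) (P : Prof) {ε K : ℝ} (hε : 0 < ε) {m : ℝ → ℝ}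
    (hm : Differentiable ℝ m) (m0 : ∀ s, 0 ≤ m s) (hg : Differentiable ℝ g)
    (hK : ∀ x, |HH v x| ≤ K * tt v x) (hx : tt v x < 1 / 2) :
    P.p (yy v x + ε) ^ 2 * P.W (yy v x + ε) * (tg v (yy v) x / (4 * (yy v x + ε))) *
        (g x ^ 2 * m (dd v x)) ≤
      199 / 200 * ∑ a, pdv a (fun y => Nf (tt v y) * (YY a v y * (P.W (yy v y + ε) * m (dd v y))) *
        g y ^ 2) x + (999 / 1000 * (P.F (yy v x + ε) * (g x ^ 2 * m (dd v x))) +
        10 ^ 10 * (2 + K ^ 4) *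
          (P.W (yy v x + ε) * (tg v (HH v) x + tt v x ^ 4) * (g x ^ 2 * m (dd v x))) +
        10 ^ 10 * (2 + K ^ 4) * (P.F (yy v x + ε) / (yy v x + ε) * (gsq g x * m (dd v x)))) := by
  have L := lev h
  have ok := fun y hy => L.ok (x := y) hy
  have Y0 : 0 < yy v x + ε := add_pos_of_nonneg_of_pos (yy_nonneg v x) hε
  have n3 : (3 : ℝ) ≤ n := by exact_mod_cast hn
  have n8 : (n : ℝ) ≤ 8 := by exact_mod_cast hn'
  have key := (ok x hx).main (trP h hx) (H := HH v x) rfl (by linarith) (by linarith) (yy_eq v x)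
    (lt_add_of_pos_right _ hε) (P.one_le_p Y0) (P.p_le Y0) (g := g x)
    (G := fun a => dl (nu v) a (yy v) x / 2) (γ := fun a => dl (nu v) a g x)
    fun a => by rw [mul_div_cancel₀ _ two_ne_zero]; exact dl_yy hn h hx a
  have t0 := h.tt_nonneg x
  have res := comb (N := Nf (tt v x)) (by rw [Nf_sq hx.le]; linarith)
    (by rw [Nf_sq hx.le]; linarith) (Nf_pos _) (P.W_pos Y0).le (m0 (dd v x)) Y0 (by positivity)
    (by positivity) (by positivity) (Γ' := gsq g x)
    (by rw [sum_dl h hx]; exact sub_le_self _ (sq_nonneg _)) (hK x) key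
  have d1 := (o_yy.diff h x).add_const ε
  have d2 := (P.hasDerivAt_W Y0).differentiableAt.fun_comp' x d1
  have d3 := (hm _).fun_comp' x (h.dd_diff x)
  have d4 := (d2.fun_mul d3).fun_mul ((hg x).fun_pow 2)
  have e1 := L.div hx (Z := fun a y => YY a v y * (P.W (yy v y + ε) * m (dd v y) * g y ^ 2))
    (fun a => ((o_YY a).diff h x).fun_mul d4) fun y hy => by
      have h1 : ∀ a, ∑ b, Pm (nu v) a b y * YY b v y = YY a v y := fun a => by
        simpa only [Hy.dat, P_eq, Pi.evalRingHom_apply, YY] using (ok y hy).PY a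
      have h2 : ∑ a, nu v a y * YY a v y = 0 := by
        have h3 : ∑ a, nu v a y * YY a v y =
            ∑ a, nu v a y * (YY a v y - nu v a y * ∑ b, nu v b y * YY b v y) :=
          Finset.sum_congr rfl fun a _ => by rw [← Pm_mul fun b => YY b v y, h1]
        rw [h3]
        simp only [mul_sub, Finset.sum_sub_distrib, ← mul_assoc, ← Finset.sum_mul, L.unit y hy,
          one_mul, sub_self]
      simp only [← mul_assoc _ (YY _ v y), ← Finset.sum_mul, h2, zero_mul]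
  have e2 : ∀ a, dl (nu v) a (fun y => YY a v y * (P.W (yy v y + ε) * m (dd v y) * g y ^ 2)) x =
      P.W (yy v x + ε) * m (dd v x) * (g x ^ 2 * dl (nu v) a (YY a v) x +
        (2 * (P.p (yy v x + ε) - 1) / (yy v x + ε) * (dl (nu v) a (yy v) x / 2) * g x ^ 2 +
          2 * g x * dl (nu v) a g x) * YY a v x) := fun a => by
    rw [dl_mul ((o_YY a).diff h x) d4, dl_mul (d2.fun_mul d3) ((hg x).fun_pow 2), dl_mul d2 d3,
      dl_comp (hm _).hasDerivAt (h.dd_diff x), L.dl_d hx,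
      dl_comp (φ := fun s => s ^ 2) (hasDerivAt_pow 2 _) (hg x), dl_comp (P.hasDerivAt_W Y0) d1,
      dl_add (o_yy.diff h x) (differentiableAt_const ε), dl_const]
    push_cast
    ring
  have e3 : (Hy.dat (Pi.evalRingHom _ x) (pre (nu v)) (nu v)).dY = ∑ a, dl (nu v) a (YY a v) x :=
    Finset.sum_apply x Finset.univ fun a => dl (nu v) a (YY a v)
  have e4 : ∑ a, dl (nu v) a (yy v) x ^ 2 = 4 * ∑ a, (dl (nu v) a (yy v) x / 2) ^ 2 := by
    rw [Finset.mul_sum]
    exact Finset.sum_congr rfl fun a _ => by ring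
  have e5 : P.F (yy v x + ε) = P.W (yy v x + ε) * (yy v x + ε) ^ 2 := by
    rw [Prof.W, div_mul_cancel₀ _ (pow_pos Y0 2).ne']
  have e6 : P.F (yy v x + ε) / (yy v x + ε) = P.W (yy v x + ε) * (yy v x + ε) := by
    rw [e5, sq, ← mul_assoc, mul_div_cancel_right₀ _ Y0.ne']
  simp only [e2, ← Finset.mul_sum, Finset.sum_add_distrib] at e1
  simp only [mul_assoc (Nf _), mul_assoc (YY _ v _)]
  rw [e1, tg_dl h hx, tg_dl h hx, e4, e6, e5, ← e3, ← H_eq]
  exact res

end SK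

open SK in
/-- **SK** -/
theorem sk (n : ℕ) : SKStmt n := by
  intro hn hn'
  obtain ⟨K1, p1, h1⟩ := (o_cmp (n := n)).bd4
  obtain ⟨K2, p2, h2⟩ := cmp' (n := n)
  obtain ⟨K3, p3, h3⟩ := nor (n := n)
  obtain ⟨K4, p4, h4⟩ := dH (n := n)
  obtain ⟨K, -, hK⟩ := (o_HH (n := n)).bd2
  have m : ∀ {a b c : ℝ}, 0 ≤ c → a ≤ b → a * c ≤ b * c := fun hc h =>
    mul_le_mul_of_nonneg_right h hc
  refine ⟨yy, HH, K1 + K2 + K3 + K4, 999 / 1000, 1 / 4, 10 ^ 10 * (2 + K ^ 4), by positivity,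
    by norm_num, by norm_num, by norm_num, by positivity, o_yy, o_HH, fun v _ => yy_nonneg v,
    fun v h x _ => (h1 v h x).trans (m (sq_nonneg _) (by linarith)),
    fun v h x _ => (h2 v h x).trans (add_le_add le_rfl (m (by positivity) (by linarith))),
    fun v h x _ => (h3 v h x).trans
      (m (mul_nonneg (Real.sqrt_nonneg _) (h.tt_nonneg x)) (by linarith)),
    fun v h x _ => (h4 v h x).trans (m (Finset.sum_nonneg fun i _ => Finset.sum_nonneg fun j _ =>
      add_nonneg (sq_nonneg _) (gsq_nonneg _ _)) (by linarith)), ?_⟩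
  intro v P ε M m g h hε _ hm hM hg hg0 i1 i2
  have Y0 : ∀ x, 0 < yy v x + ε := fun x => add_pos_of_nonneg_of_pos (yy_nonneg v x) hε
  have bY : B1 fun x => yy v x + ε := b1_ord ((o_yy.mono (by norm_num)).add (Ord.const ε)) h
  have c : ∀ {φ : ℝ → ℝ}, ContinuousOn φ (Ioi 0) → BC fun x => φ (yy v x + ε) := fun hφ =>
    bY.bc.comp hε (fun x => le_add_of_nonneg_left (yy_nonneg v x)) hφ
  have bW : B1 fun x => P.W (yy v x + ε) :=
    ⟨fun x => (P.hasDerivAt_W (Y0 x)).differentiableAt.fun_comp' x (bY.diff x),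
      c P.sm_W.continuousOn, fun i => by
        rw [show pdv i _ = _ from funext fun x =>
          pdv_comp (P.hasDerivAt_W (Y0 x)).differentiableAt.hasDerivAt (bY.diff x) i]
        exact (c (P.sm_W.continuousOn_deriv_of_isOpen isOpen_Ioi (by simp))).mul (bY.d i)⟩
  have md := hm.differentiable one_ne_zero
  have bm : B1 fun x => m (dd v x) :=
    ⟨fun x => (md _).fun_comp' x (h.dd_diff x), ⟨hm.continuous.comp h.dd_sm.continuous, M,
      fun x => by rw [abs_of_nonneg (hM _).1]; exact (hM _).2.1⟩, fun i => by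
        rw [funext fun x => pdv_comp (md _).hasDerivAt (h.dd_diff x) i]
        exact BC.mul ⟨(hm.continuous_deriv le_rfl).comp h.dd_sm.continuous, M,
          fun x => (hM _).2.2⟩ (bc_ord ((hkS n).n0 i) h :)⟩
  have hV := fun a => int_pdv ((b1_ord (oc sm_Nf) h).mul ((b1_ord (o_YY a) h).mul (bW.mul bm))) hg
    i1 i2 a
  have bt : BC fun x => tg v (HH v) x + tt v x ^ 4 :=
    bc_ord (k := 0) ((((((Ord.const 1).sub ((hkS n).t2.mono (by norm_num))).mul0 o_HH.gsq).sub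
      (o_n o_HH).sq).mono (by norm_num)).add (oc (contDiff_id.pow 4))) h
  have j0 := (integrable_finsetSum Finset.univ fun a _ => (hV a).1).const_mul (199 / 200)
  have j1 : Integrable fun x => P.F (yy v x + ε) * (g x ^ 2 * m (dd v x)) :=
    (c P.sm.continuousOn).int (by simpa only [mul_comm] using bm.bc.int i1)
  have j2 : Integrable fun x =>
      P.W (yy v x + ε) * (tg v (HH v) x + tt v x ^ 4) * (g x ^ 2 * m (dd v x)) :=
    (bW.bc.mul bt).int (by simpa only [mul_comm] using bm.bc.int i1)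
  have j3 : Integrable fun x => P.F (yy v x + ε) / (yy v x + ε) * (gsq g x * m (dd v x)) :=
    (c (φ := fun y => P.F y / y) (P.sm.continuousOn.div continuousOn_id fun _ hy => ne_of_gt hy)).int
      (by simpa only [mul_comm] using bm.bc.int i2)
  have j4 := (j1.const_mul (999 / 1000)).add (j2.const_mul (10 ^ 10 * (2 + K ^ 4)))
  have j5 := j4.add (j3.const_mul (10 ^ 10 * (2 + K ^ 4)))
  refine (integral_mono_of_nonneg (.of_forall fun x => ?_) (j0.add j5)
    (.of_forall fun x => ?_)).trans_eq ?_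
  · have := P.W_pos (Y0 x)
    have := tg_nonneg v (yy v) x
    have := Y0 x
    have := (hM (dd v x)).1
    positivity
  · rcases lt_or_ge (tt v x) (1 / 2) with hx | hx
    · exact ptw hn hn' h P hε md (fun s => (hM s).1) (hg.differentiable one_ne_zero) (hK v h) hx
    have e0 : ∀ᶠ y in 𝓝 x, g y = 0 :=
      (h.tt_sm.continuous.continuousAt.eventually (lt_mem_nhds (show 1 / 4 < tt v x by linarith))).mono
        fun y hy => hg0 y hy.le
    have e1 : ∀ (u : EE n → ℝ) a, pdv a (fun y => u y * g y ^ 2) x = 0 := fun u a =>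
      (pdv_congr (e0.mono fun y hy => by simp only [hy]; ring) a).trans (pdv_const 0 a x)
    have := P.pos _ (Y0 x)
    have := gsq_nonneg g x
    have := Y0 x
    have := (hM (dd v x)).1
    simp only [Pi.add_apply, e1, e0.self_of_nhds, Finset.sum_const_zero, mul_zero, zero_pow two_ne_zero,
      zero_mul, zero_add]
    positivity
  · rw [integral_add' j0 j5, integral_add' j4 (j3.const_mul _), integral_add' (j1.const_mul _) (j2.const_mul _)]
    simp only [integral_const_mul, integral_finsetSum _ fun a _ => (hV a).1, fun a => (hV a).2,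
      Finset.sum_const_zero, mul_zero, zero_add]

end

end Crest.Agent.N067.Y
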