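import Crest.Agent.N067.Y.St0

/-!
# Row 67, block X5, St1 (helper40): stability with `|B|²` in place of `q`
-/

set_option autoImplicit false

open MeasureTheory Laplacian InnerProductSpace Topology Filter Set
open scoped RealInnerProductSpace Gradient ContDiff

namespace Crest.Agent.N067.Y.St

open Crest.Agent.R077

namespace S1

variable {n : ℕ} {v w : EE n → ℝ}

theorem ident (h : Sol v) (hw : ContDiff ℝ 1 w) (x : EE n) :
    (Δ (tt v)) x * (psi v x ^ 2 * w x ^ 2) +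
      ∑ i, pdv i (tt v) x * pdv i (fun y => psi v y ^ 2 * w y ^ 2) x =
    (Lm v (tt v) x * w x ^ 2 + 2 * w x * gin (tt v) w x) * psi v x ^ 2 := by
  have hp : DifferentiableAt ℝ (psi v) x := h.psi_sm.differentiable (by simp) x
  have hw1 : DifferentiableAt ℝ w x := hw.differentiable (by norm_num) x
  have e : ∀ i, pdv i (tt v) x * pdv i (fun y => psi v y ^ 2 * w y ^ 2) x =
      -(2 * Real.sqrt 2 * v x * psi v x ^ 2 * w x ^ 2) * (pdv i (dd v) x * pdv i (tt v) x) +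
        2 * w x * psi v x ^ 2 * (pdv i (tt v) x * pdv i w x) := fun i => by
    rw [pdv_mul (hp.fun_pow 2) (hw1.fun_pow 2), pdv_sq hp, pdv_sq hw1, h.pdv_psi]
    ring
  simp only [e, Finset.sum_add_distrib, ← Finset.mul_sum]
  rw [Lm_eq, gin, gin]
  ring

theorem pt {ε C0 : ℝ} (hε : 0 < ε) (x : EE n)
    (hC : ‖∇ (tt v) x‖ ≤ C0 * tt v x) :
    w x * gin (tt v) w x ≤ ε * gsq w x + C0 ^ 2 / (4 * ε) * tt v x ^ 2 * w x ^ 2 := by
  have h1 := abs_gin_le (tt v) w x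
  have h2 : |gin (tt v) w x| ≤ C0 * tt v x * ‖∇ w x‖ :=
    h1.trans (mul_le_mul_of_nonneg_right hC (norm_nonneg _))
  have h3 : w x * gin (tt v) w x ≤ |w x| * (C0 * tt v x * ‖∇ w x‖) :=
    (le_abs_self _).trans (by rw [abs_mul]; exact mul_le_mul_of_nonneg_left h2 (abs_nonneg _))
  refine h3.trans ?_
  rw [gsq_eq, ← sq_abs (w x)]
  have e : ε * ‖∇ w x‖ ^ 2 + C0 ^ 2 / (4 * ε) * tt v x ^ 2 * |w x| ^ 2 -
      |w x| * (C0 * tt v x * ‖∇ w x‖) =
      (2 * ε * ‖∇ w x‖ - C0 * tt v x * |w x|) ^ 2 / (4 * ε) := by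
    field_simp
    ring
  have : 0 ≤ (2 * ε * ‖∇ w x‖ - C0 * tt v x * |w x|) ^ 2 / (4 * ε) := by positivity
  linarith

theorem cpt {ε C0 : ℝ} (hε : 0 < ε) (h : Sol v) (hs : Stable v)
    (hC : ∀ x, ‖∇ (tt v) x‖ ≤ C0 * tt v x) (hw : ContDiff ℝ 1 w) (hc : HasCompactSupport w) :
    0 ≤ ∫ x, ((1 + ε) * psi v x ^ 2 * ‖∇ w x‖ ^ 2 +
      (C0 ^ 2 / (4 * ε) * tt v x ^ 2 - hsq (dd v) x) * psi v x ^ 2 * w x ^ 2) := by
  have cp := h.psi_sm.continuous
  have ct := h.tt_sm.continuous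
  have cq := h.qq_sm.continuous
  have ch := h.hsq_sm.continuous
  have cw := hw.continuous
  have cg := St.continuous_grad hw
  have hg : ContDiff ℝ 1 fun y => psi v y ^ 2 * w y ^ 2 :=
    ((contDiff_infty.1 h.psi_sm 1).pow 2).mul (hw.pow 2)
  have hgc : HasCompactSupport fun y => psi v y ^ 2 * w y ^ 2 := (St.cs_sq hc).mul_left
  have cL : Continuous (Δ (tt v)) := continuous_iff_continuousAt.2 fun x =>
    (contDiffAt_lap (m := 0) (h.tt_cd 2).contDiffAt (by norm_num)).continuousAt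
  have h1 := St.weak_lap (h.tt_cd 2) hg hgc
  have h2 := dstab n v h hs w hw hc
  have i1 : Integrable fun x => (Δ (tt v)) x * (psi v x ^ 2 * w x ^ 2) :=
    St.int_cs cL hg.continuous hgc
  have i2 : Integrable fun x =>
      ∑ i, pdv i (tt v) x * pdv i (fun y => psi v y ^ 2 * w y ^ 2) x :=
    integrable_finsetSum _ fun i _ => St.int_cs (St.continuous_pdv (h.tt_cd 1) i)
      (St.continuous_pdv hg i) (hasCompactSupport_pdv hgc i)
  have i3 : Integrable fun x => qq v x * w x ^ 2 * psi v x ^ 2 :=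
    (St.int_cs (f := fun x => qq v x * psi v x ^ 2) (by fun_prop) (cw.fun_pow 2)
      (St.cs_sq hc)).congr (Eventually.of_forall fun x => by ring)
  have i4 : Integrable fun x => ‖∇ w x‖ ^ 2 * psi v x ^ 2 :=
    (St.int_cs (f := fun x => psi v x ^ 2) (by fun_prop) (cg.norm.fun_pow 2)
      (St.cs_grad_sq hc)).congr (Eventually.of_forall fun x => by ring)
  have i5 : Integrable fun x => (1 + ε) * psi v x ^ 2 * ‖∇ w x‖ ^ 2 +
      (C0 ^ 2 / (4 * ε) * tt v x ^ 2 - hsq (dd v) x) * psi v x ^ 2 * w x ^ 2 :=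
    (St.int_cs (by fun_prop) (cg.norm.fun_pow 2) (St.cs_grad_sq hc)).add
      (St.int_cs (by fun_prop) (cw.fun_pow 2) (St.cs_sq hc))
  have h3 := integral_mono (f := fun x => (‖∇ w x‖ ^ 2 * psi v x ^ 2 -
      qq v x * w x ^ 2 * psi v x ^ 2) + 1 / 2 * ((Δ (tt v)) x * (psi v x ^ 2 * w x ^ 2) +
      ∑ i, pdv i (tt v) x * pdv i (fun y => psi v y ^ 2 * w y ^ 2) x))
    ((i4.sub i3).add ((i1.add i2).const_mul _)) i5 fun x => by
      have a1 := pt hε x (hC x) (w := w)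
      have a2 := h.Lm_tt x
      have a3 := mul_nonneg (mul_nonneg (h.qq_nonneg x) (h.tt_nonneg x)) (sq_nonneg (w x))
      have a4 : Lm v (tt v) x = 2 * (qq v x * (1 - tt v x) - hsq (dd v) x) := by linarith
      rw [gsq_eq] at a1
      simp only
      rw [ident h hw, a4]
      have a5 := mul_nonneg (sub_nonneg.2 a1) (sq_nonneg (psi v x))
      have a6 := mul_nonneg a3 (sq_nonneg (psi v x))
      linarith
  have i6 : Integrable fun x => ‖∇ w x‖ ^ 2 * psi v x ^ 2 - qq v x * w x ^ 2 * psi v x ^ 2 :=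
    i4.sub i3
  have i7 : Integrable fun x => 1 / 2 * ((Δ (tt v)) x * (psi v x ^ 2 * w x ^ 2) +
      ∑ i, pdv i (tt v) x * pdv i (fun y => psi v y ^ 2 * w y ^ 2) x) := (i1.add i2).const_mul _
  rw [integral_add i6 i7, integral_sub i4 i3, integral_const_mul, integral_add i1 i2] at h3
  linarith

end S1

theorem st1 (n : ℕ) : St1Stmt n := by
  intro ε hε
  obtain ⟨C0, -, hC⟩ := hk_grad_t n
  obtain ⟨K, hK, hH⟩ := hk_hsq n
  have hC0 : 0 ≤ C0 ^ 2 / (4 * ε) := by positivity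
  refine ⟨C0 ^ 2 / (4 * ε), hC0, fun v w h hs hw h0 h1 => ?_⟩
  have cp := h.psi_sm.continuous
  have ct := h.tt_sm.continuous
  have ch := h.hsq_sm.continuous
  have hp : ∀ x, psi v x ^ 2 ≤ 1 := fun x => pow_le_one₀ (h.psi_pos x).le (psi_le_one v x)
  have e : Qf ε (C0 ^ 2 / (4 * ε)) v w = fun x => (1 + ε) * psi v x ^ 2 * ‖∇ w x‖ ^ 2 +
      (C0 ^ 2 / (4 * ε) * tt v x ^ 2 - hsq (dd v) x) * psi v x ^ 2 * w x ^ 2 := by
    funext x
    rw [Qf, gsq_eq]
    ring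
  have b1 : ∀ x, |(1 + ε) * psi v x ^ 2| ≤ 1 + ε + C0 ^ 2 / (4 * ε) + K := fun x => by
    rw [abs_of_nonneg (by positivity)]
    nlinarith [hp x]
  have b2 : ∀ x, |(C0 ^ 2 / (4 * ε) * tt v x ^ 2 - hsq (dd v) x) * psi v x ^ 2| ≤
      1 + ε + C0 ^ 2 / (4 * ε) + K := fun x => by
    have a1 : tt v x ^ 2 ≤ 1 := pow_le_one₀ (h.tt_nonneg x) (tt_le_one v x)
    have a2 := mul_le_mul_of_nonneg_left a1 hC0
    have a3 := mul_nonneg hC0 (sq_nonneg (tt v x))
    have a4 := (hH v h x).trans (mul_le_of_le_one_right hK (tt_le_one v x))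
    have a5 := hsq_nonneg (dd v) x
    rw [abs_mul, abs_of_nonneg (sq_nonneg (psi v x))]
    refine (mul_le_of_le_one_right (abs_nonneg _) (hp x)).trans ?_
    rw [abs_le]
    constructor <;> linarith
  have h1' : Integrable fun x => ‖∇ w x‖ ^ 2 :=
    h1.congr (Eventually.of_forall fun x => gsq_eq w x)
  rw [e]
  refine ⟨(h1'.bdd_mul (Continuous.aestronglyMeasurable (by fun_prop))
    (Eventually.of_forall b1)).add (h0.bdd_mul (Continuous.aestronglyMeasurable (by fun_prop))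
    (Eventually.of_forall b2)), ?_⟩
  refine Ker.form_ext (ρ := fun x => (1 + ε) * psi v x ^ 2)
    (c := fun x => (C0 ^ 2 / (4 * ε) * tt v x ^ 2 - hsq (dd v) x) * psi v x ^ 2)
    (by fun_prop) (by fun_prop) b2 b1 (fun φ a b => S1.cpt hε h hs (hC v h) a b) hw h0 fun i => ?_
  refine h1.mono' ((St.continuous_pdv hw i).fun_pow 2).aestronglyMeasurable
    (Eventually.of_forall fun x => ?_)
  rw [Real.norm_of_nonneg (sq_nonneg _)]
  exact Finset.single_le_sum (f := fun i => pdv i w x ^ 2) (fun j _ => sq_nonneg _)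
    (Finset.mem_univ i)

end Crest.Agent.N067.Y.St
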