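import Crest.Agent.N067.Y.St0

/-!
# Row 67, block X5, StA (helper40): the change of variables, abstract form
-/

set_option autoImplicit false

open MeasureTheory Laplacian InnerProductSpace Topology Filter Set
open scoped RealInnerProductSpace Gradient ContDiff

namespace Crest.Agent.N067.Y.St

open Crest.Agent.R077

theorem stA (n : ℕ) : StAStmt n := by
  intro p p' S S' hS hS' hsub hp hinj
  have hd : ∀ (A : Set (EE n)), ∀ x ∈ A, HasFDerivWithinAt p (p' x) A x :=
    fun A x _ => (hp x).hasFDerivWithinAt
  have hI : ∀ {A : Set (EE n)} {f : EE n → ℝ}, MeasurableSet A → A ⊆ S → Integrable f →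
      IntegrableOn (fun x => |(p' x).det| * f (p x)) A := fun {A f} hA hAS hf =>
    (integrableOn_image_iff_integrableOn_abs_det_fderiv_smul volume hA (hd A) (hinj.mono hAS)
      f).1 hf.integrableOn
  have hE : ∀ {A : Set (EE n)} (f : EE n → ℝ), MeasurableSet A → A ⊆ S →
      ∫ x in p '' A, f x = ∫ x in A, |(p' x).det| * f (p x) := fun {A} f hA hAS =>
    integral_image_eq_integral_abs_det_fderiv_smul volume hA (hd A) (hinj.mono hAS) f
  refine ⟨fun f w hf hw h0 hb => ?_, fun f G Φ T R hf hG hΦ hT hR G0 T0 R0 hΦ0 hΦi hfR h1 h2 => ?_⟩
  · refine ((integrable_indicator_iff hS).2 (hI hS subset_rfl hf)).mono' hw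
      (Eventually.of_forall fun x => ?_)
    by_cases hx : x ∈ S
    · rw [indicator_of_mem hx]
      exact hb x hx
    · rw [indicator_of_notMem hx, h0 x hx, norm_zero]
  · have hm : MeasurableSet (p '' S') := measurable_image_of_fderivWithin hS' (hd S') (hinj.mono hsub)
    have a1 : ∫ x, f x ≤ (∫ x in p '' S', f x) + ∫ x, R x := by
      rw [← integral_add_compl hm hf]
      refine add_le_add le_rfl ((setIntegral_mono_on hf.integrableOn hR.integrableOn hm.compl
        fun y hy => hfR y hy).trans ?_)
      exact setIntegral_le_integral hR (Eventually.of_forall R0)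
    have i1 : Integrable (S'.indicator fun x => |(p' x).det| * f (p x)) :=
      (integrable_indicator_iff hS').2 (hI hS' hsub hf)
    have i2 : Integrable (S.indicator fun x => |(p' x).det| * G (p x)) :=
      (integrable_indicator_iff hS).2 (hI hS subset_rfl hG)
    have a2 := integral_mono
      (f := fun x => S'.indicator (fun x => |(p' x).det| * f (p x)) x + Φ x)
      (g := fun x => S.indicator (fun x => |(p' x).det| * G (p x)) x + T x)
      (i1.add hΦ) (i2.add hT) fun x => by
        simp only
        by_cases hx' : x ∈ S'
        · rw [indicator_of_mem hx', indicator_of_mem (hsub hx')]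
          exact h1 x hx'
        · rw [indicator_of_notMem hx', zero_add]
          by_cases hx : x ∈ S
          · rw [indicator_of_mem hx]
            exact h2 x hx hx'
          · rw [indicator_of_notMem hx, hΦ0 x hx, zero_add]
            exact T0 x
    rw [integral_add i1 hΦ, integral_add i2 hT, integral_indicator hS', integral_indicator hS,
      ← hE f hS' hsub, ← hE G hS subset_rfl] at a2
    have a3 : ∫ x in p '' S, G x ≤ ∫ x, G x :=
      setIntegral_le_integral hG (Eventually.of_forall G0)
    linarith

end Crest.Agent.N067.Y.St
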