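import Crest.Agent.N067.Y.St0
import Crest.Agent.N067.A.Aac

/-!
# Row 67, block X5, StC (helper40): the gradient of the cut
-/

set_option autoImplicit false

open MeasureTheory Laplacian InnerProductSpace Topology Filter Set
open scoped RealInnerProductSpace Gradient ContDiff

namespace Crest.Agent.N067.Y.St

open Crest.Agent.R077

namespace SC

variable {n : ℕ} {v : EE n → ℝ}

theorem uu_eq (e g : ℝ) (h : Sol v) : uu e g v = fun x => e * (tt v x * psi v x ^ (-g)) := by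
  funext x
  rw [uu, Real.rpow_neg (h.psi_pos x).le, div_eq_mul_inv, mul_assoc]

theorem cd_pow (a : ℝ) (h : Sol v) : ContDiff ℝ 1 fun x => psi v x ^ a :=
  (contDiff_infty.1 h.psi_sm 1).rpow_const_of_ne fun x => (h.psi_pos x).ne'

theorem cd_uu (e g : ℝ) (h : Sol v) : ContDiff ℝ 1 (uu e g v) := by
  rw [uu_eq e g h]
  exact contDiff_const.mul ((h.tt_cd 1).mul (cd_pow _ h))

theorem pdv_uu (e g : ℝ) (h : Sol v) (i : Fin n) (x : EE n) : pdv i (uu e g v) x =
    e * psi v x ^ (-g) * (pdv i (tt v) x + g * Real.sqrt 2 * v x * tt v x * pdv i (dd v) x) := by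
  have hp : DifferentiableAt ℝ (psi v) x := h.psi_sm.differentiable (by simp) x
  have hq : DifferentiableAt ℝ (fun x => psi v x ^ (-g)) x :=
    (cd_pow _ h).differentiable (by norm_num) x
  have h0 := h.psi_pos x
  rw [uu_eq e g h, pdv_const_mul ((h.tt_diff x).fun_mul hq), pdv_mul (h.tt_diff x) hq,
    pdv_comp (φ := fun s => s ^ (-g)) (Real.hasDerivAt_rpow_const (Or.inl h0.ne')) hp, h.pdv_psi,
    Real.rpow_sub_one h0.ne']
  field_simp

theorem gsq_uu {e g C0 : ℝ} (hg : 0 ≤ g) (hg1 : g ≤ 1) (h : Sol v) (x : EE n)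
    (hC : ‖∇ (tt v) x‖ ≤ C0 * tt v x) :
    gsq (uu e g v) x ≤ (2 * C0 ^ 2 + 4) * uu e g v x ^ 2 := by
  set B := g * Real.sqrt 2 * v x * tt v x with hB
  have h1 : gsq (uu e g v) x ≤
      (e * psi v x ^ (-g)) ^ 2 * (2 * gsq (tt v) x + 2 * B ^ 2 * gsq (dd v) x) := by
    simp only [gsq, pdv_uu e g h, Finset.mul_sum, ← Finset.sum_add_distrib, mul_pow _ _ 2, ← hB]
    refine Finset.sum_le_sum fun i _ => mul_le_mul_of_nonneg_left ?_ (by positivity)
    nlinarith [sq_nonneg (pdv i (tt v) x - B * pdv i (dd v) x)]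
  have h2 : gsq (tt v) x ≤ C0 ^ 2 * tt v x ^ 2 := by
    rw [gsq_eq, ← mul_pow]
    exact pow_le_pow_left₀ (norm_nonneg _) hC 2
  have h3 : B ^ 2 ≤ 2 * tt v x ^ 2 := by
    have a1 : g ^ 2 ≤ 1 := pow_le_one₀ hg hg1
    have a2 : v x ^ 2 ≤ 1 := (sq_le_one_iff_abs_le_one _).2 (h.lt x).le
    have a3 : g ^ 2 * v x ^ 2 ≤ 1 := mul_le_one₀ a1 (sq_nonneg _) a2
    rw [hB, mul_pow, mul_pow, mul_pow, sqrt2_sq]
    nlinarith [mul_le_mul_of_nonneg_right a3 (sq_nonneg (tt v x))]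
  have h4 : B ^ 2 * gsq (dd v) x ≤ 2 * tt v x ^ 2 :=
    (mul_le_of_le_one_right (sq_nonneg _) (h.gsq_dd_le x)).trans h3
  refine h1.trans ?_
  rw [uu_eq e g h]
  calc _ ≤ (e * psi v x ^ (-g)) ^ 2 * ((2 * C0 ^ 2 + 4) * tt v x ^ 2) :=
        mul_le_mul_of_nonneg_left (by linarith) (sq_nonneg _)
    _ = _ := by ring

end SC

theorem stC (n : ℕ) : StCStmt n := by
  obtain ⟨C0, -, hC⟩ := hk_grad_t n
  obtain ⟨M, hM, hD⟩ := Aac.exists_deriv_bound
  refine ⟨2 * M ^ 2 * (2 * C0 ^ 2 + 4), by positivity, fun e g v he hg hg1 h => ?_⟩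
  have hu := SC.cd_uu e g h
  refine ⟨hu.continuous, (Real.smoothTransition.contDiff (n := 1)).comp (contDiff_const.sub hu),
    fun x => ?_⟩
  have hd : DifferentiableAt ℝ (fun y => 2 - uu e g v y) x :=
    (hu.differentiable (by norm_num) x).const_sub 2
  have h0 : 0 ≤ uu e g v x :=
    div_nonneg (mul_nonneg he.le (h.tt_nonneg x)) (Real.rpow_nonneg (h.psi_pos x).le _)
  have e1 : gsq (eta e g v) x =
      deriv Real.smoothTransition (2 - uu e g v x) ^ 2 * gsq (uu e g v) x := by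
    have := gsq_comp (φ := Real.smoothTransition) (f := fun y => 2 - uu e g v y) (x := x)
      ((Real.smoothTransition.contDiff (n := 1)).differentiable (by norm_num) _).hasDerivAt hd
    refine this.trans ?_
    simp only [gsq, pdv_const_sub, neg_sq]
  rw [e1]
  by_cases hx : uu e g v x ≤ 2
  · have a1 : deriv Real.smoothTransition (2 - uu e g v x) ^ 2 ≤ M ^ 2 := by
      rw [← sq_abs]
      exact pow_le_pow_left₀ (abs_nonneg _) (hD _).1 2
    have a2 := SC.gsq_uu (e := e) hg hg1 h x (hC v h x)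
    have a3 : uu e g v x ^ 2 ≤ 2 * uu e g v x := by nlinarith
    calc _ ≤ M ^ 2 * ((2 * C0 ^ 2 + 4) * (2 * uu e g v x)) :=
          mul_le_mul a1 (a2.trans (mul_le_mul_of_nonneg_left a3 (by positivity)))
            (gsq_nonneg _ _) (sq_nonneg _)
      _ = _ := by ring
  · rw [(hD _).2 (Or.inl (by linarith))]
    have : 0 ≤ 2 * M ^ 2 * (2 * C0 ^ 2 + 4) * uu e g v x := by positivity
    simpa using this

end Crest.Agent.N067.Y.St
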