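import Crest.Agent.N067.Y.StP
import Crest.Agent.N067.Y.St1
import Crest.Agent.N067.Y.StA
import Crest.Agent.N067.Y.StC

/-!
# Row 67, block X5, ST (helper16): stability on the level sets near `d = 0`
-/

set_option autoImplicit false

open MeasureTheory Laplacian InnerProductSpace Topology Filter Set Metric
open scoped RealInnerProductSpace Gradient ContDiff

namespace Crest.Agent.N067.Y

open Crest.Agent.R077

noncomputable section

variable {n : ℕ}

namespace St

theorem int_dom {f g : EE n → ℝ} (hg : Integrable g) (hf : Continuous f) (M : ℝ)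
    (h0 : ∀ x, 0 ≤ f x) (h : ∀ x, f x ≤ M * g x) : Integrable f :=
  (hg.const_mul M).mono' hf.aestronglyMeasurable
    (ae_of_all _ fun x => by rw [Real.norm_of_nonneg (h0 x)]; exact h x)

theorem cont_gsq {f : EE n → ℝ} (hf : ContDiff ℝ 1 f) : Continuous (gsq f) :=
  continuous_iff_continuousAt.2 fun _ =>
    (contDiffAt_gsq (m := 0) hf.contDiffAt (by simp)).continuousAt

theorem cont_gin {f g : EE n → ℝ} (hf : ContDiff ℝ 1 f) (hg : ContDiff ℝ 1 g) :
    Continuous (gin f g) := continuous_iff_continuousAt.2 fun _ =>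
  (contDiffAt_gin (m := 0) hf.contDiffAt hg.contDiffAt (by simp)).continuousAt

theorem nor_sq_le {v : EE n → ℝ} (hv : Sol v) (z : EE n → ℝ) (x : EE n) :
    gin (dd v) z x ^ 2 ≤ gsq z x :=
  (gin_sq_le _ _ _).trans (mul_le_of_le_one_left (gsq_nonneg _ _) (hv.gsq_dd_le x))

theorem pb_mul {v : EE n → ℝ} (hv : Sol v) (β : ℝ) (x : EE n) :
    pb β v x * psi v x ^ ((1 - β) / 2) * psi v x ^ ((1 - β) / 2) = psi v x ^ 2 := by
  rw [pb, ← Real.rpow_add (hv.psi_pos x), ← Real.rpow_add (hv.psi_pos x), ← Real.rpow_two]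
  congr 1; ring

end St

open St

set_option maxHeartbeats 1000000 in
/-- **ST** -/
theorem stS (n : ℕ) : STStmt n := by
  intro β η δ hβ0 hβ hη hδ
  obtain ⟨g, hgd⟩ : ∃ g, g = (1 - β) / 2 := ⟨_, rfl⟩
  have hg : 0 < g := by rw [hgd]; linarith
  have hg2 : g ≤ 1 / 2 := by rw [hgd]; linarith
  have hg1 : g ≤ 1 := by linarith
  obtain ⟨ε, ⟨hη', hε1⟩, hε⟩ := (((ev_small (f := fun ε => (1 + ε) ^ 6) (ρ := 1 + η) (by fun_prop)
    (by simpa using hη)).and (ev_small (f := fun ε => ε) (by fun_prop) one_pos)).and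
    self_mem_nhdsWithin).exists
  replace hε : 0 < ε := hε
  obtain ⟨h, h0, h1, h2⟩ : ∃ h : ℝ, 0 < h ∧ h ≤ g / 8 ∧ 1024 * h ≤ δ :=
    ⟨min (g / 8) (δ / 1024), by positivity, min_le_left _ _,
      by linarith [min_le_right (g / 8) (δ / 1024)]⟩
  have h3 : h ≤ 1 := by linarith
  obtain ⟨C, hC0, hC⟩ := st1 n ε hε
  obtain ⟨C', hC0', hC'⟩ := stC n
  obtain ⟨K, hK0, hK⟩ := hk_hsq n
  obtain ⟨θ, θ0, θ1, θ2⟩ : ∃ θ : ℝ, 0 < θ ∧ θ * (8 * Real.exp 12 / h) ≤ δ / 2 ∧ θ ≤ δ / 8 := by
    refine ⟨min (δ / 2 * h / (8 * Real.exp 12)) (δ / 8), by positivity, ?_, min_le_right _ _⟩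
    rw [← mul_div_assoc, div_le_iff₀ h0, ← le_div_iff₀ (by positivity)]
    exact min_le_left _ _
  obtain ⟨e, he1, he⟩ := ((ev_small (f := fun e => 8 * (1 + ε⁻¹) * C' * e + (4 * C + 2) * e)
    (by fun_prop) (by simpa using θ0)).and self_mem_nhdsWithin).exists
  replace he : 0 < e := he
  obtain ⟨κ, ⟨k1, k2⟩, hκ⟩ := (((pt n hg hg1 h0 h1 hε hε1.le he).and (inj n hg h0 h3)).and
    self_mem_nhdsWithin).exists
  replace hκ : 0 < κ := hκ
  obtain ⟨T, hT0, hT⟩ := mh_tail h0 (by linarith) (σ := δ / 2 / (K + 1)) (by positivity)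
  obtain ⟨e1, ⟨⟨k3, k4⟩, k5⟩, he1'⟩ := ((((small n hg hg1 he hκ).and
    (surj n hg.le h0 h3 he.le hT0)).and (ev_small (f := fun e1 => e1) (by fun_prop) hκ)).and
    self_mem_nhdsWithin).exists
  refine ⟨h, e1, g, h0, by linarith, he1', hg,
    fun v P om z A M hp hst hw hz hz0 iz ig hA hAb hzA => ?_⟩
  have hv := hp.toSol
  obtain ⟨cu, cη, gη⟩ := hC' e g v he hg.le hg1 hv
  have cP := Pi_cd hv h
  have ct := hv.continuous_tt
  have cψ := hv.psi_sm.continuous
  have cd := hv.dd_diff.continuous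
  have ψ0 := hv.psi_pos
  have zd : Differentiable ℝ z := hz.differentiable (by simp)
  set S := {x | uu e g v x ≤ 2 ∧ tt v (Pi h v x) ≤ e1} with hS
  set S' := {x | uu e g v x ≤ 1 ∧ tt v (Pi h v x) ≤ e1} with hS'
  have mS : ∀ c : ℝ, MeasurableSet {x | uu e g v x ≤ c ∧ tt v (Pi h v x) ≤ e1} := fun c =>
    ((isClosed_le cu continuous_const).inter
      (isClosed_le (ct.comp cP.continuous) continuous_const)).measurableSet
  have sub : S' ⊆ S := fun x hx => ⟨hx.1.trans one_le_two, hx.2⟩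
  have gd : ∀ x ∈ S, Gd g κ v x := fun x hx =>
    k3 v hv x _ (norm_sub_Pi hv h0.le h3 x) hx.1 hx.2
  have pS : ∀ x ∈ S, Pt g h ε e v x := fun x hx => k1 v hv x (gd x hx) (hx.2.trans k5.le)
  obtain ⟨hI, hA2⟩ := stA n (Pi h v) (Pd h v) S S' (mS 2) (mS 1) sub (hasFDerivAt_Pi hv h)
    ((k2 v hv).mono gd)
  set w : EE n → ℝ := fun x => z (Pi h v x) * eta e g v x with hwd
  have cw : ContDiff ℝ 1 w := (hz.comp cP).mul cη
  have η1 : ∀ x, eta e g v x ^ 2 ≤ 1 := fun x =>
    pow_le_one₀ (Real.smoothTransition.nonneg _) (Real.smoothTransition.le_one _)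
  have w1 : ∀ x, w x ^ 2 ≤ z (Pi h v x) ^ 2 := fun x => by
    rw [hwd, mul_pow]; exact mul_le_of_le_one_right (sq_nonneg _) (η1 x)
  have w0 : ∀ x ∉ S, w =ᶠ[𝓝 x] fun _ => 0 := fun x hx => by
    rcases not_and_or.1 hx with hx | hx
    · filter_upwards [continuousAt_const.eventually_lt cu.continuousAt (not_le.1 hx)] with y hy
      simp only [hwd, eta]
      rw [Real.smoothTransition.zero_of_nonpos (by linarith), mul_zero]
    · filter_upwards [continuousAt_const.eventually_lt (ct.comp cP.continuous).continuousAt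
        (not_le.1 hx)] with y hy
      simp only [hwd]
      rw [hz0 _ hy.le, zero_mul]
  have w2 : ∀ x ∉ S, w x = 0 := fun x hx => (w0 x hx).self_of_nhds
  have w3 : ∀ x ∉ S, gsq w x = 0 := fun x hx => by
    simp only [gsq, pdv_congr (w0 x hx), pdv_const]; simp
  have w4 : ∀ x ∈ S, gsq w x ≤ (1 + ε) * ((1 + ε) * tg v z (Pi h v x) +
      2 * h ^ 2 * gin (dd v) z (Pi h v x) ^ 2) +
        (1 + ε⁻¹) * (z (Pi h v x) ^ 2 * (C' * uu e g v x)) := fun x hx => by
    refine (gsq_mul_le (f := fun y => z (Pi h v y)) ((hz.comp cP).differentiable (by simp) x)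
      (cη.differentiable (by simp) x) (η1 x) hε).trans ?_
    have := (pS x hx).gr z zd
    have := gη x
    gcongr
  have jm : ∀ x ∈ S, ∀ a : ℝ, 0 ≤ a → a ≤ |(Pd h v x).det| * (2 / h * a) := fun x hx a ha => by
    rw [← mul_assoc]
    refine le_mul_of_one_le_left ha ?_
    rw [← mul_div_assoc, le_div_iff₀ h0]
    linarith [(pS x hx).jac]
  have iw : Integrable fun x => w x ^ 2 :=
    hI _ _ (iz.const_mul (2 / h)) (cw.continuous.pow 2).aestronglyMeasurable
      (fun x hx => by simp [w2 x hx]) fun x hx => by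
        rw [abs_of_nonneg (sq_nonneg _)]
        exact (w1 x).trans (jm x hx _ (sq_nonneg _))
  have ig' : Integrable (gsq w) :=
    hI _ _ (((ig.const_mul 8).add (iz.const_mul ((1 + ε⁻¹) * C' * 2))).const_mul (2 / h))
      (cont_gsq cw).aestronglyMeasurable w3 fun x hx => by
        rw [abs_of_nonneg (gsq_nonneg _ _)]
        have b0 := gsq_nonneg z (Pi h v x)
        refine le_trans ?_ (jm x hx _ (by simp only [Pi.add_apply]; positivity))
        have b1 := tg_le v z hv (Pi h v x)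
        have b2 := nor_sq_le hv z (Pi h v x)
        have b3 := hx.1
        have b4 := tg_nonneg v z (Pi h v x)
        refine (w4 x hx).trans ?_
        calc _ ≤ (1 + 1) * ((1 + 1) * gsq z (Pi h v x) + 2 * 1 ^ 2 * gsq z (Pi h v x)) +
              (1 + ε⁻¹) * (z (Pi h v x) ^ 2 * (C' * 2)) := by gcongr
          _ = _ := by simp only [Pi.add_apply]; ring
  obtain ⟨iQ, hQ⟩ := hC v w hv hst cw iw ig'
  have m0 := mh_nonneg h0
  have cm : Continuous fun x => mh h (dd v x) := (mh_cont h).comp cd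
  have q1 : ∀ x, psi v x ^ 8 ≤ 1 := fun x => pow_le_one₀ (ψ0 x).le (psi_le_one v x)
  have Y0 : ∀ x, 0 < pb β v x * tt v x := fun x => mul_pos (pb_pos hv β x) (hp.tpos x)
  have F0 : ∀ x, 0 ≤ P.F (pb β v x * tt v x) := fun x => P.nonneg (Y0 x).le
  have i1 : Integrable fun x => hsq (dd v) x * z x ^ 2 * mh h (dd v x) :=
    int_dom iz ((hv.hsq_sm.continuous.mul (hz.continuous.pow 2)).mul cm) (K * (1 / h))
      (fun x => mul_nonneg (mul_nonneg (hsq_nonneg _ _) (sq_nonneg _)) (m0 _)) fun x => by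
        have b1 := (hK v hv x).trans (mul_le_of_le_one_right hK0 (tt_le_one v x))
        have b2 := mh_le h0 (dd v x)
        have b3 := m0 (dd v x)
        calc _ ≤ K * z x ^ 2 * (1 / h) := by gcongr
          _ = _ := by ring
  have i2 : Integrable fun x => tg v z x * mh h (dd v x) :=
    int_dom ig ((((continuous_const.sub ct).mul (cont_gsq hz)).sub
      ((cont_gin (hv.dd_cd 1) hz).pow 2)).mul cm) (1 / h)
      (fun x => mul_nonneg (tg_nonneg _ _ _) (m0 _)) fun x => by
        rw [mul_comm]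
        exact mul_le_mul (mh_le h0 _) (tg_le v z hv x) (tg_nonneg _ _ _) (by positivity)
  have i3 : Integrable fun x => psi v x ^ 8 * gin (dd v) z x ^ 2 :=
    int_dom ig ((cψ.pow 8).mul ((cont_gin (hv.dd_cd 1) hz).pow 2)) 1
      (fun x => by have := ψ0 x; positivity) fun x =>
        mul_le_mul (q1 x) (nor_sq_le hv z x) (sq_nonneg _) zero_le_one
  have n4 : ∀ x, 0 ≤ psi v x ^ 8 * A x * om x := fun x =>
    mul_nonneg (mul_nonneg (pow_nonneg (ψ0 x).le 8) (hAb x).1) (hw.pos x).le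
  have n5 : ∀ x, 0 ≤ P.F (pb β v x * tt v x) * om x := fun x => mul_nonneg (F0 x) (hw.pos x).le
  have i4 : Integrable fun x => psi v x ^ 8 * A x * om x :=
    int_dom hw.int (((cψ.pow 8).mul hA).mul hw.cont) M n4 fun x => mul_le_mul_of_nonneg_right
      ((mul_le_of_le_one_left (hAb x).1 (q1 x)).trans (hAb x).2) (hw.pos x).le
  have i5 := integ_TT hv hβ0 P hw
  have key : ∀ x ∈ S, (1 + ε) ^ 2 * (((1 + ε) * gsq w x + C * tt v x ^ 2 * w x ^ 2) * psi v x ^ 2) +
      2 * (e * (tt v x * psi v x ^ 2) * z (Pi h v x) ^ 2) ≤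
      |(Pd h v x).det| * ((1 + η) * (tg v z (Pi h v x) * mh h (dd v (Pi h v x))) +
        δ * (psi v (Pi h v x) ^ 8 * gin (dd v) z (Pi h v x) ^ 2) +
        δ / 2 * (psi v (Pi h v x) ^ 8 * A (Pi h v x) * om (Pi h v x))) +
      δ / 2 * (P.F (pb β v x * tt v x) * om x) := fun x hx => by
    have p := pS x hx
    have e0 := pb_mul hv β x
    rw [← hgd] at e0
    have g0 := Real.rpow_pos_of_pos (ψ0 x) g
    have g1 : psi v x ^ g ≤ 1 := Real.rpow_le_one (ψ0 x).le (psi_le_one v x) hg.le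
    have a1 := alg (U := pb β v x * tt v x * psi v x ^ g) hε hε1.le hη'.le h0.le h2 he.le hC0 hC0'
      he1.le (abs_nonneg _) (m0 _) (sq_nonneg _) (pow_nonneg (ψ0 (Pi h v x)).le 8) (tg_nonneg _ _ _)
      (sq_nonneg _) (sq_nonneg _) (hv.tt_nonneg x) (sq_nonneg _) p.w2
      (by rw [psi_eq hv]; exact mul_mh_le h0 (by linarith) _) (w4 x hx)
      (by rw [uu, ← e0]; field_simp)
      (by rw [← e0]; linarith [mul_le_of_le_one_right (mul_pos (Y0 x) g0).le g1]) p.ts (w1 x)
    have a2 := mul_le_mul_of_nonneg_right (hzA (Pi h v x) _ (Y0 x)) g0.le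
    have a3 := mul_le_mul_of_nonneg_left p.w3 (mul_nonneg (hAb (Pi h v x)).1 (hw.pos (Pi h v x)).le)
    have a4 : om (Pi h v x) * psi v x ^ g ≤ 4 * om x := by
      have b1 : ‖Pi h v x - x‖ ≤ |dd v x| := by rw [norm_sub_rev]; exact norm_sub_Pi hv h0.le h3 x
      have b2 : Real.exp (g * ‖Pi h v x - x‖) * Real.exp (-(√2 * g * |dd v x|)) ≤ 1 := by
        rw [← Real.exp_add, Real.exp_le_one_iff]
        nlinarith [mul_le_mul_of_nonneg_left b1 hg.le, Real.one_lt_sqrt_two,
          mul_nonneg hg.le (abs_nonneg (dd v x))]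
      have b3 := mul_le_mul (hw.le_exp x (Pi h v x)) (psi_rpow_le hv hg.le hg1 x) g0.le
        (mul_pos (Real.exp_pos _) (hw.pos x)).le
      linarith [mul_le_of_le_one_left (hw.pos x).le b2]
    have a5 := mul_le_mul_of_nonneg_left a4 (F0 x)
    have a6 : z (Pi h v x) ^ 2 * (pb β v x * tt v x * psi v x ^ g) ≤ 8 * Real.exp 12 / h *
        (|(Pd h v x).det| * (psi v (Pi h v x) ^ 8 * A (Pi h v x) * om (Pi h v x))) +
        4 * (P.F (pb β v x * tt v x) * om x) := by linarith
    have a7 := mul_le_mul_of_nonneg_left a6 θ0.le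
    have a9 := mul_le_mul_of_nonneg_right θ1 (mul_nonneg (abs_nonneg (Pd h v x).det) (n4 (Pi h v x)))
    have a10 := mul_le_mul_of_nonneg_right θ2 (n5 x)
    linarith
  have fin := hA2 _ _ (fun x => (1 + ε) ^ 2 * Qf ε C v w x) _ _ i1
    (((i2.const_mul (1 + η)).add (i3.const_mul δ)).add (i4.const_mul (δ / 2)))
    (iQ.const_mul _) (i5.const_mul (δ / 2)) ((i4.const_mul (δ / 2)).add (i5.const_mul (δ / 2)))
    (fun x => by
      have := tg_nonneg v z x
      have := m0 (dd v x)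
      have := ψ0 x
      have := n4 x
      simp only [Pi.add_apply]; positivity)
    (fun x => mul_nonneg (by positivity) (n5 x))
    (fun x => add_nonneg (mul_nonneg (by positivity) (n4 x)) (mul_nonneg (by positivity) (n5 x)))
    (fun x hx => by simp [Qf, w2 x hx, w3 x hx])
    (by rw [integral_const_mul]; positivity)
    (fun y hy => by
      simp only [Pi.add_apply]
      by_cases hz1 : z y = 0
      · rw [hz1]
        have := n4 y
        have := n5 y
        simp only [ne_eq, OfNat.ofNat_ne_zero, not_false_eq_true, zero_pow, mul_zero, zero_mul]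
        positivity
      have b1 : tt v y ≤ e1 := (not_le.1 fun h => hz1 (hz0 y h)).le
      have b2 : h * T ≤ |dd v y| := le_of_not_ge fun h => by
        obtain ⟨x, rfl, hx⟩ := k4 v hv y b1 h
        exact hy ⟨x, ⟨hx, b1⟩, rfl⟩
      have b3 := hT _ b2
      rw [← psi_eq hv] at b3
      have b4 : hsq (dd v) y ≤ (K + 1) * tt v y := by linarith [hK v hv y, hv.tt_nonneg y]
      have b5 := sq_le_pb hv hβ y
      have b6 := hv.tt_nonneg y
      have b7 := ψ0 y
      have b8 := m0 (dd v y)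
      have b9 := mul_le_of_le_one_left (n5 y) (q1 y)
      calc _ ≤ (K + 1) * tt v y * z y ^ 2 * (δ / 2 / (K + 1) * psi v y ^ 10) := by gcongr
        _ = δ / 2 * psi v y ^ 8 * (z y ^ 2 * (psi v y ^ 2 * tt v y)) := by field_simp
        _ ≤ δ / 2 * psi v y ^ 8 * (z y ^ 2 * (pb β v y * tt v y)) := by gcongr
        _ ≤ δ / 2 * psi v y ^ 8 * ((A y + P.F (pb β v y * tt v y)) * om y) :=
            mul_le_mul_of_nonneg_left (hzA y _ (Y0 y)) (by positivity)
        _ ≤ _ := by linarith [mul_le_mul_of_nonneg_left b9 (half_pos hδ).le])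
    (fun x hx => by
      have p := pS x (sub hx)
      have b1 : w x = z (Pi h v x) := by
        simp only [hwd, eta]
        rw [Real.smoothTransition.one_of_one_le (by linarith [hx.1]), mul_one]
      have b2 := mul_le_mul p.w1 p.hb (hsq_nonneg _ _) (by positivity)
      have b3 := mul_le_mul_of_nonneg_right b2 (sq_nonneg (z (Pi h v x)))
      have b4 := mul_le_mul_of_nonneg_right hε1.le (mul_nonneg (mul_nonneg he.le
        (mul_nonneg (hv.tt_nonneg x) (sq_nonneg (psi v x)))) (sq_nonneg (z (Pi h v x))))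
      have b5 := key x (sub hx)
      simp only [Pi.add_apply, Qf]
      rw [b1] at b5 ⊢
      linarith)
    (fun x hx _ => by
      have b1 := key x hx
      have b2 := hsq_nonneg (dd v) x
      have b3 := hv.tt_nonneg x
      have b4 : 0 ≤ (1 + ε) ^ 2 * (hsq (dd v) x * w x ^ 2 * psi v x ^ 2) := by positivity
      have b5 : 0 ≤ e * (tt v x * psi v x ^ 2) * z (Pi h v x) ^ 2 := by positivity
      simp only [Pi.add_apply, Qf]
      linarith)
  simp only [Pi.add_apply] at fin
  rw [integral_add (f := fun x => (1 + η) * (tg v z x * mh h (dd v x)) +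
      δ * (psi v x ^ 8 * gin (dd v) z x ^ 2))
      ((i2.const_mul (1 + η)).add (i3.const_mul δ)) (i4.const_mul (δ / 2)),
    integral_add (i2.const_mul (1 + η)) (i3.const_mul δ),
    integral_add (i4.const_mul (δ / 2)) (i5.const_mul (δ / 2))] at fin
  simp only [integral_const_mul] at fin
  rw [TT]
  linarith

end

end Crest.Agent.N067.Y
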