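import Crest.Agent.N067.Y.X5
import Crest.Agent.N067.Y.NP1
import Crest.Agent.N067.Y.NP2
import Crest.Agent.N067.Y.OM
import Crest.Agent.N067.Y.Out
import Crest.Agent.N067.Y.St
import Crest.Agent.N067.Y.SK2

/-! # Row 67, block X5: unconditional forms -/

set_option autoImplicit false

namespace Crest.Agent.N067.Y

/-- **X5**, the truncated SSY estimate -/
theorem x5 {n : ℕ} (h3 : 3 ≤ n) (h8 : n ≤ 8) : X5Stmt n :=
  x5_of (np1 (hkS n)) (np2 (hkS n)) (ybS (hkS n)) (omS (hkS n) (geS n) (np1 (hkS n))) (sk n)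
    (stS n) h3 h8

theorem out (n : ℕ) : OUTStmt n := outS (hkS n)

end Crest.Agent.N067.Y
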