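import Crest.Agent.N222.G.Sim0

/-!
# Row 67, block X5 (helper66): Simons identity in codimension one, trace-free Kato inequality

Pure algebra on the delta-calculus of row 222.
-/

set_option autoImplicit false
set_option linter.unusedSectionVars false

open Finset

noncomputable section

namespace Crest.Agent.N067.Hy

open Crest.Agent.N222 Crest.Agent.N222.Pre

variable {R : Type} [CommRing R] {ι : Type} [Fintype ι] [DecidableEq ι]

/-- second fundamental form `A a b = δ_a ν_b` -/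
def A (S : Pre R ι) (ν : ι → R) (a b : ι) : R := S.D a (ν b)

/-- mean curvature -/
def H (S : Pre R ι) (ν : ι → R) : R := ∑ a, A S ν a a

/-- `C = ∇A` -/
def C (S : Pre R ι) (ν : ι → R) (a b c : ι) : R := S.nab2 (A S ν) a b c

/-- the Simons field -/
def Y (S : Pre R ι) (ν : ι → R) (a : ι) : R := S.sY (A S ν) a

section Hom

variable {R' : Type} [CommRing R'] {S : Pre R ι} {S' : Pre R' ι} {φ : R →+* R'} (h : S.Hom S' φ)
  (ν : ι → R)
include h

theorem hom_A (a b : ι) : φ (A S ν a b) = A S' (fun a => φ (ν a)) a b := h.D _ _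

theorem hom_H : φ (H S ν) = H S' fun a => φ (ν a) := by simp only [H, map_sum, hom_A h]

theorem hom_C (a b c : ι) : φ (C S ν a b c) = C S' (fun a => φ (ν a)) a b c := by
  simp only [C, h.nab2, hom_A h]

theorem hom_Y (a : ι) : φ (Y S ν a) = Y S' (fun a => φ (ν a)) a := by
  simp only [Y, sY, map_sum, map_sub, map_mul, h.nab2, hom_A h]

end Hom

/-- hypersurfaces with unit normal `ν` -/
structure Hyp [Algebra ℝ R] (S : Pre R ι) (ν : ι → R) : Prop where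
  ds : S.IsDS
  P_eq : ∀ a b, S.P a b = (if a = b then 1 else 0) - ν a * ν b
  unit : ∑ a, ν a * ν a = 1

namespace Hyp

variable [Algebra ℝ R] {S : Pre R ι} {ν : ι → R} (h : Hyp S ν)
include h

theorem P_mul (Z : ι → R) (a : ι) : ∑ b, S.P a b * Z b = Z a - ν a * ∑ b, ν b * Z b := by
  simp [h.P_eq, sub_mul, mul_sum, mul_assoc]

theorem P_nu (a : ι) : ∑ b, S.P a b * ν b = 0 := by rw [h.P_mul, h.unit, mul_one, sub_self]

theorem nu_tan {Z : ι → R} (hZ : S.Tan Z) : ∑ a, ν a * Z a = 0 := by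
  have : ∑ a, ν a * Z a = ∑ a, ν a * (Z a - ν a * ∑ b, ν b * Z b) :=
    sum_congr rfl fun a _ => by rw [← h.P_mul, hZ a]
  rw [this]
  simp only [mul_sub, sum_sub_distrib, ← mul_assoc, ← sum_mul, h.unit, one_mul, sub_self]

theorem nu_A (a : ι) : ∑ b, ν b * A S ν a b = 0 := by
  have h1 := congrArg (S.D a) h.unit
  rw [h.ds.D_one, h.ds.D_sum] at h1
  simp only [h.ds.mul, sum_add_distrib, mul_comm (S.D a _)] at h1
  have h2 : algebraMap ℝ R 2⁻¹ * 2 = 1 := by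
    rw [← map_ofNat (algebraMap ℝ R) 2, ← map_mul, inv_mul_cancel₀ two_ne_zero, map_one]
  simp only [A]
  linear_combination algebraMap ℝ R 2⁻¹ * h1 - (∑ b, ν b * S.D a (ν b)) * h2

theorem II_eq (a b c : ι) : S.II a b c = -(ν c * A S ν a b) := by
  have h1 : ∀ e, S.D a (S.P e c) = -(ν e * A S ν a c + ν c * A S ν a e) := fun e => by
    have : S.D a (if e = c then 1 else 0) = 0 := by
      split_ifs
      exacts [h.ds.D_one a, h.ds.D_zero a]
    rw [h.P_eq, h.ds.D_sub, this, h.ds.mul, A, A]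
    ring
  have h2 : ∀ e, S.P b e * S.D a (S.P e c) =
      -(S.P b e * ν e * A S ν a c) - ν c * (S.P b e * A S ν a e) := fun e => by
    rw [h1]; ring
  rw [h.ds.II_eq]
  simp only [h2, sum_sub_distrib, sum_neg_distrib, ← sum_mul, ← mul_sum, h.P_nu, h.P_mul, h.nu_A]
  ring

theorem A_symm (a b : ι) : A S ν a b = A S ν b a := by
  have h1 : ∀ a b, ∑ c, ν c * S.II a b c = -A S ν a b := fun a b => by
    simp only [h.II_eq, mul_neg, ← mul_assoc, sum_neg_distrib, ← sum_mul, h.unit, one_mul]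
  have h2 := h1 a b
  simp only [h.ds.II_symm a b, h1] at h2
  exact (neg_inj.1 h2).symm

theorem symT : S.SymT (A S ν) := ⟨fun b => h.ds.tan (ν b), h.A_symm⟩

theorem H_eq (c : ι) : S.H c = -(ν c * H S ν) := by
  simp only [← h.ds.tr_II, h.II_eq, sum_neg_distrib, ← mul_sum, H]

theorem sB_eq (T : ι → ι → R) (b e f : ι) : S.sB T b e f = -(ν e * ∑ g, A S ν b g * T g f) := by
  simp only [sB, h.II_eq, neg_mul, sum_neg_distrib, mul_sum, mul_assoc]

theorem C_eq (a b c : ι) : C S ν a b c = ∑ f, S.P c f * S.hess (ν f) a b := by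
  simp only [C, nab2, hess, A, mul_sum]
  rw [sum_comm]
  exact sum_congr rfl fun f _ => sum_congr rfl fun e _ => by ring

/-- Codazzi -/
theorem C12 (a b c : ι) : C S ν a b c = C S ν b a c := by simp only [h.C_eq, h.ds.hess _ a b]

theorem C23 (a b c : ι) : C S ν a b c = C S ν a c b := h.ds.T_symm h.symT a b c

theorem C_tan (b c : ι) : S.Tan fun a => C S ν a b c := h.ds.T_tan1 _ b c

theorem tr_C (c : ι) : ∑ a, C S ν c a a = S.D c (H S ν) := h.ds.tr_T h.symT c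

theorem tr_C' (c : ι) : ∑ a, C S ν a a c = S.D c (H S ν) := by
  rw [← h.tr_C]
  exact sum_congr rfl fun a _ => by rw [h.C23, h.C12]

theorem D_A (a b c : ι) : S.D a (A S ν b c) = C S ν a b c -
    ν b * ∑ g, A S ν a g * A S ν g c - ν c * ∑ g, A S ν a g * A S ν g b := by
  rw [h.ds.D_symT h.symT, h.sB_eq, h.sB_eq, C]
  ring

theorem D_normSq (a : ι) : S.D a (∑ b, ∑ c, A S ν b c * A S ν b c) =
    2 * ∑ b, ∑ c, A S ν b c * C S ν a b c := h.ds.D_normSq h.symT a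

theorem Y_tan : S.Tan (Y S ν) := h.ds.tan_sY h.symT

theorem Y_eq (a : ι) : Y S ν a =
    ∑ b, ∑ c, A S ν b c * C S ν a b c - ∑ c, A S ν a c * S.D c (H S ν) := by
  simp only [Y, sY, sum_sub_distrib, ← h.tr_C', mul_sum]
  congr 1
  · exact sum_congr rfl fun b _ => sum_congr rfl fun c _ => by rw [h.C12 a b]; rfl
  · exact sum_comm

/-- **Simons** -/
theorem simons : S.dv (Y S ν) = ∑ a, ∑ b, ∑ c, C S ν a b c * C S ν a b c
    - ∑ c, S.D c (H S ν) * S.D c (H S ν)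
    + H S ν * ∑ b, ∑ c, A S ν b c * ∑ g, A S ν b g * A S ν g c
    - (∑ b, ∑ c, A S ν b c * A S ν b c) * ∑ b, ∑ c, A S ν b c * A S ν b c := by
  set Q : ι → ι → R := fun b c => ∑ g, A S ν b g * A S ν g c with hQ
  have hs : ∀ b e f, S.sB (A S ν) b e f = -(ν e * Q b f) := h.sB_eq _
  have Qs : ∀ a b, Q a b = Q b a := fun a b =>
    sum_congr rfl fun g _ => by rw [h.A_symm a, h.A_symm g b, mul_comm]
  have e0 : ∀ x y : R, ∑ c, -(ν c * x) * -(ν c * y) = x * y := fun x y => by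
    rw [← one_mul (x * y), ← h.unit, sum_mul]
    exact sum_congr rfl fun c _ => by ring
  have e1 : ∑ e, ∑ b, ∑ c, S.nab2 (A S ν) e b c * S.nab2 (A S ν) b e c =
      ∑ a, ∑ b, ∑ c, C S ν a b c * C S ν a b c :=
    sum_congr rfl fun a _ => sum_congr rfl fun b _ => sum_congr rfl fun c _ =>
      congrArg (C S ν a b c * ·) (h.C12 b a c)
  have e2 : ∀ c, ∑ a, S.nab2 (A S ν) a a c = S.D c (H S ν) := h.tr_C'
  have e3 : ∀ e, ∑ b, ∑ c, A S ν b c * S.sB (A S ν) b e c =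
      -(ν e * ∑ b, ∑ c, A S ν b c * Q b c) := fun e => by
    simp only [hs, mul_sum, ← sum_neg_distrib]
    exact sum_congr rfl fun b _ => sum_congr rfl fun c _ => by ring
  have e4 : ∑ e, ∑ b, ∑ c, S.sB (A S ν) e c b * S.sB (A S ν) b c e =
      ∑ g, ∑ e, ∑ c, S.sB (A S ν) g e c * S.sB (A S ν) g e c := by
    refine sum_congr rfl fun g _ => ?_
    rw [sum_comm (f := fun e c => S.sB (A S ν) g e c * S.sB (A S ν) g e c)]
    simp only [hs, Qs _ g]
  have e5 : ∀ c, ∑ a, S.sB (A S ν) a c a = -(ν c * ∑ b, ∑ c, A S ν b c * A S ν b c) := fun c => by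
    simp only [hs, sum_neg_distrib, ← mul_sum, hQ]
    congr 2
    exact sum_congr rfl fun a _ => sum_congr rfl fun g _ => by rw [h.A_symm g a]
  change S.dv (S.sY (A S ν)) = _
  rw [h.ds.dv_sY h.symT, e1, e4]
  simp only [e2, e3, e5, h.H_eq, e0]
  ring

end Hyp

/-! ### Kato -/

section Kato

theorem s12 (f : ι → ι → ι → ℝ) : ∑ i, ∑ j, ∑ k, f i j k = ∑ i, ∑ j, ∑ k, f j i k := sum_comm

theorem s23 (f : ι → ι → ι → ℝ) : ∑ i, ∑ j, ∑ k, f i j k = ∑ i, ∑ j, ∑ k, f i k j :=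
  sum_congr rfl fun _ _ => sum_comm

theorem cs2 (f g : ι → ι → ℝ) : (∑ i, ∑ j, f i j * g i j) ^ 2 ≤
    (∑ i, ∑ j, f i j ^ 2) * ∑ i, ∑ j, g i j ^ 2 := by
  simpa only [Fintype.sum_prod_type] using
    sum_mul_sq_le_sq_mul_sq univ (fun p : ι × ι => f p.1 p.2) fun p => g p.1 p.2

theorem cs3 (f g : ι → ι → ι → ℝ) : (∑ i, ∑ j, ∑ k, f i j k * g i j k) ^ 2 ≤
    (∑ i, ∑ j, ∑ k, f i j k ^ 2) * ∑ i, ∑ j, ∑ k, g i j k ^ 2 := by
  simpa only [Fintype.sum_prod_type] using sum_mul_sq_le_sq_mul_sq univ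
    (fun p : ι × ι × ι => f p.1 p.2.1 p.2.2) fun p => g p.1 p.2.1 p.2.2

/-- Cauchy-Schwarz against a symmetric tensor -/
theorem cs_sym {C T : ι → ι → ι → ℝ} (h12 : ∀ a b c, C a b c = C b a c)
    (h23 : ∀ a b c, C a b c = C a c b) (hT : ∀ a b c, T a b c = T a c b) :
    3 * (∑ i, ∑ j, ∑ k, C i j k * T i j k) ^ 2 ≤ (∑ i, ∑ j, ∑ k, C i j k ^ 2) *
      (∑ i, ∑ j, ∑ k, T i j k ^ 2 + 2 * ∑ i, ∑ j, ∑ k, T i j k * T j i k) := by
  have h := cs3 C fun i j k => T i j k + T j i k + T k i j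
  have e1 : ∑ i, ∑ j, ∑ k, C i j k * T j i k = ∑ i, ∑ j, ∑ k, C i j k * T i j k := by
    rw [s12]; simp only [fun i j k => h12 j i k]
  have e2 : ∑ i, ∑ j, ∑ k, C i j k * T k i j = ∑ i, ∑ j, ∑ k, C i j k * T i j k := by
    rw [s23, ← e1]; simp only [fun i j k => h23 i k j]
  have e3 : ∑ i, ∑ j, ∑ k, T j i k ^ 2 = ∑ i, ∑ j, ∑ k, T i j k ^ 2 := by rw [s12]
  have e4 : ∑ i, ∑ j, ∑ k, T k i j ^ 2 = ∑ i, ∑ j, ∑ k, T i j k ^ 2 := by rw [s23, e3]
  have e5 : ∑ i, ∑ j, ∑ k, T i j k * T k i j = ∑ i, ∑ j, ∑ k, T i j k * T j i k := by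
    rw [s23]; simp only [fun i j k => hT i k j]
  have e6 : ∑ i, ∑ j, ∑ k, T j i k * T k i j = ∑ i, ∑ j, ∑ k, T i j k * T j i k := by
    rw [s12, ← e5]; simp only [fun i j k => hT k j i]
  have e7 : ∀ x y z : ℝ, (x + y + z) ^ 2 =
      x ^ 2 + y ^ 2 + z ^ 2 + 2 * (x * y) + 2 * (x * z) + 2 * (y * z) := fun x y z => by ring
  simp only [mul_add, e7, sum_add_distrib, ← mul_sum, e1, e2, e3, e4, e5, e6] at h
  linarith

variable {P A : ι → ι → ℝ} {k : ℝ}

/-- symmetric, tangential, trace-free matrices -/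
structure TF (P A : ι → ι → ℝ) (k : ℝ) : Prop where
  Ps : ∀ a b, P a b = P b a
  PP : ∀ a b, ∑ c, P a c * P c b = P a b
  trP : ∑ a, P a a = k
  As : ∀ a b, A a b = A b a
  PA : ∀ a b, ∑ c, P a c * A c b = A a b
  trA : ∑ a, A a a = 0

theorem TF.P_sq (h : TF P A k) : ∑ a, ∑ b, P a b ^ 2 = k := by
  rw [← h.trP]
  exact sum_congr rfl fun a _ => by
    rw [← h.PP a a]
    exact sum_congr rfl fun b _ => by rw [sq, h.Ps b a]

theorem TF.A_P (h : TF P A k) : ∑ a, ∑ b, A a b * P a b = 0 := by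
  rw [← h.trA]
  exact sum_congr rfl fun a _ => by
    rw [← h.PA a a]
    exact sum_congr rfl fun b _ => by rw [h.As b a, mul_comm]

theorem TF.P_mul (h : TF P A k) (u : ι → ℝ) (a : ι) :
    ∑ b, P a b * ∑ c, A b c * u c = ∑ c, A a c * u c := by
  simp only [mul_sum, ← mul_assoc]
  rw [sum_comm]
  simp only [← sum_mul, h.PA]

theorem TF.swap (h : TF P A k) (u w : ι → ℝ) :
    ∑ a, u a * ∑ b, A a b * w b = ∑ b, (∑ a, A b a * u a) * w b := by
  simp only [mul_sum, sum_mul]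
  rw [sum_comm]
  exact sum_congr rfl fun b _ => sum_congr rfl fun a _ => by rw [h.As a b]; ring

/-- `|A u|² ≤ (1 - 1/k) |A|² |u|²` -/
theorem TF.mul_le (h : TF P A k) (hk : 2 ≤ k) {u : ι → ℝ} (hu : ∀ a, ∑ b, P a b * u b = u a) :
    k * ∑ a, (∑ b, A a b * u b) ^ 2 ≤ (k - 1) * ((∑ a, ∑ b, A a b ^ 2) * ∑ a, u a ^ 2) := by
  set w : ι → ℝ := fun a => ∑ b, A a b * u b with hw
  set s := ∑ a, w a * u a with hs
  have h1 := cs2 A fun a b => k * (w a * u b + u a * w b) - 2 * s * P a b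
  have e1 : ∑ a, ∑ b, A a b * (k * (w a * u b + u a * w b) - 2 * s * P a b) =
      2 * k * ∑ a, w a ^ 2 := by
    have e : ∀ a b, A a b * (k * (w a * u b + u a * w b) - 2 * s * P a b) =
        k * (w a * (A a b * u b)) + k * (u a * (A a b * w b)) - 2 * s * (A a b * P a b) :=
      fun a b => by ring
    simp only [e, sum_sub_distrib, sum_add_distrib, ← mul_sum, h.A_P, h.swap u w]
    simp only [hw, ← sq]
    ring
  have e2 : ∑ a, ∑ b, (k * (w a * u b + u a * w b) - 2 * s * P a b) ^ 2 =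
      2 * k ^ 2 * ((∑ a, w a ^ 2) * ∑ a, u a ^ 2) + (2 * k ^ 2 - 4 * k) * s ^ 2 := by
    have e : ∀ a b, (k * (w a * u b + u a * w b) - 2 * s * P a b) ^ 2 =
        k ^ 2 * (w a ^ 2 * u b ^ 2) + k ^ 2 * (u a ^ 2 * w b ^ 2) +
          2 * k ^ 2 * (w a * u a * (w b * u b)) - 4 * k * s * (w a * (P a b * u b)) -
          4 * k * s * (u a * (P a b * w b)) + 4 * s ^ 2 * P a b ^ 2 := fun a b => by ring
    have e' : ∀ a, ∑ b, P a b * w b = w a := h.P_mul u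
    simp only [e, sum_sub_distrib, sum_add_distrib, ← mul_sum, ← sum_mul, hu, e', h.P_sq]
    simp only [mul_comm (u _) (w _), ← hs]
    ring
  have e3 : s ^ 2 ≤ (∑ a, w a ^ 2) * ∑ a, u a ^ 2 := sum_mul_sq_le_sq_mul_sq _ _ _
  rw [e1, e2] at h1
  have hW : 0 ≤ ∑ a, w a ^ 2 := by positivity
  have hA : 0 ≤ ∑ a, ∑ b, A a b ^ 2 := by positivity
  have hU : 0 ≤ ∑ a, u a ^ 2 := by positivity
  rcases hW.eq_or_lt with h0 | h0
  · rw [← h0, mul_zero]
    exact mul_nonneg (by linarith) (mul_nonneg hA hU)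
  have h2 := mul_le_mul_of_nonneg_left e3
    (mul_nonneg hA (show 0 ≤ 2 * k ^ 2 - 4 * k by nlinarith))
  refine le_of_mul_le_mul_left ?_ (show 0 < 4 * k * ∑ a, w a ^ 2 by positivity)
  linarith

/-- **Kato with constant `2/k`**: `G = A : C`, `h = tr C` -/
theorem TF.kato (h : TF P A k) (hk : 2 ≤ k) {C : ι → ι → ι → ℝ} {t : ι → ℝ}
    (h12 : ∀ a b c, C a b c = C b a c) (h23 : ∀ a b c, C a b c = C a c b)
    (hP : ∀ a b c, ∑ e, P a e * C e b c = C a b c) (ht : ∀ c, ∑ a, C c a a = t c) {η : ℝ}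
    (hη : 0 < η) : ∑ a, (∑ b, ∑ c, A b c * C a b c) ^ 2 ≤ (∑ a, ∑ b, A a b ^ 2) *
      ((1 + η) * (k / (k + 2)) * ∑ a, ∑ b, ∑ c, C a b c ^ 2 + (1 + η⁻¹) * ∑ a, t a ^ 2) := by
  set u : ι → ℝ := fun a => ∑ b, ∑ c, A b c * C a b c with hu
  set w : ι → ℝ := fun a => ∑ b, A a b * u b with hw
  have hPu : ∀ a, ∑ b, P a b * u b = u a := fun a => by
    simp only [hu, mul_sum]
    rw [sum_comm]
    refine sum_congr rfl fun b _ => ?_
    rw [sum_comm]
    refine sum_congr rfl fun c _ => ?_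
    rw [← hP a b c, mul_sum]
    exact sum_congr rfl fun e _ => by ring
  have hPw : ∀ a, ∑ b, P a b * w b = w a := h.P_mul u
  have h1 := cs_sym (T := fun a b c => (k + 2) * (u a * A b c) - 2 * (w a * P b c)) h12 h23
    fun a b c => by rw [h.As b c, h.Ps b c]
  have e1 : ∑ a, ∑ b, ∑ c, C a b c * ((k + 2) * (u a * A b c) - 2 * (w a * P b c)) =
      (k + 2) * ∑ a, u a ^ 2 - 2 * ∑ a, w a * t a := by
    have e : ∀ a b c, C a b c * ((k + 2) * (u a * A b c) - 2 * (w a * P b c)) =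
        (k + 2) * (u a * (A b c * C a b c)) - 2 * (w a * (P b c * C c a b)) := fun a b c => by
      rw [h23 a b c, h12 a c b]; ring
    have e' : ∀ a, ∑ b, C b a b = t a := fun a => by
      rw [← ht]; exact sum_congr rfl fun b _ => h12 b a b
    simp only [e, sum_sub_distrib, ← mul_sum, hP, e']
    simp only [hu, ← sq]
  have e2 : ∑ a, ∑ b, ∑ c, ((k + 2) * (u a * A b c) - 2 * (w a * P b c)) ^ 2 =
      (k + 2) ^ 2 * ((∑ a, ∑ b, A a b ^ 2) * ∑ a, u a ^ 2) + 4 * k * ∑ a, w a ^ 2 := by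
    have e : ∀ a b c, ((k + 2) * (u a * A b c) - 2 * (w a * P b c)) ^ 2 =
        (k + 2) ^ 2 * (u a ^ 2 * A b c ^ 2) - 4 * (k + 2) * (u a * w a * (A b c * P b c)) +
          4 * (w a ^ 2 * P b c ^ 2) := fun a b c => by ring
    simp only [e, sum_sub_distrib, sum_add_distrib, ← mul_sum, ← sum_mul, h.A_P, h.P_sq]
    ring
  have e3 : ∑ a, ∑ b, ∑ c, ((k + 2) * (u a * A b c) - 2 * (w a * P b c)) *
      ((k + 2) * (u b * A a c) - 2 * (w b * P a c)) = k ^ 2 * ∑ a, w a ^ 2 := by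
    have e : ∀ a b c, ((k + 2) * (u a * A b c) - 2 * (w a * P b c)) *
        ((k + 2) * (u b * A a c) - 2 * (w b * P a c)) =
        (k + 2) ^ 2 * (u a * (A a c * (A c b * u b))) - 2 * (k + 2) * (u a * (P a c * A c b * w b)) -
          2 * (k + 2) * (w a * (P b c * A c a * u b)) + 4 * (w a * (P a c * P c b * w b)) :=
      fun a b c => by rw [h.As b c, h.As c a, h.Ps b c]; ring
    have f1 : ∑ a, ∑ b, ∑ c, u a * (A a c * (A c b * u b)) = ∑ a, w a ^ 2 := by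
      rw [s23]
      simp only [← mul_sum, h.swap u, hw, sq]
    have f2 : ∑ a, w a * ∑ b, A b a * u b = ∑ a, w a ^ 2 := by
      simp only [fun a b => h.As b a, hw, sq]
    simp only [e, sum_sub_distrib, sum_add_distrib, ← mul_sum (a := (k + 2) ^ 2), f1]
    simp only [← mul_sum, ← sum_mul, h.PA, h.PP, hPw, f2, h.swap u w, ← sq]
    simp only [hw, ← sq]
    ring
  rw [e1, e2, e3] at h1
  have h2 := h.mul_le hk hPu
  have h3 : (∑ a, w a * t a) ^ 2 ≤ (∑ a, w a ^ 2) * ∑ a, t a ^ 2 := sum_mul_sq_le_sq_mul_sq _ _ _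
  change k * ∑ a, w a ^ 2 ≤ _ at h2
  change ∑ a, u a ^ 2 ≤ _
  have hW : 0 ≤ ∑ a, w a ^ 2 := by positivity
  have hA : 0 ≤ ∑ a, ∑ b, A a b ^ 2 := by positivity
  have hU : 0 ≤ ∑ a, u a ^ 2 := by positivity
  have hC : 0 ≤ ∑ a, ∑ b, ∑ c, C a b c ^ 2 := by positivity
  have hT : 0 ≤ ∑ a, t a ^ 2 := by positivity
  generalize ∑ a, w a ^ 2 = W, ∑ a, ∑ b, A a b ^ 2 = α, ∑ a, u a ^ 2 = U,
    ∑ a, ∑ b, ∑ c, C a b c ^ 2 = Γ, ∑ a, t a ^ 2 = τ, ∑ a, w a * t a = s at *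
  have hk2 : 0 < k + 2 := by linarith
  rcases hU.eq_or_lt with h0 | h0
  · rw [← h0]; positivity
  have h4 : (U - 2 * s / (k + 2)) ^ 2 ≤ k / (k + 2) * Γ * (α * U) := by
    have : (U - 2 * s / (k + 2)) ^ 2 = ((k + 2) * U - 2 * s) ^ 2 / (k + 2) ^ 2 := by field_simp
    rw [this, div_le_iff₀ (by positivity)]
    have h5 := mul_le_mul_of_nonneg_left h2 (show 0 ≤ Γ * (2 * (k + 2)) by positivity)
    have h6 : k / (k + 2) * Γ * (α * U) * (k + 2) ^ 2 = k * (k + 2) * Γ * (α * U) := by field_simp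
    rw [h6]
    linarith
  have h5 : (2 * s / (k + 2)) ^ 2 ≤ τ * (α * U) := by
    have h6 : W ≤ α * U := by
      refine le_of_mul_le_mul_left ?_ (show 0 < k by linarith)
      nlinarith [mul_nonneg hA h0.le]
    have h7 := mul_le_mul_of_nonneg_right h6 hT
    have h8 : (2 * s / (k + 2)) ^ 2 ≤ s ^ 2 := by
      rw [div_pow, div_le_iff₀ (by positivity)]
      nlinarith [mul_nonneg (sq_nonneg s) (show 0 ≤ (k + 2) ^ 2 - 4 by nlinarith)]
    linarith
  have h6 : ∀ x y : ℝ, (x + y) ^ 2 ≤ (1 + η) * x ^ 2 + (1 + η⁻¹) * y ^ 2 := fun x y => by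
    have : (1 + η) * x ^ 2 + (1 + η⁻¹) * y ^ 2 - (x + y) ^ 2 = η⁻¹ * (η * x - y) ^ 2 := by
      field_simp; ring
    have : 0 ≤ η⁻¹ * (η * x - y) ^ 2 := by positivity
    linarith
  have h7 := h6 (U - 2 * s / (k + 2)) (2 * s / (k + 2))
  rw [sub_add_cancel] at h7
  have h8 := mul_le_mul_of_nonneg_left h4 (show 0 ≤ 1 + η by positivity)
  have h9 := mul_le_mul_of_nonneg_left h5 (show 0 ≤ 1 + η⁻¹ by positivity)
  refine le_of_mul_le_mul_left ?_ h0
  linarith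

end Kato

end Crest.Agent.N067.Hy

end
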