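import Crest.Agent.N067.Y.Hyp

/-!
# Row 67, block X5 (helper66): the pointwise Simons-Kato inequality
-/

set_option autoImplicit false
set_option linter.unusedSectionVars false

open Finset

noncomputable section

namespace Crest.Agent.N067.Hy

open Crest.Agent.N222 Crest.Agent.N222.Pre

variable {R : Type} [CommRing R] {ι : Type} [Fintype ι] [DecidableEq ι]

/-- `|A|²` -/
def nA (S : Pre R ι) (ν : ι → R) : R := ∑ b, ∑ c, A S ν b c * A S ν b c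

/-- the values at a point -/
structure Dat (ι : Type) where
  P : ι → ι → ℝ
  A : ι → ι → ℝ
  C : ι → ι → ι → ℝ
  dH : ι → ℝ
  dα : ι → ℝ
  Y : ι → ℝ
  dY : ℝ

/-- evaluation -/
def dat (φ : R →+* ℝ) (S : Pre R ι) (ν : ι → R) : Dat ι :=
  ⟨fun a b => φ (S.P a b), fun a b => φ (A S ν a b), fun a b c => φ (C S ν a b c),
    fun a => φ (S.D a (H S ν)), fun a => φ (S.D a (nA S ν)), fun a => φ (Y S ν a),
    φ (S.dv (Y S ν))⟩

theorem dat_hom {R' : Type} [CommRing R'] {S : Pre R ι} {S' : Pre R' ι} {φ : R →+* R'}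
    (h : S.Hom S' φ) (ψ : R' →+* ℝ) (ν : ι → R) :
    dat (ψ.comp φ) S ν = dat ψ S' fun a => φ (ν a) := by
  simp only [dat, RingHom.comp_apply, h.P, hom_A h, hom_C h, h.D, hom_H h, hom_Y h, h.dv, nA,
    map_sum, map_mul]

/-- the identities -/
structure Dat.OK (D : Dat ι) : Prop where
  Ps : ∀ a b, D.P a b = D.P b a
  PP : ∀ a b, ∑ c, D.P a c * D.P c b = D.P a b
  As : ∀ a b, D.A a b = D.A b a
  PA : ∀ a b, ∑ c, D.P a c * D.A c b = D.A a b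
  c12 : ∀ a b c, D.C a b c = D.C b a c
  c23 : ∀ a b c, D.C a b c = D.C a c b
  PC : ∀ a b c, ∑ e, D.P a e * D.C e b c = D.C a b c
  trC : ∀ c, ∑ a, D.C c a a = D.dH c
  PH : ∀ a, ∑ b, D.P a b * D.dH b = D.dH a
  dα : ∀ a, D.dα a = 2 * ∑ b, ∑ c, D.A b c * D.C a b c
  PY : ∀ a, ∑ b, D.P a b * D.Y b = D.Y a
  Y : ∀ a, D.Y a = ∑ b, ∑ c, D.A b c * D.C a b c - ∑ c, D.A a c * D.dH c
  sim : D.dY = ∑ a, ∑ b, ∑ c, D.C a b c ^ 2 - ∑ c, D.dH c ^ 2
    + (∑ a, D.A a a) * ∑ b, ∑ c, D.A b c * ∑ g, D.A b g * D.A g c - (∑ b, ∑ c, D.A b c ^ 2) ^ 2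

theorem Hyp.ok [Algebra ℝ R] {S : Pre R ι} {ν : ι → R} (h : Hyp S ν) (φ : R →+* ℝ) :
    (dat φ S ν).OK where
  Ps a b := congrArg φ (h.ds.symm a b)
  PP a b := by simpa only [dat, nA, map_sum, map_mul] using congrArg φ (h.ds.PP a b)
  As a b := congrArg φ (h.A_symm a b)
  PA a b := by simpa only [dat, nA, map_sum, map_mul] using congrArg φ (h.symT.tan b a)
  c12 a b c := congrArg φ (h.C12 a b c)
  c23 a b c := congrArg φ (h.C23 a b c)
  PC a b c := by simpa only [dat, nA, map_sum, map_mul] using congrArg φ (h.C_tan b c a)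
  trC c := by simpa only [dat, nA, map_sum] using congrArg φ (h.tr_C c)
  PH a := by simpa only [dat, nA, map_sum, map_mul] using congrArg φ (h.ds.PD a (H S ν))
  dα a := by simpa only [dat, nA, map_sum, map_mul, map_ofNat] using congrArg φ (h.D_normSq a)
  PY a := by simpa only [dat, nA, map_sum, map_mul] using congrArg φ (h.Y_tan a)
  Y a := by simpa only [dat, nA, map_sum, map_mul, map_sub] using congrArg φ (h.Y_eq a)
  sim := by
    have := congrArg φ h.simons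
    simp only [map_sub, map_add, map_mul] at this
    simpa only [dat, nA, map_sum, map_mul, H, sq] using this

theorem amgm {x P Q l l' : ℝ} (h : x ^ 2 ≤ P * Q) (hP : 0 ≤ P) (hQ : 0 ≤ Q) (hl : 0 ≤ l)
    (hl' : 0 ≤ l') (e : l * l' = 1) : -(l * P + l' * Q) ≤ 2 * x ∧ 2 * x ≤ l * P + l' * Q :=
  abs_le_of_sq_le_sq' (by nlinarith [sq_nonneg (l * P - l' * Q)]) (by positivity)

theorem scal {k H y Y p g X τ Γ E2 Cq s1 s2 s3 T Q α : ℝ} (k2 : 2 ≤ k) (k7 : k ≤ 7) (y0 : 0 ≤ y)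
    (hY : y < Y) (p1 : 1 ≤ p) (p2 : p ≤ 3 / 2) (hα : y = α - H ^ 2 / k)
    (hK : X ≤ y * ((1 + 1 / 200) * (k / (k + 2)) * Cq + (1 + (1 / 200)⁻¹) * τ)) (hE2 : E2 ≤ y * τ)
    (c1 : s1 ^ 2 ≤ X * E2) (c2 : s2 ^ 2 ≤ Γ * X) (c3 : s3 ^ 2 ≤ Γ * E2) (c4 : T ^ 2 ≤ α * Q)
    (c5 : Q ≤ α ^ 2) (n1 : 0 ≤ X) (n2 : 0 ≤ τ) (n3 : 0 ≤ Γ) (n4 : 0 ≤ Cq) (n5 : 0 ≤ α) :
    p ^ 2 * (X / Y) * g ^ 2 ≤ 199 / 200 * (g ^ 2 * (Cq - τ + H * T - α ^ 2) +
      (2 * (p - 1) * g ^ 2 * (X / Y - s1 / Y) + 2 * (g * s2) - 2 * (g * s3))) +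
        999 / 1000 * Y ^ 2 * g ^ 2 + 10 ^ 10 * (τ + H ^ 4) * g ^ 2 + 201 * Y * Γ := by
  have k0 : 0 < k := by linarith
  have Y0 : 0 < Y := y0.trans_lt hY
  have hE3 : E2 ≤ Y * τ := hE2.trans (mul_le_mul_of_nonneg_right hY.le n2)
  obtain ⟨Z, rfl⟩ : ∃ Z, X = Z * Y := ⟨X / Y, (div_mul_cancel₀ _ Y0.ne').symm⟩
  obtain ⟨s, rfl⟩ : ∃ s, s1 = s * Y := ⟨s1 / Y, (div_mul_cancel₀ _ Y0.ne').symm⟩
  rw [mul_div_cancel_right₀ _ Y0.ne', mul_div_cancel_right₀ _ Y0.ne']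
  have Z0 : 0 ≤ Z := nonneg_of_mul_nonneg_left n1 Y0
  have g0 := sq_nonneg g
  have a1 : Z ≤ 469 / 600 * Cq + 201 * τ := by
    have b1 : k / (k + 2) ≤ 7 / 9 := by rw [div_le_iff₀ (by linarith)]; linarith
    have b2 := mul_le_mul_of_nonneg_right b1 n4
    have b3 : y * ((1 + 1 / 200) * (k / (k + 2)) * Cq + (1 + (1 / 200)⁻¹) * τ) ≤
        Y * (469 / 600 * Cq + 201 * τ) :=
      mul_le_mul hY.le (by norm_num; linarith) (by positivity) Y0.le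
    exact le_of_mul_le_mul_right (by linarith) Y0
  have a2 : s ^ 2 ≤ Z * τ := by
    refine le_of_mul_le_mul_right ?_ (pow_pos Y0 2)
    linarith [mul_le_mul_of_nonneg_left hE3 n1]
  have a3 := (amgm a2 Z0 n2 (l := 1 / 100) (l' := 100) (by norm_num) (by norm_num) (by norm_num)).2
  have a4 := (amgm (x := g * s2) (P := g ^ 2 * Z) (Q := Y * Γ) (l := 1 / 200) (l' := 200)
    (by linarith [mul_le_mul_of_nonneg_left c2 g0]) (by positivity) (by positivity) (by norm_num)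
    (by norm_num) (by norm_num)).1
  have a5 := (amgm (x := g * s3) (P := g ^ 2 * τ) (Q := Y * Γ) (l := 1) (l' := 1)
    (by linarith [mul_le_mul_of_nonneg_left (c3.trans (mul_le_mul_of_nonneg_left hE3 n3)) g0])
    (by positivity) (by positivity) (by norm_num) (by norm_num) (by norm_num)).2
  have c6 := c4.trans (mul_le_mul_of_nonneg_left c5 n5)
  have a6 := (amgm (x := H * T) (P := α ^ 2) (Q := H ^ 2 * α) (l := 1 / 1000) (l' := 1000)
    (by linarith [mul_le_mul_of_nonneg_left c6 (sq_nonneg H)]) (by positivity) (by positivity) (by norm_num) (by norm_num) (by norm_num)).1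
  have a7 : α ≤ Y + H ^ 2 := by
    have : H ^ 2 / k ≤ H ^ 2 := div_le_self (sq_nonneg _) (by linarith)
    linarith
  have a8 : α ^ 2 ≤ 1001 / 1000 * Y ^ 2 + 1001 * H ^ 4 := by
    nlinarith [pow_le_pow_left₀ n5 a7 2, sq_nonneg (Y - 1000 * H ^ 2)]
  have a9 : -(1003 / 1000 * Y ^ 2 + 10 ^ 9 * H ^ 4) ≤ H * T - α ^ 2 := by
    nlinarith [sq_nonneg (α - 500000 * H ^ 2), sq_nonneg Y, sq_nonneg (H ^ 2)]
  have a10 : 2 * (p - 1) * s ≤ 1 / 200 * Z + 50 * τ := by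
    have b1 := mul_le_mul_of_nonneg_left a3 (sub_nonneg.2 p1)
    have b2 := mul_le_mul_of_nonneg_right (show p - 1 ≤ 1 / 2 by linarith)
      (show 0 ≤ 1 / 100 * Z + 100 * τ by positivity)
    linarith
  have a11 : p ^ 2 * Z ≤ 199 / 200 * (1269 / 1000 + 2 * (p - 1)) * Z :=
    mul_le_mul_of_nonneg_right (by nlinarith [mul_nonneg (sub_nonneg.2 p1) (sub_nonneg.2 p2)]) Z0
  have a12 : p ^ 2 * Z ≤ 199 / 200 * (Cq - τ + H * T - α ^ 2 + 2 * (p - 1) * (Z - s) - 1 / 200 * Z - τ) +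
      999 / 1000 * Y ^ 2 + 10 ^ 10 * (τ + H ^ 4) := by
    have : 0 ≤ H ^ 4 := by positivity
    linarith [sq_nonneg Y]
  have a13 := mul_le_mul_of_nonneg_right a12 g0
  linarith [mul_nonneg Y0.le n3]

namespace Dat.OK

variable {D : Dat ι} (h : D.OK) {k H : ℝ} (hk : ∑ a, D.P a a = k) (hH : ∑ a, D.A a a = H)
include h hk hH

theorem tf (k0 : k ≠ 0) : TF D.P (fun a b => D.A a b - H / k * D.P a b) k where
  Ps := h.Ps
  PP := h.PP
  trP := hk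
  As a b := by rw [h.As, h.Ps]
  PA a b := by simp only [mul_sub, sum_sub_distrib, h.PA, mul_left_comm _ (H / k), ← mul_sum, h.PP]
  trA := by rw [sum_sub_distrib, ← mul_sum, hk, hH, div_mul_cancel₀ _ k0, sub_self]

theorem sq_eq (k0 : k ≠ 0) : ∑ a, ∑ b, (D.A a b - H / k * D.P a b) ^ 2 =
    ∑ a, ∑ b, D.A a b ^ 2 - H ^ 2 / k := by
  have h1 := (h.tf hk hH k0).A_P
  have h2 := (h.tf hk hH k0).P_sq
  have e : ∀ a b, D.A a b ^ 2 = (D.A a b - H / k * D.P a b) ^ 2 +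
      2 * (H / k) * ((D.A a b - H / k * D.P a b) * D.P a b) + (H / k) ^ 2 * D.P a b ^ 2 :=
    fun a b => by ring
  rw [sum_congr rfl fun a _ => sum_congr rfl fun b _ => e a b]
  simp only [sum_add_distrib, ← mul_sum, h1, h2]
  have : (H / k) ^ 2 * k = H ^ 2 / k := by field_simp
  linarith

/-- **Simons + Kato**; `y = |A₀|²`, `2 G = δ y`, `γ = δ g` -/
theorem main (k2 : 2 ≤ k) (k7 : k ≤ 7) {y Y p g : ℝ} {G γ : ι → ℝ}
    (hy : ∑ a, ∑ b, (D.A a b - H / k * D.P a b) ^ 2 = y) (hY : y < Y) (p1 : 1 ≤ p) (p2 : p ≤ 3 / 2)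
    (hG : ∀ a, 2 * G a = D.dα a - 2 * H * D.dH a / k) :
    p ^ 2 * ((∑ a, G a ^ 2) / Y) * g ^ 2 ≤
      199 / 200 * (g ^ 2 * D.dY + ∑ a, (2 * (p - 1) / Y * G a * g ^ 2 + 2 * g * γ a) * D.Y a) +
        999 / 1000 * Y ^ 2 * g ^ 2 + 10 ^ 10 * (∑ a, D.dH a ^ 2 + H ^ 4) * g ^ 2 +
        201 * Y * ∑ a, γ a ^ 2 := by
  have k0 : 0 < k := by linarith
  have tf := h.tf hk hH k0.ne'
  have hα := h.sq_eq hk hH k0.ne'
  set B : ι → ι → ℝ := fun a b => D.A a b - H / k * D.P a b with hB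
  have hAB : ∀ a b, D.A a b = B a b + H / k * D.P a b := fun a b => by simp [hB]
  have hPC : ∀ a, ∑ b, ∑ c, D.P b c * D.C a b c = D.dH a := fun a => by
    rw [← h.trC]
    refine sum_congr rfl fun b _ => ?_
    rw [h.c12 a b b, ← h.PC b a b]
    exact sum_congr rfl fun c _ => by rw [h.c23 a b c, h.c12 a c b]
  have hAC : ∀ a, ∑ b, ∑ c, D.A b c * D.C a b c =
      ∑ b, ∑ c, B b c * D.C a b c + H / k * D.dH a := fun a => by
    simp only [hAB, add_mul, sum_add_distrib, mul_assoc, ← mul_sum, hPC]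
  have hG' : ∀ a, ∑ b, ∑ c, B b c * D.C a b c = G a := fun a => by
    have := hG a
    rw [h.dα, hAC] at this
    linear_combination (-1 / 2 : ℝ) * this
  set E : ι → ℝ := fun a => ∑ c, B a c * D.dH c with hE
  have hYv : ∀ a, D.Y a = G a - E a := fun a => by
    rw [h.Y, hAC, hG']
    simp only [hAB, add_mul, sum_add_distrib, mul_assoc, ← mul_sum, h.PH, hE]
    ring
  have hK := tf.kato k2 h.c12 h.c23 h.PC h.trC (η := 1 / 200) (by norm_num)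
  change ∑ a, ∑ b, B a b ^ 2 = y at hy
  simp only [hG', hy] at hK
  have hE2 : ∑ a, E a ^ 2 ≤ y * ∑ a, D.dH a ^ 2 := by
    rw [← hy, sum_mul]
    exact sum_le_sum fun a _ => sum_mul_sq_le_sq_mul_sq _ _ _
  have c1 := sum_mul_sq_le_sq_mul_sq univ G E
  have c2 := sum_mul_sq_le_sq_mul_sq univ γ G
  have c3 := sum_mul_sq_le_sq_mul_sq univ γ E
  have c4 := cs2 D.A fun b c => ∑ g, D.A b g * D.A g c
  have c5 : ∑ b, ∑ c, (∑ g, D.A b g * D.A g c) ^ 2 ≤ (∑ b, ∑ c, D.A b c ^ 2) ^ 2 := by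
    rw [sq, sum_mul_sum]
    refine sum_le_sum fun b _ => sum_le_sum fun c _ => ?_
    simp only [h.As _ c]
    exact sum_mul_sq_le_sq_mul_sq _ _ _
  have e1 : ∑ a, (2 * (p - 1) / Y * G a * g ^ 2 + 2 * g * γ a) * D.Y a =
      2 * (p - 1) * g ^ 2 * ((∑ a, G a ^ 2) / Y - (∑ a, G a * E a) / Y) +
        2 * (g * ∑ a, γ a * G a) - 2 * (g * ∑ a, γ a * E a) := by
    simp only [hYv, sum_div, mul_sum, ← sum_sub_distrib, ← sum_add_distrib]
    exact sum_congr rfl fun a _ => by ring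
  rw [e1, h.sim, hH]
  rw [hy] at hα
  have y0 : 0 ≤ y := by rw [← hy]; positivity
  have n1 : 0 ≤ ∑ a, G a ^ 2 := by positivity
  have n2 : 0 ≤ ∑ a, D.dH a ^ 2 := by positivity
  have n3 : 0 ≤ ∑ a, γ a ^ 2 := by positivity
  have n4 : 0 ≤ ∑ a, ∑ b, ∑ c, D.C a b c ^ 2 := by positivity
  have n5 : 0 ≤ ∑ b, ∑ c, D.A b c ^ 2 := by positivity
  exact scal k2 k7 y0 hY p1 p2 hα hK hE2 c1 c2 c3 c4 c5 n1 n2 n3 n4 n5

end Dat.OK

end Crest.Agent.N067.Hy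

end
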