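import Crest.Agent.N067.Y.Hyp2
import Crest.Agent.N067.A.Calc

/-!
# Row 67, block X5 (helper66): the delta-calculus on the level sets of a function
-/

set_option autoImplicit false

open Topology Filter Set
open scoped ContDiff

namespace Crest.Agent.N067.Lv

open Crest.Agent.R077 Crest.Agent.N222 Crest.Agent.N067.Hy

noncomputable section

variable {n : ℕ} {ν : Fin n → EE n → ℝ} {f g d N : EE n → ℝ} {x : EE n} {U : Set (EE n)}

/-- tangential derivative `δ_a` -/
def dl (ν : Fin n → EE n → ℝ) (a : Fin n) (f : EE n → ℝ) (x : EE n) : ℝ :=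
  pdv a f x - ν a x * ∑ b, ν b x * pdv b f x

/-- the calculus on all functions -/
def pre (ν : Fin n → EE n → ℝ) : Pre (EE n → ℝ) (Fin n) := ⟨fun a y => y a, dl ν⟩

/-- the projection -/
def Pm (ν : Fin n → EE n → ℝ) (a b : Fin n) (x : EE n) : ℝ :=
  (if a = b then 1 else 0) - ν a x * ν b x

theorem Pm_mul (z : Fin n → ℝ) (a : Fin n) :
    ∑ b, Pm ν a b x * z b = z a - ν a x * ∑ b, ν b x * z b := by
  simp [Pm, sub_mul, Finset.mul_sum, mul_assoc]

theorem dl_eq (a : Fin n) : dl ν a f x = ∑ b, Pm ν a b x * pdv b f x :=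
  (Pm_mul (fun b => pdv b f x) a).symm

theorem P_eq (a b : Fin n) : (pre ν).P a b = Pm ν a b := funext fun x => by
  change dl ν a (fun y => y b) x = _
  simp [dl_eq, pdv_coord]

theorem dl_congr (h : f =ᶠ[𝓝 x] g) (a : Fin n) : dl ν a f x = dl ν a g x := by
  simp only [dl, pdv_congr h]

theorem dl_const (c : ℝ) (a : Fin n) : dl ν a (fun _ => c) x = 0 := by simp [dl, pdv_const]

theorem dl_add (hf : DifferentiableAt ℝ f x) (hg : DifferentiableAt ℝ g x) (a : Fin n) :
    dl ν a (fun y => f y + g y) x = dl ν a f x + dl ν a g x := by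
  simp only [dl_eq, pdv_add hf hg, mul_add, Finset.sum_add_distrib]

theorem dl_sub (hf : DifferentiableAt ℝ f x) (hg : DifferentiableAt ℝ g x) (a : Fin n) :
    dl ν a (fun y => f y - g y) x = dl ν a f x - dl ν a g x := by
  simp only [dl_eq, pdv_sub hf hg, mul_sub, Finset.sum_sub_distrib]

theorem dl_mul (hf : DifferentiableAt ℝ f x) (hg : DifferentiableAt ℝ g x) (a : Fin n) :
    dl ν a (fun y => f y * g y) x = f x * dl ν a g x + dl ν a f x * g x := by
  simp only [dl_eq, pdv_mul hf hg, Finset.mul_sum, Finset.sum_mul, ← Finset.sum_add_distrib]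
  exact Finset.sum_congr rfl fun _ _ => by ring

theorem dl_comp {φ : ℝ → ℝ} {φ' : ℝ} (hφ : HasDerivAt φ φ' (f x)) (hf : DifferentiableAt ℝ f x)
    (a : Fin n) : dl ν a (fun y => φ (f y)) x = φ' * dl ν a f x := by
  simp only [dl_eq, pdv_comp hφ hf, Finset.mul_sum, mul_left_comm]

theorem sm_dl (hν : ∀ a, ContDiff ℝ ∞ (ν a)) (hf : ContDiff ℝ ∞ f) (a : Fin n) :
    ContDiff ℝ ∞ (dl ν a f) :=
  (contDiff_pdv hf (by simp) a).sub ((hν a).mul
    (ContDiff.sum fun b _ => (hν b).mul (contDiff_pdv hf (by simp) b)))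

theorem hess_symm (hf : ContDiffAt ℝ 2 f x) (a b : Fin n) :
    ∑ c, Pm ν b c x * dl ν a (pdv c f) x = ∑ c, Pm ν a c x * dl ν b (pdv c f) x := by
  simp only [dl_eq, Finset.mul_sum]
  rw [Finset.sum_comm]
  exact Finset.sum_congr rfl fun c _ => Finset.sum_congr rfl fun e _ => by
    rw [pdv_comm hf c e]; ring

/-- `ν = ∇d / N` is the unit normal of the level sets of `d` in `U` -/
structure Lev (U : Set (EE n)) (d N : EE n → ℝ) (ν : Fin n → EE n → ℝ) : Prop where
  op : IsOpen U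
  d_sm : ContDiff ℝ ∞ d
  N_sm : ContDiff ℝ ∞ N
  ν_sm : ∀ a, ContDiff ℝ ∞ (ν a)
  ne : ∀ x ∈ U, N x ≠ 0
  eq : ∀ x ∈ U, ∀ a, N x * ν a x = pdv a d x
  unit : ∀ x ∈ U, ∑ a, ν a x * ν a x = 1

/-- restriction -/
def res (U : Set (EE n)) : (EE n → ℝ) →+* (U → ℝ) := RingHom.pi fun y => Pi.evalRingHom _ y.1

/-- the calculus on all functions on `U` -/
def preU (U : Set (EE n)) (ν : Fin n → EE n → ℝ) : Pre (U → ℝ) (Fin n) :=
  ⟨fun a y => y.1 a, fun a f y => dl ν a (Function.extend Subtype.val f 0) y⟩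

theorem homU (hU : IsOpen U) : (pre ν).Hom (preU U ν) (res U) :=
  ⟨fun _ => rfl, fun a f => funext fun y => dl_congr (by
    filter_upwards [hU.mem_nhds y.2] with z hz
    exact (Subtype.val_injective.extend_apply (res U f) 0 ⟨z, hz⟩).symm) a⟩

/-- restrictions of smooth functions -/
def RU (U : Set (EE n)) : Subalgebra ℝ (U → ℝ) where
  carrier := {f | ∃ F, ContDiff ℝ ∞ F ∧ res U F = f}
  mul_mem' := by
    rintro _ _ ⟨F, hF, rfl⟩ ⟨G, hG, rfl⟩
    exact ⟨_, hF.mul hG, rfl⟩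
  add_mem' := by
    rintro _ _ ⟨F, hF, rfl⟩ ⟨G, hG, rfl⟩
    exact ⟨_, hF.add hG, rfl⟩
  algebraMap_mem' r := ⟨fun _ => r, contDiff_const, rfl⟩

/-- evaluation -/
def evS (y : U) : RU U →+* ℝ := (Pi.evalRingHom _ y).comp (RU U).val.toRingHom

theorem ext_ev {f g : RU U} (h : ∀ y, evS y f = evS y g) : f = g := Subtype.ext (funext h)

namespace Lev

variable (h : Lev U d N ν)
include h

theorem νd (a : Fin n) (x : EE n) : DifferentiableAt ℝ (ν a) x :=
  (h.ν_sm a).differentiable (by simp) x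

theorem Nd (x : EE n) : DifferentiableAt ℝ N x := h.N_sm.differentiable (by simp) x

theorem d2 (x : EE n) : ContDiffAt ℝ 2 d x := (contDiff_infty.1 h.d_sm 2).contDiffAt

theorem P_nu (hx : x ∈ U) (a : Fin n) : ∑ b, Pm ν a b x * ν b x = 0 := by
  rw [Pm_mul, h.unit x hx, mul_one, sub_self]

theorem tan (hx : x ∈ U) (z : Fin n → ℝ) (a : Fin n) :
    ∑ b, Pm ν a b x * (z b - ν b x * ∑ c, ν c x * z c) = z a - ν a x * ∑ c, ν c x * z c := by
  simp only [mul_sub, Finset.sum_sub_distrib, ← mul_assoc, ← Finset.sum_mul, h.P_nu hx, Pm_mul,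
    zero_mul, sub_zero]

theorem ev_eq (hx : x ∈ U) (c : Fin n) : pdv c d =ᶠ[𝓝 x] fun y => N y * ν c y := by
  filter_upwards [h.op.mem_nhds hx] with y hy using (h.eq y hy c).symm

theorem dl_d (hx : x ∈ U) (a : Fin n) : dl ν a d x = 0 := by
  simp only [dl_eq, ← h.eq x hx, mul_left_comm _ (N x), ← Finset.mul_sum, h.P_nu hx, mul_zero]

theorem A_symm (hx : x ∈ U) (a b : Fin n) :
    ∑ c, Pm ν b c x * dl ν a (ν c) x = ∑ c, Pm ν a c x * dl ν b (ν c) x := by
  have h1 : ∀ a b, ∑ c, Pm ν b c x * dl ν a (pdv c d) x =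
      N x * ∑ c, Pm ν b c x * dl ν a (ν c) x := fun a b => by
    simp only [fun c => dl_congr (ν := ν) (h.ev_eq hx c), dl_mul (h.Nd x) (h.νd _ x), mul_add,
      Finset.sum_add_distrib, mul_left_comm _ (dl ν a N x), mul_left_comm _ (N x),
      ← Finset.mul_sum, h.P_nu hx, mul_zero, add_zero]
  exact mul_left_cancel₀ (h.ne x hx) (by rw [← h1, ← h1, hess_symm (h.d2 x)])

theorem hess_symm' (hx : x ∈ U) (hf : ContDiff ℝ ∞ f) (a b : Fin n) :
    ∑ c, Pm ν b c x * dl ν a (dl ν c f) x = ∑ c, Pm ν a c x * dl ν b (dl ν c f) x := by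
  have hp : ∀ c, DifferentiableAt ℝ (pdv c f) x := fun c =>
    (contDiff_pdv (m := ∞) hf (by simp) c).differentiable (by simp) x
  have hs : DifferentiableAt ℝ (fun y => ∑ b, ν b y * pdv b f y) x :=
    DifferentiableAt.fun_sum fun b _ => (h.νd b x).mul (hp b)
  have h1 : ∀ a b, ∑ c, Pm ν b c x * dl ν a (dl ν c f) x = ∑ c, Pm ν b c x * dl ν a (pdv c f) x -
      (∑ c, Pm ν b c x * dl ν a (ν c) x) * ∑ b, ν b x * pdv b f x := fun a b => by
    have e : ∀ c, dl ν a (dl ν c f) x = dl ν a (pdv c f) x -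
        (ν c x * dl ν a (fun y => ∑ b, ν b y * pdv b f y) x +
          dl ν a (ν c) x * ∑ b, ν b x * pdv b f x) := fun c => by
      rw [← dl_mul (h.νd c x) hs, ← dl_sub (hp c) ((h.νd c x).fun_mul hs)]
      rfl
    simp only [e, mul_sub, mul_add, Finset.sum_sub_distrib, Finset.sum_add_distrib, ← mul_assoc,
      ← Finset.sum_mul, h.P_nu hx, zero_mul, zero_add]
  rw [h1, h1, h.A_symm hx, hess_symm (contDiff_infty.1 hf 2).contDiffAt]

/-- the calculus on smooth functions -/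
def preS : Pre (RU U) (Fin n) where
  x a := ⟨_, fun y => y a, (EuclideanSpace.proj a : EE n →L[ℝ] ℝ).contDiff, rfl⟩
  D a f := ⟨(preU U ν).D a f.1, by
    obtain ⟨_, F, hF, rfl⟩ := f
    exact ⟨_, sm_dl h.ν_sm hF a, (homU h.op).D a F⟩⟩

theorem homS : h.preS.Hom (preU U ν) (RU U).val.toRingHom := ⟨fun _ => rfl, fun _ _ => rfl⟩

theorem D_mk (hf : ContDiff ℝ ∞ f) (a : Fin n) :
    h.preS.D a ⟨_, f, hf, rfl⟩ = ⟨_, dl ν a f, sm_dl h.ν_sm hf a, rfl⟩ :=
  Subtype.ext ((homU h.op).D a f).symm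

theorem ev_P (y : U) (a b : Fin n) : evS y (h.preS.P a b) = Pm ν a b y := by
  rw [← P_eq]
  exact congrFun ((h.homS.P a b).trans ((homU h.op).P a b).symm) y

theorem hyp : Hyp h.preS fun a => ⟨_, ν a, h.ν_sm a, rfl⟩ where
  ds :=
    { add := by
        rintro a ⟨_, F, hF, rfl⟩ ⟨_, G, hG, rfl⟩
        rw [h.D_mk hF, h.D_mk hG]
        exact (h.D_mk (hF.add hG) a).trans (ext_ev fun y =>
          dl_add (hF.differentiable (by simp) _) (hG.differentiable (by simp) _) a)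
      mul := by
        rintro a ⟨_, F, hF, rfl⟩ ⟨_, G, hG, rfl⟩
        rw [h.D_mk hF, h.D_mk hG]
        exact (h.D_mk (hF.mul hG) a).trans (ext_ev fun y =>
          dl_mul (hF.differentiable (by simp) _) (hG.differentiable (by simp) _) a)
      const := fun a r => (h.D_mk (contDiff_const (c := r)) a).trans (ext_ev fun y => dl_const r a)
      symm := fun a b => ext_ev fun y => by simp only [h.ev_P, Pm, eq_comm (a := a), mul_comm]
      tan := by
        rintro ⟨_, F, hF, rfl⟩ a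
        refine ext_ev fun y => ?_
        simp only [map_sum, map_mul, h.ev_P, h.D_mk hF]
        exact h.tan y.2 _ a
      hess := by
        rintro ⟨_, F, hF, rfl⟩ a b
        refine ext_ev fun y => ?_
        simp only [Pre.hess, map_sum, map_mul, h.ev_P, h.D_mk hF, h.D_mk (sm_dl h.ν_sm hF _)]
        exact h.hess_symm' y.2 hF a b }
  P_eq a b := ext_ev fun y => by
    rw [h.ev_P, map_sub, map_mul, apply_ite (evS y), map_one, map_zero]
    rfl
  unit := ext_ev fun y => by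
    simp only [map_sum, map_mul, map_one]
    exact h.unit y y.2

/-- all the identities hold at the points of `U` -/
theorem ok (hx : x ∈ U) : (dat (Pi.evalRingHom _ x) (pre ν) ν).OK := by
  have h1 := h.hyp.ok (evS ⟨x, hx⟩)
  rw [evS, dat_hom h.homS] at h1
  have h2 := dat_hom (homU (ν := ν) h.op) (Pi.evalRingHom _ ⟨x, hx⟩) ν
  exact (h2 ▸ h1 :)

theorem pdv_N (hx : x ∈ U) (a : Fin n) : ∑ b, ν b x * pdv a (pdv b d) x = pdv a N x := by
  have h1 : (fun y => ∑ b, ν b y * ν b y) =ᶠ[𝓝 x] fun _ => 1 := by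
    filter_upwards [h.op.mem_nhds hx] with y hy using h.unit y hy
  have h2 := pdv_congr h1 a
  rw [pdv_const, pdv_sum _ fun b _ => (h.νd b x).fun_mul (h.νd b x)] at h2
  simp only [pdv_mul (h.νd _ x) (h.νd _ x), Finset.sum_add_distrib, mul_comm (pdv a _ x)] at h2
  simp only [fun c => pdv_congr (h.ev_eq hx c), pdv_mul (h.Nd x) (h.νd _ x), mul_add,
    Finset.sum_add_distrib, mul_left_comm _ (pdv a N x), mul_left_comm _ (N x), ← Finset.mul_sum,
    h.unit x hx]
  linear_combination N x / 2 * h2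

/-- the divergence of a tangential field -/
theorem div (hx : x ∈ U) {Z : Fin n → EE n → ℝ} (hZ : ∀ a, DifferentiableAt ℝ (Z a) x)
    (h0 : ∀ y ∈ U, ∑ a, ν a y * Z a y = 0) :
    ∑ a, pdv a (fun y => N y * Z a y) x = N x * ∑ a, dl ν a (Z a) x := by
  have h1 : (fun y => ∑ a, ν a y * Z a y) =ᶠ[𝓝 x] fun _ => 0 := by
    filter_upwards [h.op.mem_nhds hx] with y hy using h0 y hy
  have h2 : ∀ b, ∑ a, ν a x * pdv b (Z a) x = -∑ a, pdv b (ν a) x * Z a x := fun b => by
    have h2 := pdv_congr h1 b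
    rw [pdv_const, pdv_sum _ fun a _ => (h.νd a x).fun_mul (hZ a)] at h2
    simp only [pdv_mul (h.νd _ x) (hZ _), Finset.sum_add_distrib] at h2
    linarith
  have h3 : ∀ b, N x * ∑ a, pdv b (ν a) x * Z a x = ∑ a, pdv a (pdv b d) x * Z a x := fun b => by
    simp only [fun a => pdv_comm (h.d2 x) a b, fun c => pdv_congr (h.ev_eq hx c),
      pdv_mul (h.Nd x) (h.νd _ x), add_mul, Finset.sum_add_distrib, mul_assoc, ← Finset.mul_sum,
      h0 x hx, mul_zero, zero_add]
  have h4 : N x * ∑ a, ν a x * ∑ b, ν b x * pdv b (Z a) x = -∑ a, pdv a N x * Z a x := by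
    simp only [← h.pdv_N hx, Finset.sum_mul, Finset.mul_sum, ← Finset.sum_neg_distrib]
    rw [Finset.sum_comm, Finset.sum_comm (f := fun a b => -(ν b x * _ * _))]
    refine Finset.sum_congr rfl fun b _ => ?_
    have := h3 b
    simp only [mul_assoc, mul_left_comm _ (ν b x), Finset.sum_neg_distrib, ← Finset.mul_sum, h2]
    rw [← this]
    ring
  simp only [pdv_mul (h.Nd x) (hZ _), dl, Finset.sum_add_distrib, Finset.sum_sub_distrib, mul_sub,
    ← Finset.mul_sum, h4]
  ring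

end Lev

end

end Crest.Agent.N067.Lv
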