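import Crest.Agent.N067.Y.Defs
import Crest.Agent.N067.A.Aac

/-! # Row 67, X5: tools for NP1, NP2 (helper46) -/

set_option autoImplicit false

open MeasureTheory Laplacian InnerProductSpace Topology Filter Set Metric
open scoped RealInnerProductSpace Gradient ContDiff

namespace Crest.Agent.N067.Y.NP

open Crest.Agent.R077

noncomputable section

variable {n : ℕ} (P : Prof)

theorem hasD {y : ℝ} (hy : 0 < y) : HasDerivAt P.F (deriv P.F y) y :=
  ((P.sm.contDiffAt (Ioi_mem_nhds hy)).differentiableAt (by simp)).hasDerivAt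

theorem nonneg {y : ℝ} (hy : 0 ≤ y) : 0 ≤ P.F y := by
  rcases hy.eq_or_lt with h | h
  · rw [← h, P.zero]
  · exact (P.pos y h).le

theorem d_nonneg {y : ℝ} (hy : 0 < y) : 0 ≤ deriv P.F y := by
  have h1 := P.lo y hy
  have h2 := P.pos y hy
  by_contra h
  nlinarith [not_le.1 h]

theorem hasD_div {y : ℝ} (hy : 0 < y) (k : ℕ) : HasDerivAt (fun y => P.F y / y ^ (k + 1))
    ((y * deriv P.F y - (k + 1) * P.F y) / y ^ (k + 2)) y :=
  ((hasD P hy).div (hasDerivAt_pow (k + 1) y) (by positivity)).congr_deriv (by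
    simp only [Nat.add_sub_cancel]; push_cast; field_simp; ring)

theorem mono2 : MonotoneOn (fun y => P.F y / y ^ (1 + 1)) (Ioi 0) :=
  monotoneOn_of_deriv_nonneg (convex_Ioi 0)
    (fun _ hy => (hasD_div P hy 1).continuousAt.continuousWithinAt)
    (fun _ hy => (hasD_div P (interior_subset hy) 1).differentiableAt.differentiableWithinAt)
    fun y hy => by
      have hy' : 0 < y := interior_subset hy
      rw [(hasD_div P hy' 1).deriv]
      have := P.lo y hy'
      exact div_nonneg (by push_cast; linarith) (by positivity)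

theorem anti3 : AntitoneOn (fun y => P.F y / y ^ (2 + 1)) (Ioi 0) :=
  antitoneOn_of_deriv_nonpos (convex_Ioi 0)
    (fun _ hy => (hasD_div P hy 2).continuousAt.continuousWithinAt)
    (fun _ hy => (hasD_div P (interior_subset hy) 2).differentiableAt.differentiableWithinAt)
    fun y hy => by
      have hy' : 0 < y := interior_subset hy
      rw [(hasD_div P hy' 2).deriv]
      have := P.hi y hy'
      have := P.pos y hy'
      exact div_nonpos_of_nonpos_of_nonneg (by push_cast; linarith) (by positivity)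

theorem dn {c y : ℝ} (h0 : 0 ≤ c) (h1 : c ≤ 1) (hy : 0 ≤ y) : P.F (c * y) ≤ c ^ 2 * P.F y := by
  rcases h0.eq_or_lt with h | h
  · rw [← h]; simp [P.zero]
  rcases hy.eq_or_lt with h' | h'
  · rw [← h']; simp [P.zero]
  have := mono2 P (mul_pos h h') h' (mul_le_of_le_one_left hy h1)
  simp only at this
  rw [div_le_div_iff₀ (by positivity) (by positivity)] at this
  exact le_of_mul_le_mul_right (a := y ^ (1 + 1)) (this.trans_eq (by ring)) (by positivity)

theorem up {c y : ℝ} (h1 : 1 ≤ c) (hy : 0 ≤ y) : P.F (c * y) ≤ c ^ 3 * P.F y := by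
  rcases hy.eq_or_lt with h' | h'
  · rw [← h']; simp [P.zero]
  have hc : 0 < c := by linarith
  have := anti3 P h' (mul_pos hc h') (le_mul_of_one_le_left hy h1)
  simp only at this
  rw [div_le_div_iff₀ (by positivity) (by positivity)] at this
  exact le_of_mul_le_mul_right (a := y ^ (2 + 1)) (this.trans_eq (by ring)) (by positivity)

theorem mono {x y : ℝ} (hx : 0 ≤ x) (h : x ≤ y) : P.F x ≤ P.F y := by
  rcases (hx.trans h).eq_or_lt with h' | h'
  · rw [le_antisymm h (h' ▸ hx)]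
  have h1 : x / y ≤ 1 := (div_le_one h').2 h
  have h0 : 0 ≤ x / y := by positivity
  have := dn P h0 h1 h'.le
  rw [div_mul_cancel₀ _ h'.ne'] at this
  exact this.trans (mul_le_of_le_one_left (nonneg P h'.le) (pow_le_one₀ h0 h1))

theorem youngD {Y a δ : ℝ} (hY : 0 < Y) (ha : 0 ≤ a) (hδ : 0 < δ) (hδ1 : δ ≤ 1) :
    deriv P.F Y * a ≤ 3 * δ * P.F Y + 3 / δ ^ 2 * P.F a := by
  have h1 := P.hi Y hY
  have h2 := P.pos Y hY
  have h3 := nonneg P ha
  have h4 := d_nonneg P hY
  rcases le_total a (δ * Y) with h | h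
  · have : deriv P.F Y * a ≤ deriv P.F Y * (δ * Y) := mul_le_mul_of_nonneg_left h h4
    have : 0 ≤ 3 / δ ^ 2 * P.F a := by positivity
    nlinarith
  · have ha0 : 0 < a := lt_of_lt_of_le (by positivity) h
    have hc : δ * Y / a ≤ 1 := (div_le_one ha0).2 h
    have h5 := dn P (c := δ * Y / a) (y := δ⁻¹ * a) (by positivity) hc (by positivity)
    have h6 := up P (c := δ⁻¹) (y := a) (one_le_inv_iff₀.2 ⟨hδ, hδ1⟩) ha
    have e : δ * Y / a * (δ⁻¹ * a) = Y := by field_simp
    rw [e] at h5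
    have h7 : P.F Y ≤ δ * Y / a * (δ⁻¹ ^ 3 * P.F a) := by
      refine h5.trans ?_
      have : (δ * Y / a) ^ 2 ≤ δ * Y / a := by
        rw [sq]; exact mul_le_of_le_one_left (by positivity) hc
      exact mul_le_mul this h6 (nonneg P (by positivity)) (by positivity)
    have h8 : Y * (deriv P.F Y * a) ≤ Y * (3 / δ ^ 2 * P.F a) := by
      have e2 : Y * (3 / δ ^ 2 * P.F a) = 3 * a * (δ * Y / a * (δ⁻¹ ^ 3 * P.F a)) := by field_simp
      rw [e2]
      have := mul_le_mul_of_nonneg_left h7 (by positivity : 0 ≤ 3 * a)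
      nlinarith
    have := le_of_mul_le_mul_left h8 hY
    have : 0 ≤ 3 * δ * P.F Y := by positivity
    linarith

theorem add_le {a b : ℝ} (ha : 0 ≤ a) (hb : 0 ≤ b) : P.F (a + b) ≤ 8 * (P.F a + P.F b) := by
  have h1 := nonneg P ha
  have h2 := nonneg P hb
  rcases le_total a b with h | h
  · have := (mono P (by positivity) (by linarith : a + b ≤ 2 * b)).trans (up P (by norm_num) hb)
    linarith
  · have := (mono P (by positivity) (by linarith : a + b ≤ 2 * a)).trans (up P (by norm_num) ha)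
    linarith

theorem cd {Z : EE n → ℝ} (hZ : ContDiff ℝ 1 Z) (h0 : ∀ x, 0 < Z x) :
    ContDiff ℝ 1 fun x => P.F (Z x) :=
  (P.sm.of_le (by simp)).comp_contDiff hZ h0

theorem cont {Z : EE n → ℝ} (hZ : Continuous Z) (h0 : ∀ x, 0 < Z x) :
    Continuous fun x => P.F (Z x) := P.sm.continuousOn.comp_continuous hZ h0

/-- one-sided divergence theorem -/
theorem div_le {X : Fin n → EE n → ℝ} {h : EE n → ℝ} (hX : ∀ i, ContDiff ℝ 1 (X i))
    (hI : ∀ i, Integrable (X i)) (hh : Integrable h) (hle : ∀ x, h x ≤ ∑ i, pdv i (X i) x) :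
    ∫ x, h x ≤ 0 := by
  obtain ⟨C, hC, hb⟩ := exists_chi1_bound (n := n)
  have hpos : ∀ k : ℕ, (0 : ℝ) < k + 1 := fun k => by positivity
  have hsm : ∀ k : ℕ, ContDiff ℝ 1 fun x : EE n => 1 - chi (k + 1) x := fun k =>
    contDiff_const.sub (contDiff_chi (m := 1) _)
  have hcs : ∀ k : ℕ, HasCompactSupport fun x : EE n => 1 - chi (k + 1) x := fun k =>
    HasCompactSupport.intro (isCompact_closedBall (0 : EE n) (2 * (k + 1))) fun x hx => by
      rw [chi_one (hpos k) (by simpa using (not_le.1 (by simpa using hx)).le)]; ring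
  have h01 : ∀ (k : ℕ) (x : EE n), 0 ≤ 1 - chi (k + 1) x ∧ 1 - chi (k + 1) x ≤ 1 := fun k x =>
    ⟨by linarith [chi_le_one (k + 1) x], by linarith [chi_nonneg (k + 1) x]⟩
  have hm : ∀ k : ℕ, ∀ x, ‖h x * (1 - chi (k + 1) x)‖ ≤ ‖h x‖ := fun k x => by
    rw [norm_mul, Real.norm_of_nonneg (h01 k x).1]
    exact mul_le_of_le_one_right (norm_nonneg _) (h01 k x).2
  have t1 : Tendsto (fun k : ℕ => ∫ x, h x * (1 - chi (k + 1) x)) atTop (𝓝 (∫ x, h x)) := by
    refine tendsto_integral_of_dominated_convergence (fun x => ‖h x‖)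
      (fun k => hh.1.mul (hsm k).continuous.aestronglyMeasurable) hh.norm
      (fun k => Eventually.of_forall (hm k)) (Eventually.of_forall fun x => ?_)
    refine tendsto_const_nhds.congr' ?_
    filter_upwards [eventually_ge_atTop ⌈‖x‖⌉₊] with k hk
    rw [chi_zero (hpos k) (by linarith [Nat.ceil_le.1 hk])]; ring
  have t2 : Tendsto (fun k : ℕ => (C * ∑ i, ∫ x, ‖X i x‖) * (1 / ((k : ℝ) + 1))) atTop (𝓝 0) := by
    simpa using tendsto_one_div_add_atTop_nhds_zero_nat.const_mul (C * ∑ i, ∫ x, ‖X i x‖)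
  refine le_of_tendsto_of_tendsto' t1 t2 fun k => ?_
  have i1 : ∀ i, Integrable fun x => pdv i (X i) x * (1 - chi (k + 1) x) := fun i =>
    St.int_cs (St.continuous_pdv (hX i) i) (hsm k).continuous (hcs k)
  calc ∫ x, h x * (1 - chi (k + 1) x) ≤ ∫ x, ∑ i, pdv i (X i) x * (1 - chi (k + 1) x) :=
        integral_mono (hh.norm.mono' (hh.1.mul (hsm k).continuous.aestronglyMeasurable)
          (Eventually.of_forall (hm k))) (integrable_finsetSum _ fun i _ => i1 i) fun x => by
            simp only [← Finset.sum_mul]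
            exact mul_le_mul_of_nonneg_right (hle x) (h01 k x).1
    _ = ∑ i, -∫ x, X i x * pdv i (fun x => 1 - chi (k + 1) x) x := by
        rw [integral_finsetSum _ fun i _ => i1 i]
        exact Finset.sum_congr rfl fun i _ => ibp_right (hX i) (hsm k) (hcs k) i
    _ ≤ ∑ i, ∫ x, C * (1 / ((k : ℝ) + 1)) * ‖X i x‖ := by
        refine Finset.sum_le_sum fun i _ => (neg_le_abs _).trans ?_
        rw [← Real.norm_eq_abs]
        refine norm_integral_le_of_norm_le ((hI i).norm.const_mul _) (Eventually.of_forall fun x => ?_)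
        rw [norm_mul, mul_comm, pdv_const_sub, norm_neg, pdv_chi, norm_mul,
          Real.norm_of_nonneg (inv_pos.2 (hpos k)).le, one_div, mul_comm C]
        exact mul_le_mul_of_nonneg_right
          (mul_le_mul_of_nonneg_left (hb i _).1 (inv_pos.2 (hpos k)).le) (norm_nonneg _)
    _ = _ := by simp only [integral_const_mul, ← Finset.mul_sum]; ring

theorem intw {lam : ℝ} {om f : EE n → ℝ} (hw : Wt lam om) (hf : AEStronglyMeasurable f volume)
    (C : ℝ) (hb : ∀ x, |f x| ≤ C * om x) : Integrable f :=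
  (hw.int.const_mul C).mono' hf (Eventually.of_forall hb)

/-- continuous bounded functions times the weight are integrable -/
theorem intb {lam : ℝ} {om f : EE n → ℝ} (hw : Wt lam om) (hf : Continuous f)
    (C : ℝ) (hb : ∀ x, |f x| ≤ C) : Integrable fun x => f x * om x :=
  intw hw (hf.mul hw.cd.continuous).aestronglyMeasurable C fun x => by
    rw [abs_mul, abs_of_pos (hw.pos x)]; exact mul_le_mul_of_nonneg_right (hb x) (hw.pos x).le

variable {v : EE n → ℝ} {e β : ℝ}

theorem cut_cd (hv : Sol v) (e : ℝ) : ContDiff ℝ 1 (cut e v) :=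
  (Real.smoothTransition.contDiff (n := 1)).comp (contDiff_const.sub ((hv.tt_cd 1).div_const e))

theorem cut_nonneg (e : ℝ) (v : EE n → ℝ) (x : EE n) : 0 ≤ cut e v x :=
  Real.smoothTransition.nonneg _

theorem cut_le (e : ℝ) (v : EE n → ℝ) (x : EE n) : cut e v x ≤ 1 := Real.smoothTransition.le_one _

theorem cut_zero (he : 0 < e) {x : EE n} (h : 2 * e ≤ tt v x) : cut e v x = 0 :=
  Real.smoothTransition.zero_of_nonpos (by rw [sub_nonpos, le_div_iff₀ he]; exact h)

theorem cut_sq_le (e : ℝ) (v : EE n → ℝ) (x : EE n) : |cut e v x ^ 2| ≤ 1 := by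
  rw [abs_of_nonneg (sq_nonneg _)]; exact pow_le_one₀ (cut_nonneg e v x) (cut_le e v x)

/-- the indicator of `{e ≤ t}` -/
def ind (e : ℝ) (v : EE n → ℝ) (x : EE n) : ℝ := if e ≤ tt v x then 1 else 0

theorem exists_gin_cut (hk : HKStmt n) : ∃ M : ℝ, 0 ≤ M ∧ ∀ (v : EE n → ℝ) (e : ℝ), Sol v → 0 < e →
    ∀ x, tt v x ≤ 2 * e → |gin (dd v) (cut e v) x| ≤ M * ind e v x := by
  obtain ⟨M, hM, h⟩ := Aac.exists_deriv_bound
  obtain ⟨C, hC, hg⟩ := (Ord.usum fun i => (hk.n0 i).mul0 (hk.t2.pdv i)).bd2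
  refine ⟨M * (2 * C), by positivity, fun v e hv he x hx => ?_⟩
  have h1 : HasDerivAt (fun s => Real.smoothTransition (2 - s / e))
      (deriv Real.smoothTransition (2 - tt v x / e) * (-(1 / e))) (tt v x) :=
    ((Real.smoothTransition.contDiff (n := 1)).differentiable (by norm_num) _).hasDerivAt.comp _
      (((hasDerivAt_id (tt v x)).div_const e).const_sub 2)
  have h2 := gin_comp_right (f := dd v) h1 (hv.tt_diff x)
  have h3 : gin (dd v) (cut e v) x = _ := h2
  rw [h3]
  unfold ind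
  split_ifs with h4
  · have h5 : |gin (dd v) (tt v) x| ≤ C * tt v x := hg v hv x
    rw [abs_mul, abs_mul, abs_neg, abs_of_pos (by positivity : 0 < 1 / e), mul_one, mul_assoc]
    refine mul_le_mul (h _).1 ?_ (by positivity) hM
    rw [one_div, inv_mul_le_iff₀ he]
    nlinarith
  · rw [(h _).2 (Or.inr (by rw [lt_sub_iff_add_lt, ← lt_sub_iff_add_lt', div_lt_iff₀ he]; linarith))]
    simp

theorem ind_nonneg (e : ℝ) (v : EE n → ℝ) (x : EE n) : 0 ≤ ind e v x := by
  unfold ind; split_ifs <;> norm_num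

theorem pb_pos (hv : Sol v) (β : ℝ) (x : EE n) : 0 < pb β v x :=
  Real.rpow_pos_of_pos (hv.psi_pos x) _

theorem pb_le (hv : Sol v) (h0 : 0 ≤ β) (x : EE n) : pb β v x ≤ 1 :=
  Real.rpow_le_one (hv.psi_pos x).le (psi_le_one v x) (by linarith)

theorem sq_le_pb (hv : Sol v) (h1 : β < 1) (x : EE n) : psi v x ^ 2 ≤ pb β v x := by
  have := Real.rpow_le_rpow_of_exponent_ge (hv.psi_pos x) (psi_le_one v x)
    (by push_cast; linarith : 1 + β ≤ ((2 : ℕ) : ℝ))
  rwa [Real.rpow_natCast] at this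

theorem pb_cd (hv : Sol v) (β : ℝ) : ContDiff ℝ 1 (pb β v) :=
  (contDiff_infty.1 hv.psi_sm 1).rpow_const_of_ne fun x => (hv.psi_pos x).ne'

theorem gin_pb (hv : Sol v) (β : ℝ) (x : EE n) : gin (dd v) (pb β v) x =
    -(Real.sqrt 2 * (1 + β) * v x * (1 - tt v x)) * pb β v x := by
  have h1 := Real.hasDerivAt_rpow_const (x := psi v x) (p := 1 + β) (Or.inl (hv.psi_pos x).ne')
  have h2 : gin (dd v) (pb β v) x = _ :=
    gin_comp_right (f := dd v) h1 (hv.psi_sm.differentiable (by simp) x)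
  have h3 : gin (dd v) (psi v) x = -Real.sqrt 2 * v x * psi v x * (1 - tt v x) := by
    rw [tt_eq, sub_sub_cancel, ← gin_self]
    simp only [gin, hv.pdv_psi, Finset.mul_sum]
    exact Finset.sum_congr rfl fun i _ => by ring
  have h4 : pb β v x = psi v x ^ (1 + β - 1) * psi v x := by
    rw [← Real.rpow_add_one (hv.psi_pos x).ne']; unfold pb; congr 1; ring
  rw [h2, h3, h4]; ring

theorem abs_gin_om {lam : ℝ} {om : EE n → ℝ} (hv : Sol v) (hw : Wt lam om) (x : EE n) :
    |gin (dd v) om x| ≤ lam * om x :=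
  (abs_gin_le _ _ _).trans ((mul_le_of_le_one_left (norm_nonneg _) (hv.norm_grad_dd_le x)).trans
    (hw.lip x))

theorem abs_n_le (hv : Sol v) (i : Fin n) (x : EE n) : |pdv i (dd v) x| ≤ 1 := by
  have h1 : pdv i (dd v) x ^ 2 ≤ gsq (dd v) x :=
    Finset.single_le_sum (f := fun i => pdv i (dd v) x ^ 2) (fun _ _ => sq_nonneg _)
      (Finset.mem_univ i)
  exact (sq_le_one_iff_abs_le_one _).1 (h1.trans (hv.gsq_dd_le x))

/-- the divergence of `a G ∇d` -/
theorem div_aG (hv : Sol v) {a G : EE n → ℝ} (ha : ContDiff ℝ 1 a) (hG : ContDiff ℝ 1 G)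
    (x : EE n) : ∑ i, pdv i (fun x => a x * G x * pdv i (dd v) x) x =
      gin (dd v) a x * G x + a x * gin (dd v) G x - Real.sqrt 2 * v x * tt v x * (a x * G x) := by
  have da := ha.differentiable (by norm_num) x
  have dG := hG.differentiable (by norm_num) x
  have h1 := hv.lap_dd x
  rw [lap_eq (hv.dd_cd 2).contDiffAt] at h1
  rw [← gin_mul_right da dG]
  have h2 : ∀ i, pdv i (fun x => a x * G x * pdv i (dd v) x) x =
      pdv i (dd v) x * pdv i (fun x => a x * G x) x + a x * G x * pdv i (pdv i (dd v)) x := by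
    intro i
    rw [pdv_mul (da.fun_mul dG) ((hv.pdv_dd_sm i).differentiable (by simp) x)]; ring
  simp only [h2, Finset.sum_add_distrib, ← Finset.mul_sum, h1, gin]
  ring

/-- the normal derivative of `F(Z) cut² om` -/
theorem gin_G (hv : Sol v) {lam : ℝ} {om Z : EE n → ℝ} (hw : Wt lam om) (hZ : ContDiff ℝ 1 Z)
    (h0 : ∀ x, 0 < Z x) (e : ℝ) (x : EE n) :
    gin (dd v) (fun x => P.F (Z x) * (cut e v x ^ 2 * om x)) x =
      deriv P.F (Z x) * gin (dd v) Z x * (cut e v x ^ 2 * om x) +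
        P.F (Z x) * (2 * cut e v x * gin (dd v) (cut e v) x * om x +
          cut e v x ^ 2 * gin (dd v) om x) := by
  have dc := (cut_cd hv e).differentiable (by norm_num) x
  have dm := hw.cd.differentiable (by norm_num) x
  have dZ := hZ.differentiable (by norm_num) x
  rw [gin_mul_right ((cd P hZ h0).differentiable (by norm_num) x) ((dc.fun_pow 2).fun_mul dm),
    gin_mul_right (dc.fun_pow 2) dm, gin_comp_right (hasD P (h0 x)) dZ,
    gin_comp_right (φ := fun s => s ^ 2) (hasDerivAt_pow 2 _) dc]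
  simp

/-- integrated form: `h ≤ div (a G ∇d)` gives `∫ h ≤ 0` -/
theorem int_le (hv : Sol v) {lam A : ℝ} {om a G h : EE n → ℝ} (hw : Wt lam om) (ha : ContDiff ℝ 1 a)
    (hG : ContDiff ℝ 1 G) (hb : ∀ x, |a x * G x| ≤ A * om x) (hh : Integrable h)
    (hle : ∀ x, h x ≤ gin (dd v) a x * G x + a x * gin (dd v) G x -
      Real.sqrt 2 * v x * tt v x * (a x * G x)) : ∫ x, h x ≤ 0 := by
  have hX : ∀ i, ContDiff ℝ 1 fun x => a x * G x * pdv i (dd v) x := fun i =>
    (ha.mul hG).mul (contDiff_infty.1 (hv.pdv_dd_sm i) 1)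
  refine div_le hX (fun i => intw hw (hX i).continuous.aestronglyMeasurable A fun x => ?_) hh
    fun x => by rw [div_aG hv ha hG]; exact hle x
  rw [abs_mul]
  exact (mul_le_of_le_one_right (abs_nonneg _) (abs_n_le hv i x)).trans (hb x)

theorem int_TT (hv : Pos v) {lam : ℝ} {om : EE n → ℝ} (hw : Wt lam om) (h0 : 0 ≤ β) :
    Integrable fun x => P.F (pb β v x * tt v x) * om x := by
  have hp : ∀ x, 0 < pb β v x * tt v x := fun x => mul_pos (pb_pos hv.toSol β x) (hv.tpos x)
  refine intb hw (cont P ((pb_cd hv.toSol β).continuous.mul hv.continuous_tt) hp) (P.F 1) fun x => ?_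
  rw [abs_of_nonneg (nonneg P (hp x).le)]
  exact mono P (hp x).le (mul_le_one₀ (pb_le hv.toSol h0 x) (hv.tpos x).le (tt_le_one v x))

theorem int_pb (hv : Sol v) {lam : ℝ} {om : EE n → ℝ} (hw : Wt lam om) (h0 : 0 ≤ β) :
    Integrable fun x => P.F (pb β v x) * om x := by
  refine intb hw (cont P (pb_cd hv β).continuous (pb_pos hv β)) (P.F 1) fun x => ?_
  rw [abs_of_nonneg (nonneg P (pb_pos hv β x).le)]
  exact mono P (pb_pos hv β x).le (pb_le hv h0 x)

theorem ind_mul (e : ℝ) (v f : EE n → ℝ) :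
    (fun x => ind e v x * f x) = indicator {x | e ≤ tt v x} f := by
  funext x; unfold ind indicator; simp

theorem meas_t (hv : Sol v) (e : ℝ) : MeasurableSet {x | e ≤ tt v x} :=
  (isClosed_le continuous_const hv.continuous_tt).measurableSet

theorem int_BAD (hv : Sol v) {lam : ℝ} {om : EE n → ℝ} (hw : Wt lam om) (h0 : 0 ≤ β) (e : ℝ) :
    Integrable fun x => ind e v x * (P.F (pb β v x) * om x) := by
  rw [ind_mul]; exact (int_pb P hv hw h0).indicator (meas_t hv e)

theorem BAD_eq (hv : Sol v) (om : EE n → ℝ) (β e : ℝ) :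
    BAD β v P om e = ∫ x, ind e v x * (P.F (pb β v x) * om x) := by
  rw [ind_mul, integral_indicator (meas_t hv e)]; rfl

/-- the three error terms of the normal derivative -/
theorem abs_gin_G (hv : Sol v) {lam M δ a : ℝ} {om Z : EE n → ℝ} (hw : Wt lam om)
    (h0 : ∀ x, 0 < Z x) (x : EE n) {g : ℝ} (hδ : 0 < δ) (hδ1 : δ ≤ 1) (hg : |g| ≤ a)
    (hc : |gin (dd v) (cut e v) x| ≤ M * ind e v x) :
    |deriv P.F (Z x) * g * (cut e v x ^ 2 * om x) +
        P.F (Z x) * (2 * cut e v x * gin (dd v) (cut e v) x * om x +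
          cut e v x ^ 2 * gin (dd v) om x)| ≤
      (3 * δ + lam) * (P.F (Z x) * (cut e v x ^ 2 * om x)) +
        3 / δ ^ 2 * (P.F a * (cut e v x ^ 2 * om x)) + 2 * M * (ind e v x * (P.F (Z x) * om x)) := by
  have h1 := hw.pos x
  have h2 := cut_nonneg e v x
  have h3 := (P.pos _ (h0 x)).le
  have h4 : |deriv P.F (Z x) * g| ≤ 3 * δ * P.F (Z x) + 3 / δ ^ 2 * P.F a := by
    rw [abs_mul, abs_of_nonneg (d_nonneg P (h0 x))]
    exact (mul_le_mul_of_nonneg_left hg (d_nonneg P (h0 x))).trans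
      (youngD P (h0 x) ((abs_nonneg _).trans hg) hδ hδ1)
  have h5 : |2 * cut e v x * gin (dd v) (cut e v) x * om x| ≤ 2 * (M * ind e v x) * om x := by
    rw [abs_mul, abs_mul, abs_of_pos h1, abs_of_nonneg (by positivity : 0 ≤ 2 * cut e v x)]
    refine mul_le_mul_of_nonneg_right ?_ h1.le
    exact mul_le_mul (by linarith [cut_le e v x]) hc (abs_nonneg _) (by norm_num)
  have h6 : |cut e v x ^ 2 * gin (dd v) om x| ≤ cut e v x ^ 2 * (lam * om x) := by
    rw [abs_mul, abs_of_nonneg (sq_nonneg _)]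
    exact mul_le_mul_of_nonneg_left (abs_gin_om hv hw x) (sq_nonneg _)
  refine (abs_add_le _ _).trans ?_
  rw [abs_mul, abs_mul (P.F (Z x)), abs_of_nonneg h3,
    abs_of_nonneg (by positivity : 0 ≤ cut e v x ^ 2 * om x)]
  have h7 := mul_le_mul_of_nonneg_right h4 (by positivity : 0 ≤ cut e v x ^ 2 * om x)
  have h8 := mul_le_mul_of_nonneg_left ((abs_add_le _ _).trans (add_le_add h5 h6)) h3
  linarith

/-- `F (p K t √t) ≤ K'³ t F (p t)` -/
theorem F_sqrt {p K t : ℝ} (hp : 0 ≤ p) (hK : 1 ≤ K) (h0 : 0 ≤ t) (h1 : t ≤ 1) :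
    P.F (p * (K * (t * √t))) ≤ K ^ 3 * (t * P.F (p * t)) := by
  have h2 := up P hK (y := √t * (p * t)) (by positivity)
  have h3 := dn P (Real.sqrt_nonneg t) (Real.sqrt_le_one.2 h1) (y := p * t) (by positivity)
  rw [Real.sq_sqrt h0] at h3
  have e : p * (K * (t * √t)) = K * (√t * (p * t)) := by ring
  rw [e]
  exact h2.trans (mul_le_mul_of_nonneg_left h3 (by positivity))

end

end Crest.Agent.N067.Y.NP
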