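import Crest.Agent.N067.Y.Defs

/-!
# Row 67, block X5 (helper62): the statement YB and the equation of `Ω = ∇d ∧ ∇t`
-/

set_option autoImplicit false

open MeasureTheory Laplacian InnerProductSpace Topology Filter Set
open scoped RealInnerProductSpace Gradient ContDiff

namespace Crest.Agent.N067.Y

open Crest.Agent.R077

noncomputable section

variable {n : ℕ}

namespace Om

variable {v f g : EE n → ℝ} {x : EE n} {a : ℕ} {F : Fam n}

theorem c2 (hf : ContDiff ℝ ∞ f) (x : EE n) : ContDiffAt ℝ 2 f x :=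
  (contDiff_infty.1 hf 2).contDiffAt

theorem df (hf : ContDiff ℝ ∞ f) (x : EE n) : DifferentiableAt ℝ f x :=
  hf.differentiable (by simp) x

theorem sm_pdv (hf : ContDiff ℝ ∞ f) (i : Fin n) : ContDiff ℝ ∞ (pdv i f) :=
  contDiff_pdv hf (by simp) i

theorem lm_mul (hf : ContDiffAt ℝ 2 f x) (hg : ContDiffAt ℝ 2 g x) :
    Lm v (fun y => f y * g y) x = Lm v f x * g x + 2 * gin f g x + f x * Lm v g x := by
  rw [Lm_eq, Lm_eq, Lm_eq, lap_mul' hf hg,
    gin_mul_right (hf.differentiableAt (by simp)) (hg.differentiableAt (by simp))]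
  ring

theorem lm_sub (hf : ContDiffAt ℝ 2 f x) (hg : ContDiffAt ℝ 2 g x) :
    Lm v (fun y => f y - g y) x = Lm v f x - Lm v g x := by
  rw [Lm_eq, Lm_eq, Lm_eq, lap_sub' hf hg,
    gin_sub_right (hf.differentiableAt (by simp)) (hg.differentiableAt (by simp))]
  ring

theorem lm_cmul (hf : ContDiffAt ℝ 2 f x) (c : ℝ) :
    Lm v (fun y => c * f y) x = c * Lm v f x := by
  rw [Lm_eq, Lm_eq, lap_const_mul hf, gin_const_mul_right (hf.differentiableAt (by simp))]
  ring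

theorem gin_sum {ι : Type*} (s : Finset ι) {G : ι → EE n → ℝ}
    (hG : ∀ k ∈ s, DifferentiableAt ℝ (G k) x) :
    gin f (fun y => ∑ k ∈ s, G k y) x = ∑ k ∈ s, gin f (G k) x := by
  simp only [gin, pdv_sum s hG, Finset.mul_sum]
  exact Finset.sum_comm

theorem gin_sq (hg : DifferentiableAt ℝ g x) :
    gin f (fun y => g y ^ 2) x = 2 * g x * gin f g x := by
  simp only [gin, pdv_sq hg, Finset.mul_sum]
  exact Finset.sum_congr rfl fun i _ => by ring

theorem lm_sum {ι : Type*} (s : Finset ι) {G : ι → EE n → ℝ}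
    (hG : ∀ k ∈ s, ContDiffAt ℝ 2 (G k) x) :
    Lm v (fun y => ∑ k ∈ s, G k y) x = ∑ k ∈ s, Lm v (G k) x := by
  rw [Lm_eq, lap_sum s hG, gin_sum s fun k hk => (hG k hk).differentiableAt (by simp)]
  simp only [Lm_eq, Finset.mul_sum, Finset.sum_sub_distrib]

theorem lm_sq (hf : ContDiffAt ℝ 2 f x) :
    Lm v (fun y => f y ^ 2) x = 2 * f x * Lm v f x + 2 * gsq f x := by
  have h := lm_mul (v := v) hf hf
  simp only [← sq, gin_self] at h
  rw [h]; ring

/-- Lagrange's identity -/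
theorem tg_eq (v f : EE n → ℝ) (x : EE n) : 2 * tg v f x = ∑ i, ∑ j, wg v f i j x ^ 2 := by
  have e : ∀ i j, wg v f i j x ^ 2 = pdv i (dd v) x ^ 2 * pdv j f x ^ 2 +
      pdv i f x ^ 2 * pdv j (dd v) x ^ 2 -
      2 * ((pdv i (dd v) x * pdv i f x) * (pdv j (dd v) x * pdv j f x)) := fun i j => by
    rw [wg]; ring
  simp only [e, Finset.sum_sub_distrib, Finset.sum_add_distrib, ← Finset.mul_sum,
    ← Finset.sum_mul, tg, tt_eq, gsq, gin]
  ring

theorem tg_nonneg (v f : EE n → ℝ) (x : EE n) : 0 ≤ tg v f x := by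
  have h := tg_eq v f x
  have : 0 ≤ ∑ i, ∑ j, wg v f i j x ^ 2 := by positivity
  linarith

theorem wg_sq_le (v f : EE n → ℝ) (i j : Fin n) (x : EE n) : wg v f i j x ^ 2 ≤ 2 * tg v f x := by
  rw [tg_eq]
  refine le_trans ?_ (Finset.single_le_sum (f := fun i => ∑ j, wg v f i j x ^ 2)
    (fun i _ => by positivity) (Finset.mem_univ i))
  exact Finset.single_le_sum (f := fun j => wg v f i j x ^ 2) (fun j _ => by positivity)
    (Finset.mem_univ j)

/-! ### orders -/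

section Ords

variable (hk : HKStmt n)
include hk

theorem o_psi : Ord 0 fun v : EE n → ℝ => psi v := (Ord.const 1).sub hk.v0.sq

theorem o_b : Ord 2 fun v : EE n → ℝ => hsq (dd v) :=
  Ord.usum fun i => Ord.usum fun j => (hk.b1 i j).sq

theorem o_gin (hF : Ord a F) : Ord a fun v => gin (dd v) (F v) :=
  Ord.usum fun i => (hk.n0 i).mul0 (hF.pdv i)

theorem o_wg (hF : Ord a F) (i j : Fin n) : Ord a fun v => wg v (F v) i j :=
  ((hk.n0 i).mul0 (hF.pdv j)).sub ((hk.n0 j).mul0 (hF.pdv i))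

/-- a gain in the normal direction survives differentiation -/
theorem o_nor_pdv (hF : Ord a F) (hN : Ord (a + 1) fun v => gin (dd v) (F v)) (j : Fin n) :
    Ord (a + 1) fun v => gin (dd v) (pdv j (F v)) := by
  refine ((hN.pdv j).sub (Ord.usum fun l => (hk.b1 j l).mul' (hF.pdv l) (by omega))).congr'
    fun v hv x => ?_
  rw [pdv_gin (c2 hv.dd_sm x) (c2 (hF.sm hv) x), ← Finset.sum_sub_distrib, gin]
  refine Finset.sum_congr rfl fun l _ => ?_
  rw [pdv_comm (c2 (hF.sm hv) x) j l, hs]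
  ring

theorem o_nor_n (i : Fin n) : Ord 2 fun v => gin (dd v) (pdv i (dd v)) :=
  ((hk.t2.pdv i).const_mul (-1 / 2)).congr' fun v hv x => by rw [hv.pdv_tt]; ring

theorem o_nor_B (i j : Fin n) : Ord 2 fun v => gin (dd v) (hs (dd v) i j) := by
  refine (((o_nor_n hk j).pdv i).sub
    (Ord.usum fun l => (hk.b1 i l).mul (hk.b1 l j))).congr' fun v hv x => ?_
  rw [pdv_gin (c2 hv.dd_sm x) (c2 (hv.pdv_dd_sm j) x), ← Finset.sum_sub_distrib, gin]
  refine Finset.sum_congr rfl fun l _ => ?_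
  rw [pdv_comm (c2 (hv.pdv_dd_sm j) x) i l]
  simp only [hs]
  have e : hs (dd v) i j = pdv i (pdv j (dd v)) := rfl
  rw [e]
  ring

theorem o_nor_b : Ord 3 fun v : EE n → ℝ => gin (dd v) (hsq (dd v)) := by
  refine (Ord.usum fun i => Ord.usum fun j =>
    (((hk.b1 i j).const_mul 2).mul (o_nor_B hk i j))).congr' fun v hv x => ?_
  change _ = gin (dd v) (fun y => ∑ i, ∑ j, hs (dd v) i j y ^ 2) x
  rw [gin_sum _ fun i _ => DifferentiableAt.fun_sum fun j _ => (df (hv.hs_sm i j) x).fun_pow 2]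
  refine Finset.sum_congr rfl fun i _ => ?_
  rw [gin_sum _ fun j _ => (df (hv.hs_sm i j) x).fun_pow 2]
  exact Finset.sum_congr rfl fun j _ => (gin_sq (df (hv.hs_sm i j) x)).symm

theorem o_nor_wg (i j : Fin n) : Ord 3 fun v => gin (dd v) (wg v (hsq (dd v)) i j) := by
  have h : ∀ i j : Fin n, Ord 3 fun v => gin (dd v) fun y =>
      pdv i (dd v) y * pdv j (hsq (dd v)) y := fun i j =>
    (((o_nor_n hk i).mul' ((o_b hk).pdv j) (by omega)).add
      ((hk.n0 i).mul0 (o_nor_pdv hk (o_b hk) (o_nor_b hk) j))).congr' fun v hv x =>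
      (gin_mul_right (df (hv.pdv_dd_sm i) x) (df (sm_pdv hv.hsq_sm j) x)).symm
  exact ((h i j).sub (h j i)).congr' fun v hv x => (gin_sub_right
    ((df (hv.pdv_dd_sm i) x).mul (df (sm_pdv hv.hsq_sm j) x))
    ((df (hv.pdv_dd_sm j) x).mul (df (sm_pdv hv.hsq_sm i) x))).symm

theorem o_tg : Ord 4 fun v : EE n → ℝ => tg v (hsq (dd v)) :=
  ((Ord.usum fun i => Ord.usum fun j => (o_wg hk (o_b hk) i j).sq).const_mul (1 / 2)).congr'
    fun v _ x => by rw [← tg_eq]; ring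

end Ords

/-- a common bound for a finite family -/
theorem ubd3 {ι : Type} [Fintype ι] {G : ι → Fam n} (h : ∀ k, Ord 3 (G k)) :
    ∃ C : ℝ, 0 ≤ C ∧ ∀ v, Sol v → ∀ x, ∑ k, |G k v x| ≤ C * (tt v x * √(tt v x)) := by
  choose C h0 hC using fun k => (h k).bd3
  refine ⟨∑ k, C k, Finset.sum_nonneg fun k _ => h0 k, fun v hv x => ?_⟩
  rw [Finset.sum_mul]
  exact Finset.sum_le_sum fun k _ => hC k v hv x

theorem ubd2 {ι : Type} [Fintype ι] {G : ι → Fam n} (h : ∀ k, Ord 2 (G k)) :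
    ∃ C : ℝ, 0 ≤ C ∧ ∀ v, Sol v → ∀ x, ∑ k, |G k v x| ≤ C * tt v x := by
  choose C h0 hC using fun k => (h k).bd2
  refine ⟨∑ k, C k, Finset.sum_nonneg fun k _ => h0 k, fun v hv x => ?_⟩
  rw [Finset.sum_mul]
  exact Finset.sum_le_sum fun k _ => hC k v hv x

theorem yb_pos (v : EE n → ℝ) {ε : ℝ} (hε : 0 < ε) (x : EE n) : 0 < yb v ε x :=
  Real.sqrt_pos.2 (by have := tg_nonneg v (hsq (dd v)) x; positivity)

theorem yb_sq (v : EE n → ℝ) (ε : ℝ) (x : EE n) :
    yb v ε x ^ 2 = tg v (hsq (dd v)) x + ε ^ 2 :=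
  Real.sq_sqrt (by have := tg_nonneg v (hsq (dd v)) x; positivity)

theorem abs_wg_le (v : EE n → ℝ) (ε : ℝ) (i j : Fin n) (x : EE n) :
    |wg v (hsq (dd v)) i j x| ≤ 2 * yb v ε x := by
  refine abs_le_of_sq_le_sq' ?_ (mul_nonneg zero_le_two (Real.sqrt_nonneg _)) |> abs_le.2
  have h1 := wg_sq_le v (hsq (dd v)) i j x
  have h2 := tg_nonneg v (hsq (dd v)) x
  rw [mul_pow, yb_sq]
  nlinarith [sq_nonneg ε]

/-- the equation of `∂_j t` -/
theorem lm_tj (hv : Sol v) (j : Fin n) (x : EE n) :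
    Lm v (pdv j (tt v)) x = 2 * psi v x * pdv j (dd v) x * gin (dd v) (tt v) x +
      2 * √2 * v x * gin (pdv j (dd v)) (tt v) x +
      2 * (pdv j (psi v) x * (tt v x - tt v x ^ 2) + psi v x * (1 - 2 * tt v x) * pdv j (tt v) x)
      - 2 * pdv j (hsq (dd v)) x := by
  have e : Δ (tt v) = fun y => 2 * (psi v y * (tt v y - tt v y ^ 2)) - 2 * hsq (dd v) y +
      2 * √2 * (v y * gin (dd v) (tt v) y) := funext fun y => by
    have h := hv.Lm_tt y
    rw [Lm_eq, qq] at h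
    linarith
  have d1 := df hv.psi_sm x
  have d2 := df hv.tt_sm x
  have d3 := df hv.hsq_sm x
  have d4 := df hv.sm x
  have d5 : DifferentiableAt ℝ (gin (dd v) (tt v)) x :=
    (contDiffAt_gin (m := 1) (c2 hv.dd_sm x) (c2 hv.tt_sm x) (by norm_num)).differentiableAt
      (by simp)
  have d6 : DifferentiableAt ℝ (fun y => tt v y - tt v y ^ 2) x := d2.sub (d2.pow 2)
  have e2 : pdv j (gin (dd v) (tt v)) x =
      gin (pdv j (dd v)) (tt v) x + gin (dd v) (pdv j (tt v)) x := by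
    rw [pdv_gin (c2 hv.dd_sm x) (c2 hv.tt_sm x), gin, gin, ← Finset.sum_add_distrib]
    refine Finset.sum_congr rfl fun l _ => ?_
    rw [pdv_comm (c2 hv.dd_sm x) j l, pdv_comm (c2 hv.tt_sm x) j l]
  rw [Lm_eq, lap_pdv (hv.tt_cd 3).contDiffAt, e,
    pdv_add (((d1.fun_mul d6).const_mul 2).fun_sub (d3.const_mul 2))
      ((d4.fun_mul d5).const_mul _),
    pdv_sub ((d1.fun_mul d6).const_mul 2) (d3.const_mul 2), pdv_const_mul (d1.fun_mul d6),
    pdv_const_mul d3, pdv_const_mul (d4.fun_mul d5), pdv_mul d1 d6, pdv_mul d4 d5,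
    pdv_sub d2 (d2.fun_pow 2), pdv_sq d2, e2, hv.pdv_v]
  have h2 := sqrt2_pos
  field_simp
  ring

/-- the remainder in the equation of `Ω` -/
def RR (i j : Fin n) : Fam n := fun v x =>
  -Lm v (wg v (tt v) i j) x + 2 * psi v x * wg v (tt v) i j x - 2 * wg v (hsq (dd v)) i j x

theorem o_RR (hk : HKStmt n) (i j : Fin n) : Ord 3 (RR i j) := by
  have h1 : ∀ i j : Fin n, Ord 3 fun v => gin (pdv i (dd v)) (pdv j (tt v)) := fun i j =>
    Ord.usum fun l => (hk.b1 l i).mul ((hk.t2.pdv j).pdv l)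
  have h2 : ∀ i j : Fin n, Ord 3 fun v x => pdv i (dd v) x * gin (pdv j (dd v)) (tt v) x :=
    fun i j => (hk.n0 i).mul0 (Ord.usum fun l => (hk.b1 l j).mul (hk.t2.pdv l))
  refine ((((((o_psi hk).mul0 hk.t2).mul' (o_wg hk hk.t2 i j) (c := 3) (by omega)).const_mul 5).sub
    (((h1 i j).sub (h1 j i)).const_mul 2)).sub
    ((hk.v0.mul0 ((h2 i j).sub (h2 j i))).const_mul (2 * √2))).congr' fun v hv x => ?_
  have cn := fun i => c2 (hv.pdv_dd_sm i) x
  have ct := fun i => c2 (sm_pdv hv.tt_sm i) x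
  have e : Lm v (wg v (tt v) i j) x = _ := lm_sub ((cn i).mul (ct j)) ((cn j).mul (ct i))
  rw [RR, e, lm_mul (cn i) (ct j), lm_mul (cn j) (ct i), lm_tj hv, lm_tj hv, hv.Lm_pdv,
    hv.Lm_pdv, hv.pdv_psi, hv.pdv_psi]
  simp only [wg, qq]
  ring

/-- Kato's inequality for the drift Laplacian -/
theorem kato {ι : Type} [Fintype ι] {U : ι → EE n → ℝ} (hU : ∀ k, ContDiff ℝ ∞ (U k))
    (hp : ∀ x, 0 < ∑ k, U k x ^ 2) {u : EE n → ℝ} (hu : u = fun x => √(∑ k, U k x ^ 2)) :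
    ContDiff ℝ ∞ u ∧ ∀ x, 0 < u x ∧ (∀ k, |U k x| ≤ u x) ∧ gsq u x ≤ ∑ k, gsq (U k) x ∧
      ∀ c : ℝ, u x * (-Lm v u x + c * u x) ≤ ∑ k, U k x * (-Lm v (U k) x + c * U k x) := by
  have hs : ContDiff ℝ ∞ u := by
    rw [hu]
    exact (ContDiff.sum fun k _ => (hU k).pow 2).sqrt fun x => (hp x).ne'
  have h2 : ∀ x, u x ^ 2 = ∑ k, U k x ^ 2 := fun x => by rw [hu]; exact Real.sq_sqrt (hp x).le
  have h0 : ∀ x, 0 < u x := fun x => by rw [hu]; exact Real.sqrt_pos.2 (hp x)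
  have h3 : (fun x => u x ^ 2) = fun x => ∑ k, U k x ^ 2 := funext h2
  refine ⟨hs, fun x => ?_⟩
  have h4 : gsq u x ≤ ∑ k, gsq (U k) x := by
    simp only [gsq]
    rw [Finset.sum_comm]
    refine Finset.sum_le_sum fun l _ => ?_
    have e := pdv_sq (df hs x) l
    rw [h3, pdv_sum _ fun k _ => (df (hU k) x).fun_pow 2] at e
    simp only [pdv_sq (df (hU _) x), mul_assoc, ← Finset.mul_sum] at e
    have e' : u x * pdv l u x = ∑ k, U k x * pdv l (U k) x := by linarith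
    have c := Finset.sum_mul_sq_le_sq_mul_sq Finset.univ (fun k => U k x) fun k => pdv l (U k) x
    rw [← e', ← h2, mul_pow] at c
    exact le_of_mul_le_mul_left c (pow_pos (h0 x) 2)
  refine ⟨h0 x, fun k => ?_, h4, fun c => ?_⟩
  · refine abs_le.2 (abs_le_of_sq_le_sq' ?_ (h0 x).le)
    rw [h2]
    exact Finset.single_le_sum (f := fun k => U k x ^ 2) (fun k _ => by positivity)
      (Finset.mem_univ k)
  · have e := lm_sq (v := v) (c2 hs x)
    rw [h3, lm_sum _ fun k _ => (c2 (hU k) x).pow 2] at e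
    simp only [lm_sq (c2 (hU _) x), Finset.sum_add_distrib, mul_assoc, ← Finset.mul_sum] at e
    have e2 : ∑ k, U k x * (-Lm v (U k) x + c * U k x) =
        -∑ k, U k x * Lm v (U k) x + c * ∑ k, U k x ^ 2 := by
      rw [Finset.mul_sum, ← Finset.sum_neg_distrib, ← Finset.sum_add_distrib]
      exact Finset.sum_congr rfl fun k _ => by ring
    rw [e2, ← h2]
    nlinarith

end Om

open Om in
/-- **YB** -/
theorem ybS (hk : HKStmt n) : YBStmt n := by
  obtain ⟨C1, h1, b1⟩ := (o_tg hk).bd4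
  obtain ⟨C2, h2, b2⟩ := ubd3 (ι := Fin n × Fin n) fun p => o_nor_wg hk p.1 p.2
  obtain ⟨C3, h3, b3⟩ := (o_nor_b hk).bd3
  refine ⟨1 + C1 + C2 + C3, by linarith, fun v ε hv hε => ?_⟩
  have hS := hv.toSol
  have hp : ∀ x, 0 < tg v (hsq (dd v)) x + ε ^ 2 := fun x => by
    have := tg_nonneg v (hsq (dd v)) x; positivity
  have sT := (o_tg hk).sm hS
  have sm : ContDiff ℝ ∞ (yb v ε) := (sT.add contDiff_const).sqrt fun x => (hp x).ne'
  refine ⟨contDiff_infty.1 sm 1, fun x => ?_⟩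
  have ht := hv.tpos x
  have hts : 0 ≤ tt v x * √(tt v x) := by positivity
  have hy := yb_pos v hε x
  refine ⟨hy, ?_, ?_, (b3 v hS x).trans (by gcongr; linarith)⟩
  · refine (abs_le_of_sq_le_sq' ?_ (by positivity)).2
    have := (le_abs_self _).trans (b1 v hS x)
    have h4 : C1 ≤ (1 + C1 + C2 + C3) ^ 2 := by nlinarith
    have h5 : 1 ≤ (1 + C1 + C2 + C3) ^ 2 := by nlinarith
    rw [yb_sq, mul_pow]
    nlinarith [mul_le_mul_of_nonneg_right h4 (sq_nonneg (tt v x)),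
      mul_le_mul_of_nonneg_right h5 (sq_nonneg ε),
      mul_nonneg (mul_nonneg (sq_nonneg (1 + C1 + C2 + C3)) ht.le) hε.le]
  · have sw := fun i j => (o_wg hk (o_b hk) i j).sm hS
    have e1 := gin_sq (f := dd v) (df sm x)
    have e2 : (fun y => yb v ε y ^ 2) =
        fun y => 1 / 2 * (∑ p : Fin n × Fin n, wg v (hsq (dd v)) p.1 p.2 y ^ 2) + ε ^ 2 :=
      funext fun y => by rw [yb_sq, Fintype.sum_prod_type, ← tg_eq]; ring
    have dS : DifferentiableAt ℝ
        (fun y => ∑ p : Fin n × Fin n, wg v (hsq (dd v)) p.1 p.2 y ^ 2) x :=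
      DifferentiableAt.fun_sum fun p _ => (df (sw p.1 p.2) x).fun_pow 2
    rw [e2, gin_add_right (dS.const_mul _) (differentiableAt_const _), gin_const_mul_right dS,
      gin_sum _ fun p _ => (df (sw p.1 p.2) x).fun_pow 2] at e1
    have e3 : gin (dd v) (fun _ => ε ^ 2) x = 0 := by simp [gin, pdv_const]
    simp only [gin_sq (df (sw _ _) x), e3, mul_assoc, ← Finset.mul_sum] at e1
    have e4 : |∑ p : Fin n × Fin n, wg v (hsq (dd v)) p.1 p.2 x *
        gin (dd v) (wg v (hsq (dd v)) p.1 p.2) x| ≤ 2 * yb v ε x * (C2 * (tt v x * √(tt v x))) := by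
      refine (Finset.abs_sum_le_sum_abs _ _).trans
        (le_trans ?_ (mul_le_mul_of_nonneg_left (b2 v hS x) (by positivity)))
      rw [Finset.mul_sum]
      refine Finset.sum_le_sum fun p _ => ?_
      rw [abs_mul]
      exact mul_le_mul_of_nonneg_right (abs_wg_le v ε _ _ x) (abs_nonneg _)
    have e5 : ∑ p : Fin n × Fin n, wg v (hsq (dd v)) p.1 p.2 x *
        gin (dd v) (wg v (hsq (dd v)) p.1 p.2) x = 2 * yb v ε x * gin (dd v) (yb v ε) x := by
      linarith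
    rw [e5, abs_mul, abs_of_pos (by positivity : 0 < 2 * yb v ε x)] at e4
    exact (le_of_mul_le_mul_left e4 (by positivity)).trans (by gcongr; linarith)

end

end Crest.Agent.N067.Y
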