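import Crest.Agent.N067.Y.Lev
import Crest.Agent.N067.Y.Defs
import Crest.Agent.N067.A.HKS

/-!
# Row 67, block X5 (helper66): the second fundamental form of the level sets of `d`
-/

set_option autoImplicit false

open Laplacian Topology Filter Set
open scoped ContDiff

namespace Crest.Agent.N067.Y.SK

open Crest.Agent.R077 Crest.Agent.N222 Crest.Agent.N067.Lv

noncomputable section

variable {n : ℕ} {v f g : EE n → ℝ} {x : EE n}

/-- `1` for `t ≤ 1/2`, `0` for `t ≥ 3/4` -/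
def ch (t : ℝ) : ℝ := Real.smoothTransition (3 - 4 * t)

/-- `√(1 - t)` for `t ≤ 1/2` -/
def Nf (t : ℝ) : ℝ := √(1 - t * ch t)

/-- `1 / √(1 - t)` for `t ≤ 1/2` -/
def iN (t : ℝ) : ℝ := (Nf t)⁻¹

/-- `(iN t - 1) / t` -/
def jf (t : ℝ) : ℝ := ch t / (Nf t * (1 + Nf t))

/-- coefficient of `⟨∇d, ∇t⟩` in the mean curvature -/
def kf (t : ℝ) : ℝ := deriv iN t - iN t ^ 2 * deriv iN t * (1 - t) + iN t ^ 3 / 2

theorem base_pos (t : ℝ) : 0 < 1 - t * ch t := by
  have h0 : 0 ≤ ch t := Real.smoothTransition.nonneg _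
  have h1 : ch t ≤ 1 := Real.smoothTransition.le_one _
  rcases le_total t (3 / 4) with h | h
  · nlinarith
  · rw [ch, Real.smoothTransition.zero_of_nonpos (by linarith)]
    norm_num

theorem Nf_pos (t : ℝ) : 0 < Nf t := Real.sqrt_pos.2 (base_pos t)

theorem Nf_sq {t : ℝ} (h : t ≤ 1 / 2) : Nf t ^ 2 = 1 - t := by
  rw [Nf, Real.sq_sqrt (base_pos t).le, ch, Real.smoothTransition.one_of_one_le (by linarith),
    mul_one]

theorem sm_ch : ContDiff ℝ ∞ ch :=
  Real.smoothTransition.contDiff.comp (contDiff_const.sub (contDiff_const.mul contDiff_id))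

theorem sm_Nf : ContDiff ℝ ∞ Nf :=
  (contDiff_const.sub (contDiff_id.mul sm_ch)).sqrt fun t => (base_pos t).ne'

theorem sm_iN : ContDiff ℝ ∞ iN := sm_Nf.inv fun t => (Nf_pos t).ne'

theorem sm_iN' : ContDiff ℝ ∞ (deriv iN) := (contDiff_infty_iff_deriv.1 sm_iN).2

theorem sm_jf : ContDiff ℝ ∞ jf := sm_ch.div (sm_Nf.mul (contDiff_const.add sm_Nf)) fun t => by
  have := Nf_pos t
  positivity

theorem sm_kf : ContDiff ℝ ∞ kf :=
  (sm_iN'.sub (((sm_iN.pow 2).mul sm_iN').mul (contDiff_const.sub contDiff_id))).add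
    ((sm_iN.pow 3).div_const 2)

theorem iN_eq (t : ℝ) : iN t = 1 + t * jf t := by
  have h1 : Nf t ^ 2 = 1 - t * ch t := Real.sq_sqrt (base_pos t).le
  have h2 := Nf_pos t
  rw [iN, jf]
  field_simp
  linear_combination -h1

/-- the unit normal -/
def nu (v : EE n → ℝ) (a : Fin n) (x : EE n) : ℝ := iN (tt v x) * pdv a (dd v) x

/-- the second fundamental form -/
def AA (a b : Fin n) : Fam n := fun v => dl (nu v) a (nu v b)

/-- the mean curvature -/
def HH : Fam n := fun v x => ∑ a, AA a a v x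

/-- the trace-free part -/
def A0 (a b : Fin n) : Fam n := fun v x => AA a b v x - HH v x / (n - 1) * Pm (nu v) a b x

/-- `|A₀|²` -/
def yy : Fam n := fun v x => ∑ a, ∑ b, A0 a b v x ^ 2

/-- `⟨∇d, ∇t⟩` -/
def ss : Fam n := fun v => gin (dd v) (tt v)

theorem lev (h : Sol v) : Lev {x | tt v x < 1 / 2} (dd v) (fun x => Nf (tt v x)) (nu v) where
  op := isOpen_lt h.tt_sm.continuous continuous_const
  d_sm := h.dd_sm
  N_sm := sm_Nf.comp h.tt_sm
  ν_sm a := (sm_iN.comp h.tt_sm).mul (h.pdv_dd_sm a)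
  ne _ _ := (Nf_pos _).ne'
  eq x _ a := by rw [nu, iN, mul_inv_cancel_left₀ (Nf_pos _).ne']
  unit x hx := by
    have h1 := Nf_sq (le_of_lt hx)
    have h2 := Nf_pos (tt v x)
    have h3 : ∑ a, nu v a x * nu v a x = iN (tt v x) ^ 2 * gsq (dd v) x := by
      rw [gsq, Finset.mul_sum]
      exact Finset.sum_congr rfl fun a _ => by rw [nu]; ring
    have h4 : gsq (dd v) x = Nf (tt v x) ^ 2 := by rw [h1, tt_eq, sub_sub_cancel]
    rw [h3, h4, iN, inv_pow, inv_mul_cancel₀ (by positivity)]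

theorem nB (h : Sol v) (b : Fin n) (x : EE n) :
    ∑ c, pdv c (dd v) x * hs (dd v) c b x = -pdv b (tt v) x / 2 := by
  rw [h.pdv_tt, gin]
  simp only [hs]
  ring

theorem hs_symm (h : Sol v) (a b : Fin n) (x : EE n) : hs (dd v) a b x = hs (dd v) b a x :=
  pdv_comm (h.dd_cd 2).contDiffAt a b

theorem AA_eq (h : Sol v) (a b : Fin n) (x : EE n) : AA a b v x = iN (tt v x) * hs (dd v) a b x +
    pdv b (dd v) x * (deriv iN (tt v x) * pdv a (tt v) x -
      iN (tt v x) ^ 2 * deriv iN (tt v x) * (pdv a (dd v) x * ss v x)) +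
    pdv a (dd v) x * (iN (tt v x) ^ 3 / 2 * pdv b (tt v) x) := by
  have h0 := (sm_iN.differentiable (by simp) (tt v x)).hasDerivAt
  have h1 : ∀ c, pdv c (nu v b) x =
      deriv iN (tt v x) * pdv c (tt v) x * pdv b (dd v) x + iN (tt v x) * hs (dd v) c b x := fun c => by
    rw [← pdv_comp h0 (h.tt_diff x)]
    exact pdv_mul (h0.differentiableAt.comp x (h.tt_diff x))
      ((h.pdv_dd_sm b).differentiable (by simp) x) c
  have h2 : ∀ c, nu v c x * pdv c (nu v b) x =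
      iN (tt v x) * deriv iN (tt v x) * pdv b (dd v) x * (pdv c (dd v) x * pdv c (tt v) x) +
        iN (tt v x) ^ 2 * (pdv c (dd v) x * hs (dd v) c b x) := fun c => by
    rw [h1, nu]; ring
  simp only [AA, dl, h2, Finset.sum_add_distrib, ← Finset.mul_sum, nB h]
  rw [h1, nu, ss, gin]
  ring

theorem tr_hs (h : Sol v) (x : EE n) : ∑ a, hs (dd v) a a x = -√2 * v x * tt v x := by
  rw [← h.lap_dd, lap_eq (h.dd_cd 2).contDiffAt]
  rfl

theorem HH_eq (h : Sol v) (x : EE n) :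
    HH v x = -√2 * (v x * (tt v x * iN (tt v x))) + kf (tt v x) * ss v x := by
  have e : ∀ a, AA a a v x = iN (tt v x) * hs (dd v) a a x +
      (deriv iN (tt v x) + iN (tt v x) ^ 3 / 2) * (pdv a (dd v) x * pdv a (tt v) x) -
      iN (tt v x) ^ 2 * deriv iN (tt v x) * ss v x * pdv a (dd v) x ^ 2 := fun a => by
    rw [AA_eq h]; ring
  have e2 : ∑ a, pdv a (dd v) x ^ 2 = 1 - tt v x := by rw [tt_eq, sub_sub_cancel, gsq]
  simp only [HH, e, Finset.sum_add_distrib, Finset.sum_sub_distrib, ← Finset.mul_sum, tr_hs h, e2]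
  rw [kf, ss, gin]
  ring

/-! ### orders -/

theorem oc {φ : ℝ → ℝ} (hφ : ContDiff ℝ ∞ φ) : Ord 0 fun (v : EE n → ℝ) x => φ (tt v x) :=
  ((hkS n).t2.mono (by norm_num)).comp hφ

theorem o_n {a : ℕ} {F : Fam n} (h : Ord a F) : Ord a fun v => gin (dd v) (F v) :=
  Ord.usum fun i => ((hkS n).n0 i).mul0 (h.pdv i)

theorem o_ss : Ord 2 (ss : Fam n) := o_n (hkS n).t2

theorem o_nu (a : Fin n) : Ord 0 fun v => nu v a := (oc sm_iN).mul0 ((hkS n).n0 a)

theorem o_Pm (a b : Fin n) : Ord 0 fun v => Pm (nu v) a b :=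
  (Ord.const _).sub ((o_nu a).mul0 (o_nu b))

theorem o_dl {k : ℕ} {F : Fam n} (h : Ord k F) (a : Fin n) : Ord k fun v => dl (nu v) a (F v) :=
  (h.pdv a).sub ((o_nu a).mul0 (Ord.usum fun b => (o_nu b).mul0 (h.pdv b)))

theorem o_HH : Ord 2 (HH : Fam n) :=
  ((((hkS n).v0.mul0 ((hkS n).t2.mulr0 (oc sm_iN))).const_mul _).add
    ((oc sm_kf).mul0 o_ss)).congr' fun _ h x => (HH_eq h x).symm

theorem o_p (a : Fin n) : Ord 2 fun (v : EE n → ℝ) x => deriv iN (tt v x) * pdv a (tt v) x -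
    iN (tt v x) ^ 2 * deriv iN (tt v x) * (pdv a (dd v) x * ss v x) :=
  ((oc sm_iN').mul0 ((hkS n).t2.pdv a)).sub
    ((oc ((sm_iN.pow 2).mul sm_iN')).mul0 (((hkS n).n0 a).mul0 o_ss))

theorem o_q (b : Fin n) : Ord 2 fun (v : EE n → ℝ) x => iN (tt v x) ^ 3 / 2 * pdv b (tt v) x :=
  (oc ((sm_iN.pow 3).div_const 2)).mul0 ((hkS n).t2.pdv b)

theorem o_tj : Ord 2 fun (v : EE n → ℝ) x => tt v x * jf (tt v x) := (hkS n).t2.mulr0 (oc sm_jf)

theorem o_r (a b : Fin n) : Ord 2 fun v x => A0 a b v x - hs (dd v) a b x :=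
  ((((o_tj.mulr0 (((hkS n).b1 a b).mono (by norm_num))).add (((hkS n).n0 b).mul0 (o_p a))).add
    (((hkS n).n0 a).mul0 (o_q b))).sub ((o_HH.div_const (n - 1)).mulr0 (o_Pm a b))).congr'
    fun v h x => by
      rw [A0, AA_eq h]
      linear_combination -hs (dd v) a b x * iN_eq (tt v x)

theorem o_A0 (a b : Fin n) : Ord 1 (A0 a b) :=
  (((o_r a b).mono (by norm_num)).add ((hkS n).b1 a b)).congr' fun _ _ _ => sub_add_cancel _ _

theorem o_AA (a b : Fin n) : Ord 1 (AA a b) :=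
  ((o_A0 a b).add (((o_HH.div_const (n - 1)).mulr0 (o_Pm a b)).mono (by norm_num))).congr'
    fun _ _ _ => sub_add_cancel _ _

theorem o_yy : Ord 2 (yy : Fam n) := Ord.usum fun a => Ord.usum fun b => (o_A0 a b).sq

theorem o_hsq : Ord 2 fun v : EE n → ℝ => hsq (dd v) :=
  Ord.usum fun a => Ord.usum fun b => ((hkS n).b1 a b).sq

theorem Br_eq (h : Sol v) (x : EE n) :
    ∑ a, ∑ b, hs (dd v) a b x * (A0 a b v x - hs (dd v) a b x) =
      tt v x * jf (tt v x) * hsq (dd v) x -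
      ∑ a, pdv a (tt v) x / 2 * (deriv iN (tt v x) * pdv a (tt v) x -
        iN (tt v x) ^ 2 * deriv iN (tt v x) * (pdv a (dd v) x * ss v x)) -
      ∑ b, pdv b (tt v) x / 2 * (iN (tt v x) ^ 3 / 2 * pdv b (tt v) x) -
      HH v x / (n - 1) * (-√2 * (v x * tt v x) + iN (tt v x) ^ 2 / 2 * ss v x) := by
  set p := fun a => deriv iN (tt v x) * pdv a (tt v) x -
    iN (tt v x) ^ 2 * deriv iN (tt v x) * (pdv a (dd v) x * ss v x) with hp
  set q := fun b => iN (tt v x) ^ 3 / 2 * pdv b (tt v) x with hq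
  have e : ∀ a b, hs (dd v) a b x * (A0 a b v x - hs (dd v) a b x) =
      tt v x * jf (tt v x) * hs (dd v) a b x ^ 2 + pdv b (dd v) x * hs (dd v) b a x * p a +
        pdv a (dd v) x * hs (dd v) a b x * q b -
        HH v x / (n - 1) * (if a = b then hs (dd v) a b x else 0) + HH v x / (n - 1) *
          iN (tt v x) ^ 2 * (pdv a (dd v) x * (pdv b (dd v) x * hs (dd v) b a x)) := fun a b => by
    rw [A0, AA_eq h, Pm, nu, nu, hs_symm h b a]
    split_ifs <;> linear_combination hs (dd v) a b x ^ 2 * iN_eq (tt v x)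
  have e1 : ∑ a, ∑ b, pdv a (dd v) x * hs (dd v) a b x * q b = ∑ b, -pdv b (tt v) x / 2 * q b := by
    rw [Finset.sum_comm]
    simp only [← Finset.sum_mul, nB h]
  have e2 : ∑ a, pdv a (dd v) x * (-pdv a (tt v) x / 2) = -ss v x / 2 := by
    simp only [ss, gin, Finset.sum_div, ← Finset.sum_neg_distrib]
    exact Finset.sum_congr rfl fun a _ => by ring
  change _ = _ - ∑ a, _ * p a - ∑ b, _ * q b - _
  simp only [e, Finset.sum_add_distrib, Finset.sum_sub_distrib, e1]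
  simp only [← Finset.mul_sum, ← Finset.sum_mul, nB h, e2, Finset.sum_ite_eq, Finset.mem_univ,
    if_true, tr_hs h]
  simp only [neg_div, neg_mul, Finset.sum_neg_distrib, hsq]
  ring

theorem o_cmp : Ord 4 fun (v : EE n → ℝ) x => yy v x - hsq (dd v) x := by
  have h1 : Ord 4 fun (v : EE n → ℝ) x =>
      ∑ a, ∑ b, hs (dd v) a b x * (A0 a b v x - hs (dd v) a b x) :=
    ((((o_tj.mul o_hsq).sub (Ord.usum fun a => (((hkS n).t2.pdv a).div_const 2).mul (o_p a))).sub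
      (Ord.usum fun b => (((hkS n).t2.pdv b).div_const 2).mul (o_q b))).sub
      ((o_HH.div_const (n - 1)).mul ((((hkS n).v0.mul0 (hkS n).t2).const_mul _).add
        ((oc ((sm_iN.pow 2).div_const 2)).mul0 o_ss)))).congr' fun _ h x => (Br_eq h x).symm
  refine ((h1.const_mul 2).add (Ord.usum fun a => Ord.usum fun b => (o_r a b).sq)).congr'
    fun v _ x => ?_
  simp only [yy, hsq, Finset.mul_sum, ← Finset.sum_add_distrib, ← Finset.sum_sub_distrib]
  exact Finset.sum_congr rfl fun a _ => Finset.sum_congr rfl fun b _ => by ring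

theorem o_nB (a b : Fin n) : Ord 2 fun v : EE n → ℝ => gin (dd v) (hs (dd v) a b) := by
  refine (((((hkS n).t2.pdv b).pdv a).div_const (-2)).sub
    (Ord.usum fun c => ((hkS n).b1 a c).mul ((hkS n).b1 c b))).congr' fun v h x => ?_
  have h1 : pdv b (tt v) = fun y => -2 * gin (dd v) (pdv b (dd v)) y := funext (h.pdv_tt b)
  have h2 : ContDiffAt ℝ 2 (pdv b (dd v)) x := (contDiff_infty.1 (h.pdv_dd_sm b) 2).contDiffAt
  rw [h1, pdv_const_mul ((contDiffAt_gin (m := 1) (h.dd_cd 2).contDiffAt h2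
    (by norm_num)).differentiableAt (by norm_num)), pdv_gin (h.dd_cd 2).contDiffAt h2]
  simp only [pdv_comm h2 a, Finset.sum_add_distrib, gin, hs]
  change _ = ∑ c, pdv c (dd v) x * pdv c (pdv a (pdv b (dd v))) x
  ring

theorem unif {ι : Type} [Fintype ι] {k : ℕ} {F : ι → Fam n} (h : ∀ i, Ord k (F i)) :
    ∃ C : ℝ, 0 ≤ C ∧ ∀ v, Sol v → ∀ i x, |F i v x| ≤ C * √(tt v x) ^ k := by
  choose C h0 hC using fun i => (h i).bd
  exact ⟨∑ i, C i, Finset.sum_nonneg fun i _ => h0 i, fun v hv i x => (hC i v hv x).trans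
    (mul_le_mul_of_nonneg_right (Finset.single_le_sum (fun i _ => h0 i) (Finset.mem_univ i))
      (by positivity))⟩

theorem yy_nonneg (v : EE n → ℝ) (x : EE n) : 0 ≤ yy v x := by rw [yy]; positivity

theorem abs_le_sqrt2 {F : Fin n → Fin n → ℝ} (h : ∀ i j, 0 ≤ F i j) {y : ℝ} {i j : Fin n}
    (hy : y ^ 2 ≤ F i j) : |y| ≤ √(∑ i, ∑ j, F i j) :=
  Real.abs_le_sqrt (hy.trans ((Finset.single_le_sum (fun j _ => h i j) (Finset.mem_univ j)).trans
    (Finset.single_le_sum (f := fun i => ∑ j, F i j) (fun i _ => Finset.sum_nonneg fun j _ => h i j)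
      (Finset.mem_univ i))))

theorem nor : ∃ K : ℝ, 0 ≤ K ∧ ∀ v : EE n → ℝ, Sol v → ∀ x,
    |gin (dd v) (yy v) x| ≤ K * (√(yy v x) * tt v x) := by
  have h1 : ∀ p : Fin n × Fin n, Ord 2 fun v => gin (dd v) (A0 p.1 p.2 v) := fun p =>
    ((o_n (o_r p.1 p.2)).add (o_nB p.1 p.2)).congr' fun v h x => by
      rw [gin_sub_right ((o_A0 _ _).diff h x) (((hkS n).b1 _ _).diff h x), sub_add_cancel]
  obtain ⟨C, h0, hC⟩ := unif h1
  refine ⟨n * (n * (2 * C)), by positivity, fun v h x => ?_⟩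
  have e : gin (dd v) (yy v) x = ∑ a, ∑ b, 2 * A0 a b v x * gin (dd v) (A0 a b v) x := by
    have e1 : ∀ c, pdv c (yy v) x = ∑ a, ∑ b, 2 * A0 a b v x * pdv c (A0 a b v) x := fun c => by
      refine (pdv_sum _ (fun a _ => DifferentiableAt.fun_sum fun b _ =>
        ((o_A0 a b).diff h x).fun_pow 2) c).trans (Finset.sum_congr rfl fun a _ => ?_)
      rw [pdv_sum _ fun b _ => ((o_A0 a b).diff h x).fun_pow 2]
      exact Finset.sum_congr rfl fun b _ => pdv_sq ((o_A0 a b).diff h x) c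
    simp only [gin, e1, Finset.mul_sum]
    rw [Finset.sum_comm]
    refine Finset.sum_congr rfl fun a _ => ?_
    rw [Finset.sum_comm]
    exact Finset.sum_congr rfl fun b _ => Finset.sum_congr rfl fun c _ => by ring
  have e2 : ∀ a b, |2 * A0 a b v x * gin (dd v) (A0 a b v) x| ≤ 2 * C * (√(yy v x) * tt v x) :=
    fun a b => by
      have h2 := hC v h (a, b) x
      have h3 : |A0 a b v x| ≤ √(yy v x) := abs_le_sqrt2 (fun _ _ => sq_nonneg _) le_rfl
      rw [Real.sq_sqrt (h.tt_nonneg x)] at h2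
      rw [abs_mul, abs_mul, abs_two]
      linarith [mul_le_mul h3 h2 (abs_nonneg _) (Real.sqrt_nonneg _)]
  rw [e]
  refine (Finset.abs_sum_le_sum_abs _ _).trans ((Finset.sum_le_sum fun a _ =>
    (Finset.abs_sum_le_sum_abs _ _).trans (Finset.sum_le_sum fun b _ => e2 a b)).trans_eq ?_)
  simp only [Finset.sum_const, Finset.card_univ, Fintype.card_fin, nsmul_eq_mul]
  ring

/-- Lagrange's identity -/
theorem tg_eq (v f : EE n → ℝ) (x : EE n) : tg v f x = (∑ i, ∑ j, wg v f i j x ^ 2) / 2 := by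
  have e : ∀ i j, wg v f i j x ^ 2 = pdv i (dd v) x ^ 2 * pdv j f x ^ 2 +
      pdv i f x ^ 2 * pdv j (dd v) x ^ 2 -
      2 * (pdv i (dd v) x * pdv i f x * (pdv j (dd v) x * pdv j f x)) := fun i j => by
    rw [wg]; ring
  simp only [e, Finset.sum_add_distrib, Finset.sum_sub_distrib, ← Finset.mul_sum, ← Finset.sum_mul]
  rw [tg, tt_eq, gin, gsq, gsq]
  ring

theorem tg_nonneg (v f : EE n → ℝ) (x : EE n) : 0 ≤ tg v f x := by rw [tg_eq]; positivity

theorem tg_le (h : Sol v) (f : EE n → ℝ) (x : EE n) : tg v f x ≤ gsq f x := by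
  rw [tg]
  nlinarith [mul_nonneg (h.tt_nonneg x) (gsq_nonneg f x), sq_nonneg (gin (dd v) f x)]

theorem tg_sub_le (hf : DifferentiableAt ℝ f x) (hg : DifferentiableAt ℝ g x) :
    tg v (fun y => f y - g y) x ≤ 2 * tg v f x + 2 * tg v g x := by
  have e : ∀ i j, wg v (fun y => f y - g y) i j x ^ 2 ≤
      2 * wg v f i j x ^ 2 + 2 * wg v g i j x ^ 2 := fun i j => by
    have : wg v (fun y => f y - g y) i j x = wg v f i j x - wg v g i j x := by
      simp only [wg, pdv_sub hf hg]; ring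
    rw [this]
    nlinarith [sq_nonneg (wg v f i j x + wg v g i j x)]
  have := Finset.sum_le_sum fun i (_ : i ∈ Finset.univ) =>
    Finset.sum_le_sum fun j (_ : j ∈ Finset.univ) => e i j
  simp only [Finset.sum_add_distrib, ← Finset.mul_sum] at this
  simp only [tg_eq]
  linarith

theorem cmp' : ∃ K : ℝ, 0 ≤ K ∧ ∀ v : EE n → ℝ, Sol v → ∀ x,
    tg v (hsq (dd v)) x ≤ 2 * tg v (yy v) x + K * tt v x ^ 4 := by
  obtain ⟨C, h0, hC⟩ := (o_cmp (n := n)).gsq.bd
  refine ⟨2 * C, by positivity, fun v h x => ?_⟩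
  have h1 := tg_sub_le (v := v) (o_yy.diff h x) (o_cmp.diff h x)
  have h2 := (le_abs_self _).trans (hC v h x)
  rw [show 4 + 4 = 2 * 4 from rfl, pow_mul, Real.sq_sqrt (h.tt_nonneg x)] at h2
  simp only [sub_sub_cancel] at h1
  linarith [tg_le h (fun x => yy v x - hsq (dd v) x) x]

theorem wg_ss (h : Sol v) (i j : Fin n) (x : EE n) : wg v (ss v) i j x =
    ∑ c, (pdv c (dd v) x * pdv c (wg v (tt v) i j) x + hs (dd v) j c x * wg v (tt v) i c x -
      hs (dd v) i c x * wg v (tt v) j c x) := by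
  have d2 := (h.dd_cd 2).contDiffAt (x := x)
  have t2 := (h.tt_cd 2).contDiffAt (x := x)
  have e : ∀ c, pdv c (wg v (tt v) i j) x = hs (dd v) i c x * pdv j (tt v) x +
      pdv i (dd v) x * pdv j (pdv c (tt v)) x -
      (hs (dd v) j c x * pdv i (tt v) x + pdv j (dd v) x * pdv i (pdv c (tt v)) x) := fun c => by
    refine (pdv_sub ((diffAt_pdv d2 i).fun_mul (diffAt_pdv t2 j))
      ((diffAt_pdv d2 j).fun_mul (diffAt_pdv t2 i)) c).trans ?_
    rw [pdv_mul (diffAt_pdv d2 i) (diffAt_pdv t2 j), pdv_mul (diffAt_pdv d2 j) (diffAt_pdv t2 i),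
      pdv_comm t2 c, pdv_comm t2 c, pdv_comm d2 c, pdv_comm d2 c]
    rfl
  have e0 : ∑ c, (pdv c (dd v) x * hs (dd v) c i x * pdv j (tt v) x -
      pdv c (dd v) x * hs (dd v) c j x * pdv i (tt v) x) = 0 := by
    simp only [Finset.sum_sub_distrib, ← Finset.sum_mul, nB h]
    ring
  rw [wg, ss, pdv_gin d2 t2, pdv_gin d2 t2, Finset.mul_sum, Finset.mul_sum,
    ← Finset.sum_sub_distrib, ← add_zero (∑ c, _), ← mul_zero 2, ← e0, Finset.mul_sum,
    ← Finset.sum_add_distrib]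
  refine Finset.sum_congr rfl fun c _ => ?_
  simp only [e, wg, hs, pdv_comm d2 c]
  ring

theorem wg_HH (h : Sol v) (i j : Fin n) (x : EE n) : wg v (HH v) i j x =
    (-√2 * (v x * (iN (tt v x) + tt v x * deriv iN (tt v x))) + deriv kf (tt v x) * ss v x) *
      wg v (tt v) i j x + kf (tt v x) * wg v (ss v) i j x := by
  have h0 := (sm_iN.differentiable (by simp) (tt v x)).hasDerivAt
  have h1 := (sm_kf.differentiable (by simp) (tt v x)).hasDerivAt
  have h2 := h0.differentiableAt.fun_comp' x (h.tt_diff x)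
  have h3 := h1.differentiableAt.fun_comp' x (h.tt_diff x)
  have h4 := (h.diff x).fun_mul ((h.tt_diff x).fun_mul h2)
  rw [funext (HH_eq h)]
  simp only [wg, pdv_add (h4.const_mul _) (h3.fun_mul (o_ss.diff h x)), pdv_const_mul h4,
    pdv_mul (h.diff x) ((h.tt_diff x).fun_mul h2), pdv_mul (h.tt_diff x) h2,
    pdv_mul h3 (o_ss.diff h x), pdv_comp h0 (h.tt_diff x), pdv_comp h1 (h.tt_diff x), h.pdv_v]
  ring

theorem dH : ∃ K : ℝ, 0 ≤ K ∧ ∀ v : EE n → ℝ, Sol v → ∀ x, tg v (HH v) x ≤ K * os v x := by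
  obtain ⟨C1, p1, h1⟩ := ((((hkS n).v0.mul0 ((oc sm_iN).add (((hkS n).t2.mono (by norm_num)).mul0
    (oc sm_iN')))).const_mul (-√2)).add ((oc (contDiff_infty_iff_deriv.1 sm_kf).2).mul0
      (o_ss.mono (by norm_num)))).bd0
  obtain ⟨C2, p2, h2⟩ := (oc (n := n) sm_kf).bd0
  obtain ⟨C3, p3, h3⟩ := unif fun p : Fin n × Fin n => ((hkS n).b1 p.1 p.2).mono (Nat.zero_le 1)
  obtain ⟨C4, p4, h4⟩ := unif (hkS n).n0
  refine ⟨n * (n * (C1 + C2 * (n * (C4 + C3 + C3))) ^ 2), by positivity, fun v h x => ?_⟩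
  have o0 : ∀ i j, 0 ≤ wg v (tt v) i j x ^ 2 + gsq (wg v (tt v) i j) x := fun i j =>
    add_nonneg (sq_nonneg _) (gsq_nonneg _ _)
  have o1 : ∀ i j, |wg v (tt v) i j x| ≤ √(os v x) := fun i j =>
    abs_le_sqrt2 o0 (le_add_of_nonneg_right (gsq_nonneg _ _))
  have o2 : ∀ i j c, |pdv c (wg v (tt v) i j) x| ≤ √(os v x) := fun i j c =>
    abs_le_sqrt2 o0 (le_add_of_nonneg_of_le (sq_nonneg _) (Finset.single_le_sum
      (f := fun c => pdv c (wg v (tt v) i j) x ^ 2) (fun _ _ => sq_nonneg _) (Finset.mem_univ c)))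
  have o3 : 0 ≤ os v x := Finset.sum_nonneg fun i _ => Finset.sum_nonneg fun j _ => o0 i j
  have m : ∀ {a b C : ℝ}, |a| ≤ C → |b| ≤ √(os v x) → |a * b| ≤ C * √(os v x) := fun ha hb => by
    rw [abs_mul]
    exact mul_le_mul ha hb (abs_nonneg _) ((abs_nonneg _).trans ha)
  simp only [pow_zero, mul_one] at h3 h4
  have o4 : ∀ i j, |wg v (ss v) i j x| ≤ n * (C4 + C3 + C3) * √(os v x) := fun i j => by
    rw [wg_ss h]
    refine (Finset.abs_sum_le_sum_abs _ _).trans ((Finset.sum_le_sum fun c _ =>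
      (abs_sub _ _).trans (add_le_add ((abs_add_le _ _).trans (add_le_add (m (h4 v h c x) (o2 i j c))
        (m (h3 v h (j, c) x) (o1 i c)))) (m (h3 v h (i, c) x) (o1 j c)))).trans_eq ?_)
    simp only [Finset.sum_const, Finset.card_univ, Fintype.card_fin, nsmul_eq_mul]
    ring
  have o5 : ∀ i j, wg v (HH v) i j x ^ 2 ≤ (C1 + C2 * (n * (C4 + C3 + C3))) ^ 2 * os v x :=
    fun i j => by
      rw [← Real.sq_sqrt o3, ← mul_pow, ← sq_abs, wg_HH h]
      refine pow_le_pow_left₀ (abs_nonneg _) ((abs_add_le _ _).trans ?_) 2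
      have a1 := m (h1 v h x) (o1 i j)
      have a2 := mul_le_mul (h2 v h x) (o4 i j) (abs_nonneg _) p2
      rw [← abs_mul] at a2
      linarith
  have := Finset.sum_le_sum fun i (_ : i ∈ Finset.univ) =>
    Finset.sum_le_sum fun j (_ : j ∈ Finset.univ) => o5 i j
  simp only [Finset.sum_const, Finset.card_univ, Fintype.card_fin, nsmul_eq_mul] at this
  have h5 := tg_nonneg v (HH v) x
  rw [tg_eq] at h5 ⊢
  linarith

end

end Crest.Agent.N067.Y.SK
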