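import Crest.Agent.N067.Y.Defs
import Crest.Agent.N067.A.HKS
import Crest.Agent.N067.A.Dual

/-!
# Row 67, block X5, ST (helper16): definitions and the statements of the pieces

`Pi x = x - (1 - h) d(x) ∇d(x)`, test function `w = z ∘ Pi · eta`.
-/

set_option autoImplicit false

open MeasureTheory Laplacian InnerProductSpace Topology Filter Set
open scoped RealInnerProductSpace Gradient ContDiff

namespace Crest.Agent.N067.Y.St

open Crest.Agent.R077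

noncomputable section

variable {n : ℕ}

/-- the compression map -/
def Pi (h : ℝ) (v : EE n → ℝ) (x : EE n) : EE n := x - ((1 - h) * dd v x) • ∇ (dd v) x

/-- the Hessian of `d` as a linear map -/
def Bm (v : EE n → ℝ) (x : EE n) : EE n →L[ℝ] EE n := fderiv ℝ (∇ (dd v)) x

/-- good points -/
def Gd (g κ : ℝ) (v : EE n → ℝ) (x : EE n) : Prop :=
  (1 + |dd v x|) ^ 4 * Real.exp (g * |dd v x|) * tt v x ≤ κ

/-- the argument of the cut, `e t / ψ^g` -/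
def uu (e g : ℝ) (v : EE n → ℝ) (x : EE n) : ℝ := e * tt v x / psi v x ^ g

/-- the cut: `1` if `uu ≤ 1`, `0` if `uu ≥ 2` -/
def eta (e g : ℝ) (v : EE n → ℝ) (x : EE n) : ℝ := Real.smoothTransition (2 - uu e g v x)

/-- the quadratic form of St1 -/
def Qf (ε C : ℝ) (v w : EE n → ℝ) (x : EE n) : ℝ :=
  ((1 + ε) * gsq w x + C * tt v x ^ 2 * w x ^ 2 - hsq (dd v) x * w x ^ 2) * psi v x ^ 2

/-- St1: stability with `|B|²` in place of `q` (`dstab`, `Lm_tt`, `weak_lap`, `hk_grad_t`,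
`Ker.form_ext`) -/
def St1Stmt (n : ℕ) : Prop := ∀ ε : ℝ, 0 < ε → ∃ C : ℝ, 0 ≤ C ∧ ∀ v w : EE n → ℝ, Sol v →
  Stable v → ContDiff ℝ 1 w → Integrable (fun x => w x ^ 2) → Integrable (gsq w) →
    Integrable (Qf ε C v w) ∧ 0 ≤ ∫ x, Qf ε C v w x

/-- StC: the gradient of the cut -/
def StCStmt (n : ℕ) : Prop := ∃ C : ℝ, 0 ≤ C ∧ ∀ (e g : ℝ) (v : EE n → ℝ), 0 < e → 0 ≤ g → g ≤ 1 →
  Sol v → Continuous (uu e g v) ∧ ContDiff ℝ 1 (eta e g v) ∧
    ∀ x, gsq (eta e g v) x ≤ C * uu e g v x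

/-- StA: the change of variables, abstract form -/
def StAStmt (n : ℕ) : Prop := ∀ (p : EE n → EE n) (p' : EE n → EE n →L[ℝ] EE n)
  (S S' : Set (EE n)), MeasurableSet S → MeasurableSet S' → S' ⊆ S →
  (∀ x, HasFDerivAt p (p' x) x) → InjOn p S →
  (∀ f w : EE n → ℝ, Integrable f → AEStronglyMeasurable w volume → (∀ x ∉ S, w x = 0) →
    (∀ x ∈ S, |w x| ≤ |(p' x).det| * f (p x)) → Integrable w) ∧
  ∀ f G Φ T R : EE n → ℝ, Integrable f → Integrable G → Integrable Φ → Integrable T →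
    Integrable R → (∀ x, 0 ≤ G x) → (∀ x, 0 ≤ T x) → (∀ x, 0 ≤ R x) → (∀ x ∉ S, Φ x = 0) →
    0 ≤ ∫ x, Φ x → (∀ y ∉ p '' S', f y ≤ R y) →
    (∀ x ∈ S', |(p' x).det| * f (p x) + Φ x ≤ |(p' x).det| * G (p x) + T x) →
    (∀ x ∈ S, x ∉ S' → Φ x ≤ |(p' x).det| * G (p x) + T x) →
    ∫ x, f x ≤ (∫ x, G x) + (∫ x, T x) + ∫ x, R x

end

end Crest.Agent.N067.Y.St
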