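import Crest.Agent.N067.Y.StG
import Crest.Agent.N067.Y.Base

/-!
# Row 67, block X5, ST (helper16): the compression map
-/

set_option autoImplicit false

open MeasureTheory Laplacian InnerProductSpace Topology Filter Set Metric
open scoped RealInnerProductSpace Gradient ContDiff

namespace Crest.Agent.N067.Y.St

open Crest.Agent.R077

noncomputable section

variable {n : ℕ} {v : EE n → ℝ} {h : ℝ}

/-- `1 - c N ⊗ N` -/
def R1 (c : ℝ) (N : EE n) : EE n →L[ℝ] EE n :=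
  ContinuousLinearMap.id ℝ _ - c • (innerSL ℝ N).smulRight N

theorem R1_apply (c : ℝ) (N u : EE n) : R1 c N u = u - (c * ⟪N, u⟫) • N := by
  simp [R1, smul_smul]

theorem det_R1 (c : ℝ) (N : EE n) : (R1 c N).det = 1 - c * ‖N‖ ^ 2 := by
  have e : (R1 c N : EE n →ₗ[ℝ] EE n) =
      LinearMap.transvection (-c • (innerSL ℝ N : EE n →ₗ[ℝ] ℝ)) N := by
    ext u : 1
    simp [R1_apply, LinearMap.transvection.apply, sub_eq_add_neg]
  rw [ContinuousLinearMap.det, e, LinearMap.transvection.det]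
  simp [sub_eq_add_neg]

theorem norm_R1_sub {c : ℝ} (hc : 0 ≤ c) {N : EE n} (hN : ‖N‖ ≤ 1) :
    ‖R1 c N - ContinuousLinearMap.id ℝ _‖ ≤ c := by
  refine ContinuousLinearMap.opNorm_le_bound _ hc fun u => ?_
  rw [ContinuousLinearMap.sub_apply, R1_apply, ContinuousLinearMap.id_apply, sub_sub_cancel_left,
    norm_neg, norm_smul, Real.norm_eq_abs, abs_mul, abs_of_nonneg hc]
  have := abs_real_inner_le_norm N u
  calc c * |⟪N, u⟫| * ‖N‖ ≤ c * (1 * ‖u‖) * 1 := by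
        gcongr; exact this.trans (by gcongr)
    _ = _ := by ring

/-- the derivative of `Pi` -/
def Pd (h : ℝ) (v : EE n → ℝ) (x : EE n) : EE n →L[ℝ] EE n :=
  R1 (1 - h) (∇ (dd v) x) - ((1 - h) * dd v x) • Bm v x

theorem hasFDerivAt_Pi (hv : Sol v) (h : ℝ) (x : EE n) : HasFDerivAt (Pi h v) (Pd h v x) x := by
  have h1 := (hasFDerivAt_id x).sub (((hv.dd_diff x).hasFDerivAt.const_mul (1 - h)).smul
    (hasFDerivAt_grad hv x))
  refine h1.congr_fderiv ?_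
  ext u : 1
  simp only [Pd, R1_apply, inner_grad, ContinuousLinearMap.sub_apply, ContinuousLinearMap.add_apply,
    ContinuousLinearMap.smul_apply, ContinuousLinearMap.id_apply,
    ContinuousLinearMap.smulRight_apply, smul_eq_mul]
  abel

theorem Pi_cd (hv : Sol v) (h : ℝ) : ContDiff ℝ 1 (Pi h v) :=
  contDiff_id.sub ((contDiff_const.mul (hv.dd_cd 1)).smul (grad_cd hv))

theorem norm_sub_Pi (hv : Sol v) (h0 : 0 ≤ h) (h1 : h ≤ 1) (x : EE n) :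
    ‖x - Pi h v x‖ ≤ |dd v x| := by
  rw [Pi, sub_sub_cancel, norm_smul, Real.norm_eq_abs, abs_mul, abs_of_nonneg (by linarith)]
  calc (1 - h) * |dd v x| * ‖∇ (dd v) x‖ ≤ 1 * |dd v x| * 1 := by
        gcongr
        · linarith
        · exact hv.norm_grad_dd_le x
    _ = _ := by ring

theorem norm_E (h0 : 0 ≤ h) (h1 : h ≤ 1) (x : EE n) :
    ‖((1 - h) * dd v x) • Bm v x‖ ≤ (1 - h) * (|dd v x| * ‖Bm v x‖) := by
  rw [norm_smul, Real.norm_eq_abs, abs_mul, abs_of_nonneg (by linarith), mul_assoc]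

theorem approx (hv : Sol v) (h0 : 0 ≤ h) (h1 : h ≤ 1) {s : Set (EE n)} (hs : Convex ℝ s)
    (hB : ∀ y ∈ s, |dd v y| * ‖Bm v y‖ ≤ h / 2) {x y : EE n} (hx : x ∈ s) (hy : y ∈ s) :
    ‖Pi h v x - Pi h v y - (x - y)‖ ≤ (1 - h / 2) * ‖x - y‖ :=
  hs.norm_image_sub_le_of_norm_hasFDerivWithin_le' (φ := ContinuousLinearMap.id ℝ _)
    (fun z _ => (hasFDerivAt_Pi hv h z).hasFDerivWithinAt) (fun z hz => by
      rw [Pd, sub_right_comm]
      refine (norm_sub_le _ _).trans ?_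
      have a1 := norm_R1_sub (c := 1 - h) (by linarith) (hv.norm_grad_dd_le z)
      have a2 := norm_E (v := v) h0 h1 z
      have a3 := mul_le_mul_of_nonneg_left (hB z hz) (show 0 ≤ 1 - h by linarith)
      nlinarith) hy hx

theorem inj (n : ℕ) {g h : ℝ} (hg : 0 < g) (h0 : 0 < h) (h1 : h ≤ 1) : ∀ᶠ κ in 𝓝[>] (0 : ℝ),
    ∀ v : EE n → ℝ, Sol v → InjOn (Pi h v) {x | Gd g κ v x} := by
  filter_upwards [geo n hg (ρ := h / 8) (by positivity), loc n hg (ρ := h / 2) (by positivity)]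
    with κ k1 k2 v hv x hx x' hx' e
  have hs : 1 - h ∈ Icc (0 : ℝ) 1 := ⟨by linarith, by linarith⟩
  obtain ⟨a1, a2, -⟩ := k1 v hv x hx _ hs
  obtain ⟨b1, b2, -⟩ := k1 v hv x' hx' _ hs
  change (1 + |dd v x|) * ‖∇ (dd v) (Pi h v x) - _‖ ≤ _ at a1
  change |dd v (Pi h v x) - _| ≤ _ at a2
  change (1 + |dd v x'|) * ‖∇ (dd v) (Pi h v x') - _‖ ≤ _ at b1
  change |dd v (Pi h v x') - _| ≤ _ at b2
  rw [← e] at b1 b2
  have c1 : |dd v x - dd v x'| ≤ 1 / 4 := by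
    rw [abs_le] at a2 b2 ⊢
    constructor <;> nlinarith
  have c2 : |dd v x| ≤ 1 + |dd v x'| := by linarith [abs_sub_abs_le_abs_sub (dd v x) (dd v x')]
  have c3 : x' - x = ((1 - h) * (dd v x' - dd v x)) • ∇ (dd v) x' +
      ((1 - h) * dd v x) • ((∇ (dd v) (Pi h v x) - ∇ (dd v) x) -
        (∇ (dd v) (Pi h v x) - ∇ (dd v) x')) := by
    have e' := e
    simp only [Pi] at e'
    linear_combination (norm := module) -e'
  have c4 : ‖x' - x‖ ≤ 1 := by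
    rw [c3]
    refine (norm_add_le _ _).trans ?_
    rw [norm_smul, norm_smul, Real.norm_eq_abs, Real.norm_eq_abs, abs_mul, abs_mul,
      abs_of_nonneg hs.1, abs_sub_comm (dd v x')]
    have d1 : (1 - h) * |dd v x - dd v x'| * ‖∇ (dd v) x'‖ ≤ 1 * (1 / 4) * 1 := by
      gcongr
      · exact hs.2
      · exact hv.norm_grad_dd_le x'
    have d2 := norm_sub_le (∇ (dd v) (Pi h v x) - ∇ (dd v) x) (∇ (dd v) (Pi h v x) - ∇ (dd v) x')
    have d3 := mul_le_mul (mul_le_of_le_one_left (abs_nonneg (dd v x)) hs.2) d2 (norm_nonneg _)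
      (abs_nonneg _)
    have d4 := mul_le_mul_of_nonneg_right c2 (norm_nonneg (∇ (dd v) (Pi h v x) - ∇ (dd v) x'))
    nlinarith [norm_nonneg (∇ (dd v) (Pi h v x) - ∇ (dd v) x)]
  have c5 := approx hv h0.le h1 (convex_closedBall x 1) (fun y hy => (k2 v hv x hx).2 y hy)
    (mem_closedBall_iff_norm.2 c4) (mem_closedBall_self zero_le_one)
  rw [e, sub_self, zero_sub, norm_neg] at c5
  have c6 : ‖x' - x‖ = 0 := by nlinarith [norm_nonneg (x' - x)]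
  exact (sub_eq_zero.1 (norm_eq_zero.1 c6)).symm

theorem surj (n : ℕ) {g h e T : ℝ} (hg : 0 ≤ g) (h0 : 0 < h) (h1 : h ≤ 1) (he : 0 ≤ e)
    (hT : 0 ≤ T) : ∀ᶠ e1 in 𝓝[>] (0 : ℝ), ∀ v : EE n → ℝ, Sol v → ∀ y, tt v y ≤ e1 →
      |dd v y| ≤ h * T → ∃ x, Pi h v x = y ∧ uu e g v x ≤ 1 := by
  obtain ⟨C, hC0, hC⟩ := hk_har n
  obtain ⟨K, hK1, hK⟩ := exists_K n
  filter_upwards [ev_small (f := fun e1 => 3 * T * (K * √(Real.exp (C * (2 * T)) * e1)))
    (ρ := h / 2) (by fun_prop) (by simpa using h0),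
    ev_small (f := fun e1 => e * (Real.exp (C * (2 * T)) * e1))
    (ρ := Real.exp (-(√2 * g * (3 * T)))) (by fun_prop) (by simpa using Real.exp_pos _)]
    with e1 k1 k2 v hv y hy hd
  have a1 : ∀ z ∈ closedBall y (2 * T), tt v z ≤ Real.exp (C * (2 * T)) * e1 := fun z hz =>
    (hC v hv y z).trans (by
      have := hv.tt_nonneg y
      have : ‖y - z‖ ≤ 2 * T := mem_closedBall_iff_norm'.1 hz
      gcongr)
  have a2 : ∀ z ∈ closedBall y (2 * T), |dd v z| ≤ 3 * T := fun z hz => by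
    have := hv.abs_dd_sub_le z y
    have := mem_closedBall_iff_norm.1 hz
    nlinarith [abs_sub_abs_le_abs_sub (dd v z) (dd v y)]
  have hA : ApproximatesLinearOn (Pi h v) (ContinuousLinearMap.id ℝ (EE n)) (closedBall y (2 * T))
      ⟨1 - h / 2, by linarith⟩ := fun x hx z hz =>
    approx hv h0.le h1 (convex_closedBall _ _) (fun w hw => le_trans (mul_le_mul (a2 w hw)
      ((hK v hv w).1.trans (mul_le_mul_of_nonneg_left (Real.sqrt_le_sqrt (a1 w hw)) (by linarith)))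
      (norm_nonneg _) (by positivity)) k1.le) hx hz
  obtain ⟨x, hx, e⟩ := hA.surjOn_closedBall_of_nonlinearRightInverse
    ⟨id, 1, fun y => by simp, fun y => rfl⟩ (by positivity) subset_rfl (a := y) (by
      rw [mem_closedBall_iff_norm]
      refine (norm_sub_Pi hv h0.le h1 y).trans (hd.trans (le_of_eq ?_))
      change _ = ((1 : ℝ)⁻¹ - (1 - h / 2)) * (2 * T)
      ring)
  refine ⟨x, e, ?_⟩
  rw [uu, div_le_one (Real.rpow_pos_of_pos (hv.psi_pos x) g)]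
  refine (mul_le_mul_of_nonneg_left (a1 x hx) he).trans (k2.le.trans
    (le_trans (Real.exp_le_exp.2 (neg_le_neg ?_)) (le_psi_rpow hv hg x)))
  exact mul_le_mul_of_nonneg_left (a2 x hx) (by positivity)

theorem det_Pd (n : ℕ) {h ε : ℝ} (h0 : 0 ≤ h) (h1 : h ≤ 1) (hε : 0 < ε) : ∀ᶠ ρ in 𝓝[>] (0 : ℝ),
    ∀ v : EE n → ℝ, Sol v → ∀ x, tt v x ≤ ρ → |dd v x| * ‖Bm v x‖ ≤ ρ →
      |(Pd h v x).det - h| ≤ ε := by
  obtain ⟨δ, hδ, hU⟩ := Metric.uniformContinuousOn_iff.1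
    ((isCompact_closedBall (ContinuousLinearMap.id ℝ (EE n)) 2).uniformContinuousOn_of_continuous
      ContinuousLinearMap.continuous_det.continuousOn) (ε / 2) (by positivity)
  filter_upwards [ev_small (f := fun ρ => ρ) (ρ := min 1 (min δ (ε / 2))) (by fun_prop)
    (by positivity)] with ρ k v hv x ht hB
  obtain ⟨k1, k2⟩ := lt_min_iff.1 k
  obtain ⟨k2, k3⟩ := lt_min_iff.1 k2
  have a1 := norm_R1_sub (c := 1 - h) (by linarith) (hv.norm_grad_dd_le x)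
  have a2 : ‖((1 - h) * dd v x) • Bm v x‖ ≤ ρ := (norm_E h0 h1 x).trans
    ((mul_le_of_le_one_left (by positivity) (by linarith)).trans hB)
  have a3 := hU (Pd h v x) (by
      rw [mem_closedBall_iff_norm, Pd, sub_right_comm]
      exact (norm_sub_le _ _).trans (by linarith)) (R1 (1 - h) (∇ (dd v) x))
    (mem_closedBall_iff_norm.2 (by linarith)) (by
      rw [dist_eq_norm, Pd, sub_sub_cancel_left, norm_neg]; linarith)
  rw [Real.dist_eq, det_R1, show ‖∇ (dd v) x‖ ^ 2 = 1 - tt v x by simp [tt], abs_lt] at a3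
  have := hv.tt_nonneg x
  rw [abs_le]
  constructor <;> nlinarith

theorem sq_add_le {ε : ℝ} (hε : 0 < ε) (x y : ℝ) :
    (x + y) ^ 2 ≤ (1 + ε) * x ^ 2 + (1 + ε⁻¹) * y ^ 2 := by
  have : (1 + ε) * x ^ 2 + (1 + ε⁻¹) * y ^ 2 - (x + y) ^ 2 = ε⁻¹ * (ε * x - y) ^ 2 := by
    field_simp; ring
  have : 0 ≤ ε⁻¹ * (ε * x - y) ^ 2 := by positivity
  linarith

theorem grad_comp_le (hv : Sol v) (h0 : 0 ≤ h) (h1 : h ≤ 1) {z : EE n → ℝ}
    (hz : Differentiable ℝ z) {ρ : ℝ} {x : EE n} (hN : ‖∇ (dd v) (Pi h v x) - ∇ (dd v) x‖ ≤ ρ)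
    (hB : |dd v x| * ‖Bm v x‖ ≤ ρ) : ‖∇ (fun y => z (Pi h v y)) x‖ ≤
      ‖R1 (1 - h) (∇ (dd v) (Pi h v x)) (∇ z (Pi h v x))‖ + 3 * ρ * ‖∇ z (Pi h v x)‖ := by
  have hρ : 0 ≤ ρ := (norm_nonneg _).trans hN
  have hd : HasFDerivAt (fun y => z (Pi h v y)) _ x :=
    (hz _).hasFDerivAt.comp x (hasFDerivAt_Pi hv h x)
  rw [norm_grad, hd.fderiv]
  refine ContinuousLinearMap.opNorm_le_bound _ (by positivity) fun u => ?_
  rw [ContinuousLinearMap.comp_apply, ← inner_grad]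
  have hN1 := hv.norm_grad_dd_le x
  have hN2 := hv.norm_grad_dd_le (Pi h v x)
  have a2 : ‖((1 - h) * dd v x) • Bm v x‖ ≤ ρ := (norm_E h0 h1 x).trans
    ((mul_le_of_le_one_left (by positivity) (by linarith)).trans hB)
  rw [Pd]
  generalize ∇ z (Pi h v x) = ξ, ∇ (dd v) (Pi h v x) = N', ∇ (dd v) x = N,
    ((1 - h) * dd v x) • Bm v x = E at *
  have e : ⟪ξ, (R1 (1 - h) N - E) u⟫ = ⟪R1 (1 - h) N' ξ, u⟫ +
      (1 - h) * (⟪N' - N, ξ⟫ * ⟪N', u⟫ + ⟪N, ξ⟫ * ⟪N' - N, u⟫) - ⟪ξ, E u⟫ := by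
    simp only [ContinuousLinearMap.sub_apply, R1_apply, inner_sub_left, inner_sub_right,
      inner_smul_left, inner_smul_right, real_inner_comm ξ, conj_trivial]
    ring
  have b1 := abs_real_inner_le_norm (R1 (1 - h) N' ξ) u
  have b2 : |⟪N' - N, ξ⟫ * ⟪N', u⟫| ≤ ρ * ‖ξ‖ * (1 * ‖u‖) := by
    rw [abs_mul]
    exact mul_le_mul ((abs_real_inner_le_norm _ _).trans (by gcongr))
      ((abs_real_inner_le_norm _ _).trans (by gcongr)) (abs_nonneg _) (by positivity)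
  have b3 : |⟪N, ξ⟫ * ⟪N' - N, u⟫| ≤ 1 * ‖ξ‖ * (ρ * ‖u‖) := by
    rw [abs_mul]
    exact mul_le_mul ((abs_real_inner_le_norm _ _).trans (by gcongr))
      ((abs_real_inner_le_norm _ _).trans (by gcongr)) (abs_nonneg _) (by positivity)
  have b4 : |⟪ξ, E u⟫| ≤ ‖ξ‖ * (ρ * ‖u‖) := (abs_real_inner_le_norm _ _).trans
    (mul_le_mul_of_nonneg_left ((E.le_opNorm u).trans (by gcongr)) (norm_nonneg _))
  have b5 : |(1 - h) * (⟪N' - N, ξ⟫ * ⟪N', u⟫ + ⟪N, ξ⟫ * ⟪N' - N, u⟫)| ≤ 2 * (ρ * ‖ξ‖ * ‖u‖) := by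
    rw [abs_mul, abs_of_nonneg (by linarith)]
    exact (mul_le_of_le_one_left (abs_nonneg _) (by linarith)).trans
      ((abs_add_le _ _).trans (by linarith))
  rw [e, Real.norm_eq_abs]
  refine (abs_sub _ _).trans ((add_le_add (abs_add_le _ _) b4).trans ?_)
  linarith

/-- the gradient of `z ∘ Pi` -/
theorem gsq_comp_le (n : ℕ) {h ε : ℝ} (h0 : 0 < h) (h1 : h ≤ 1) (hε : 0 < ε) (hε1 : ε ≤ 1) :
    ∀ᶠ ρ in 𝓝[>] (0 : ℝ), ∀ v z : EE n → ℝ, Sol v → Differentiable ℝ z → ∀ x,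
      ‖∇ (dd v) (Pi h v x) - ∇ (dd v) x‖ ≤ ρ → |dd v x| * ‖Bm v x‖ ≤ ρ → tt v (Pi h v x) ≤ ρ →
      gsq (fun y => z (Pi h v y)) x ≤
        (1 + ε) * tg v z (Pi h v x) + 2 * h ^ 2 * gin (dd v) z (Pi h v x) ^ 2 := by
  filter_upwards [ev_small (f := fun ρ => ρ) (ρ := 1 / 2) (by fun_prop) (by positivity),
    ev_small (f := fun ρ => (1 + ε / 2) * (2 * ρ) + (1 + (ε / 2)⁻¹) * (18 * ρ ^ 2))
      (ρ := min (ε / 2) (h ^ 2 / 2)) (by fun_prop) (by simpa using ⟨hε, pow_pos h0 2⟩)]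
    with ρ k1 k2 v z hv hz x hN hB ht
  obtain ⟨k2, k3⟩ := lt_min_iff.1 k2
  have hρ : 0 ≤ ρ := (norm_nonneg _).trans hN
  have a1 := pow_le_pow_left₀ (norm_nonneg _) (grad_comp_le hv h0.le h1 hz hN hB) 2
  rw [← gsq_eq] at a1
  have a2 := a1.trans (sq_add_le (half_pos hε) _ _)
  have hT := tg_nonneg v z (Pi h v x)
  have ht0 := hv.tt_nonneg (Pi h v x)
  have a3 : ‖R1 (1 - h) (∇ (dd v) (Pi h v x)) (∇ z (Pi h v x))‖ ^ 2 ≤
      gsq z (Pi h v x) - (1 - h ^ 2) * gin (dd v) z (Pi h v x) ^ 2 := by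
    rw [R1_apply, norm_sub_sq_real, norm_smul, inner_smul_right, ← gin_eq, ← gin_eq, gin_comm z,
      ← gsq_eq, mul_pow, Real.norm_eq_abs, sq_abs, show ‖∇ (dd v) (Pi h v x)‖ ^ 2 =
        1 - tt v (Pi h v x) by simp [tt]]
    nlinarith [mul_nonneg (sq_nonneg ((1 - h) * gin (dd v) z (Pi h v x))) ht0]
  rw [mul_pow, ← gsq_eq] at a2
  have hG := gsq_nonneg z (Pi h v x)
  have e : tg v z (Pi h v x) = (1 - tt v (Pi h v x)) * gsq z (Pi h v x) -
    gin (dd v) z (Pi h v x) ^ 2 := rfl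
  have ha := sq_nonneg (gin (dd v) z (Pi h v x))
  generalize tg v z (Pi h v x) = T, gsq z (Pi h v x) = G, gin (dd v) z (Pi h v x) ^ 2 = a,
    tt v (Pi h v x) = t at *
  have b1 : G ≤ 2 * (T + a) := by nlinarith
  have b2 : G - a ≤ T + ρ * (2 * (T + a)) := by nlinarith [mul_le_mul ht b1 hG hρ]
  have b3 := mul_le_mul_of_nonneg_left (a3.trans (show G - (1 - h ^ 2) * a ≤
    T + ρ * (2 * (T + a)) + h ^ 2 * a by linarith)) (show 0 ≤ 1 + ε / 2 by positivity)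
  have b4 := mul_le_mul_of_nonneg_left b1 (show 0 ≤ (1 + (ε / 2)⁻¹) * (3 * ρ) ^ 2 by positivity)
  have b5 := mul_le_mul_of_nonneg_right k2.le hT
  have b6 := mul_le_mul_of_nonneg_right k3.le ha
  have b7 := mul_le_mul_of_nonneg_right hε1 (mul_nonneg (sq_nonneg h) ha)
  linarith

end

end Crest.Agent.N067.Y.St
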