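import Crest.Agent.N067.Y.StM

/-!
# Row 67, block X5, ST (helper16): the pointwise comparisons at a good point
-/

set_option autoImplicit false

open MeasureTheory Laplacian InnerProductSpace Topology Filter Set Metric
open scoped RealInnerProductSpace Gradient ContDiff

namespace Crest.Agent.N067.Y.St

open Crest.Agent.R077

noncomputable section

variable {n : ℕ} {v : EE n → ℝ} {h : ℝ}

theorem exp_le_pow (s : ℝ) (k : ℕ) : Real.exp (-(√2 * (k * |s|))) ≤ Psi s ^ k := by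
  refine le_trans (le_of_eq ?_) (pow_le_pow_left₀ (Real.exp_pos _).le (Psi_lo s) k)
  rw [← Real.exp_nat_mul]; congr 1; ring

theorem Psi_sq_le (h0 : 0 < h) (s : ℝ) :
    Psi (s / h) ^ 2 ≤ 16 * Real.exp (-(√2 * (2 * (|s| / h)))) := by
  refine (pow_le_pow_left₀ (Psi_pos _).le (Psi_up _) 2).trans (le_of_eq ?_)
  rw [mul_pow, ← Real.exp_nat_mul, abs_div, abs_of_pos h0]
  congr 2
  · norm_num
  · push_cast; ring

theorem mh_nonneg (h0 : 0 < h) (s : ℝ) : 0 ≤ mh h s := by unfold mh; positivity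

theorem mh_le (h0 : 0 < h) (s : ℝ) : mh h s ≤ 1 / h :=
  div_le_div_of_nonneg_right (pow_le_one₀ (Psi_pos _).le (Psi_le_one _)) h0.le

theorem mh_cont (h : ℝ) : Continuous (mh h) :=
  ((Psi_cont.comp (continuous_id.div_const h)).pow 2).div_const h

theorem mul_mh_le (h0 : 0 < h) (h1 : h ≤ 1 / 4) (s : ℝ) : h * mh h s ≤ 16 * Psi s ^ 8 := by
  rw [mh, mul_div_cancel₀ _ h0.ne']
  refine (Psi_sq_le h0 s).trans (mul_le_mul_of_nonneg_left (le_trans (Real.exp_le_exp.2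
    (neg_le_neg (mul_le_mul_of_nonneg_left ?_ sqrt2_pos.le))) (exp_le_pow s 8)) (by norm_num))
  have : 4 * |s| ≤ |s| / h := by rw [le_div_iff₀ h0]; nlinarith [abs_nonneg s]
  push_cast
  linarith

theorem mh_tail (h0 : 0 < h) (h1 : h ≤ 1 / 10) {σ : ℝ} (hσ : 0 < σ) :
    ∃ T : ℝ, 0 ≤ T ∧ ∀ s, h * T ≤ |s| → mh h s ≤ σ * Psi s ^ 10 := by
  have h2 : Tendsto (fun T : ℝ => Real.exp (-T) * (16 / h)) atTop (𝓝 0) := by
    simpa using Real.tendsto_exp_neg_atTop_nhds_zero.mul_const (16 / h)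
  obtain ⟨T, hT, hT0⟩ := ((h2.eventually_lt_const hσ).and (eventually_ge_atTop 0)).exists
  refine ⟨T, hT0, fun s hs => ?_⟩
  have a1 : 10 * |s| ≤ |s| / h := by rw [le_div_iff₀ h0]; nlinarith [abs_nonneg s]
  have a2 : T ≤ |s| / h := by rw [le_div_iff₀ h0]; linarith
  have a3 : Real.exp (-(√2 * (2 * (|s| / h)))) ≤
      Real.exp (-T) * Real.exp (-(√2 * ((10 : ℕ) * |s|))) := by
    rw [← Real.exp_add, Real.exp_le_exp]
    push_cast
    nlinarith [Real.one_lt_sqrt_two]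
  calc mh h s ≤ 16 * (Real.exp (-T) * Real.exp (-(√2 * ((10 : ℕ) * |s|)))) / h :=
        div_le_div_of_nonneg_right ((Psi_sq_le h0 s).trans (by gcongr)) h0.le
    _ = Real.exp (-T) * (16 / h) * Real.exp (-(√2 * ((10 : ℕ) * |s|))) := by ring
    _ ≤ _ := mul_le_mul hT.le (exp_le_pow s 10) (Real.exp_pos _).le hσ.le

/-- what is true at the points of the support of the test function -/
structure Pt (g h ε σ : ℝ) (v : EE n → ℝ) (x : EE n) : Prop where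
  w1 : |(Pd h v x).det| * mh h (dd v (Pi h v x)) ≤ (1 + ε) * psi v x ^ 2
  w2 : psi v x ^ 2 ≤ (1 + ε) * (|(Pd h v x).det| * mh h (dd v (Pi h v x)))
  w3 : psi v x ^ g ≤ 8 * Real.exp 12 / h * (|(Pd h v x).det| * psi v (Pi h v x) ^ 8)
  jac : h ≤ 2 * |(Pd h v x).det|
  ts : tt v x ≤ σ
  hb : hsq (dd v) (Pi h v x) ≤ (1 + ε) * hsq (dd v) x + σ * tt v x
  gr : ∀ z : EE n → ℝ, Differentiable ℝ z → gsq (fun y => z (Pi h v y)) x ≤
    (1 + ε) * tg v z (Pi h v x) + 2 * h ^ 2 * gin (dd v) z (Pi h v x) ^ 2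

theorem pt (n : ℕ) {g h ε σ : ℝ} (hg : 0 < g) (hg1 : g ≤ 1) (h0 : 0 < h) (h1 : h ≤ g / 8)
    (hε : 0 < ε) (hε1 : ε ≤ 1) (hσ : 0 < σ) : ∀ᶠ κ in 𝓝[>] (0 : ℝ), ∀ v : EE n → ℝ, Sol v →
      ∀ x, Gd g κ v x → tt v (Pi h v x) ≤ κ → Pt g h ε σ v x := by
  have h2 : h ≤ 1 := by linarith
  obtain ⟨ρ, ⟨⟨⟨⟨r1, r2⟩, r3⟩, r4⟩, r5⟩, hρ⟩ := ((((((det_Pd n h0.le h2 (ε := h * ε / 4)
    (by positivity)).and (gsq_comp_le n h0 h2 hε hε1)).and
    (ev_small (f := fun ρ => Real.exp (√2 * (ρ / h)) ^ 2) (ρ := 1 + ε / 4) (by fun_prop)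
      (by simpa using hε))).and
    (ev_small (f := fun ρ => (1 + ε⁻¹) * (n * (n * ρ))) (by fun_prop) (by simpa using hσ))).and
    (ev_small (f := fun ρ => ρ) (ρ := min 1 σ) (by fun_prop) (by positivity))).and
    self_mem_nhdsWithin).exists
  obtain ⟨r5, r6⟩ := lt_min_iff.1 r5
  replace hρ : 0 < ρ := hρ
  filter_upwards [geo n hg hρ, loc n hg hρ, ev_small (f := fun κ => κ) (by fun_prop) hρ]
    with κ k1 k2 k3 v hv x hx hy
  obtain ⟨a1, a2, a3⟩ := k1 v hv x hx (1 - h) ⟨by linarith, by linarith⟩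
  change (1 + |dd v x|) * ‖∇ (dd v) (Pi h v x) - _‖ ≤ _ at a1
  change |dd v (Pi h v x) - _| ≤ _ at a2
  change ∀ i j, (hs (dd v) i j (Pi h v x) - _) ^ 2 ≤ _ at a3
  rw [sub_sub_cancel] at a2
  obtain ⟨b1, b2⟩ := k2 v hv x hx
  replace b2 := b2 x (by simp)
  have c1 := abs_le.1 (r1 v hv x b1 b2)
  have c2 : h * ε ≤ h := mul_le_of_le_one_right h0.le hε1
  have c3 : |(Pd h v x).det| = (Pd h v x).det := abs_of_nonneg (by linarith [c1.1])
  have c4 : |dd v (Pi h v x) / h - dd v x| ≤ ρ / h := by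
    rw [le_div_iff₀ h0, ← abs_of_pos h0, ← abs_mul, abs_of_pos h0, sub_mul,
      div_mul_cancel₀ _ h0.ne', mul_comm (dd v x)]
    exact a2
  have c5 : ∀ a b : ℝ, |a - b| ≤ ρ / h → Psi a ^ 2 ≤ (1 + ε / 4) * Psi b ^ 2 := fun a b hab => by
    refine (pow_le_pow_left₀ (Psi_pos _).le (Psi_le a b) 2).trans ?_
    rw [mul_pow]
    refine mul_le_mul_of_nonneg_right (le_trans ?_ r3.le) (sq_nonneg _)
    have := sqrt2_pos
    gcongr
  have c6 := c5 _ _ c4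
  have c7 := c5 (dd v x) (dd v (Pi h v x) / h) (by rwa [abs_sub_comm])
  rw [← psi_eq hv] at c6 c7
  have c8 : Psi (dd v (Pi h v x) / h) ^ 2 = h * mh h (dd v (Pi h v x)) :=
    (mul_div_cancel₀ _ h0.ne').symm
  rw [c8] at c6 c7
  have m0 := mh_nonneg h0 (dd v (Pi h v x))
  have jac : h ≤ 2 * |(Pd h v x).det| := by rw [c3]; linarith [c1.1]
  refine ⟨?_, ?_, ?_, jac, by linarith, ?_, fun z hz => r2 v z hv hz x ?_ b2 (by linarith)⟩
  · rw [c3]
    have d1 := mul_le_mul_of_nonneg_right (show (Pd h v x).det ≤ (1 + ε / 4) * h by linarith [c1.2])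
      m0
    have d2 := mul_le_mul_of_nonneg_left c6 (show 0 ≤ 1 + ε / 4 by positivity)
    have d3 := mul_le_mul_of_nonneg_right (show (1 + ε / 4) * (1 + ε / 4) ≤ 1 + ε by nlinarith)
      (sq_nonneg (psi v x))
    linarith
  · rw [c3]
    have d1 := mul_le_mul_of_nonneg_right (show (1 - ε / 4) * h ≤ (Pd h v x).det by linarith [c1.1])
      m0
    have d2 := mul_le_mul_of_nonneg_left d1 (show 0 ≤ 1 + ε by positivity)
    have d3 := mul_le_mul_of_nonneg_right (show 1 + ε / 4 ≤ (1 + ε) * (1 - ε / 4) by nlinarith)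
      (mul_nonneg h0.le m0)
    linarith
  · have d1 : |dd v (Pi h v x)| ≤ h * |dd v x| + 1 := by
      have := abs_sub_abs_le_abs_sub (dd v (Pi h v x)) (h * dd v x)
      rw [abs_mul, abs_of_pos h0] at this
      linarith
    have d2 : Real.exp (-(√2 * g * |dd v x|)) ≤ Real.exp 12 * psi v (Pi h v x) ^ 8 := by
      rw [psi_eq hv]
      refine le_trans ?_ (mul_le_mul_of_nonneg_left (exp_le_pow _ 8) (Real.exp_pos _).le)
      rw [← Real.exp_add, Real.exp_le_exp]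
      have e1 := mul_le_mul_of_nonneg_right h1 (abs_nonneg (dd v x))
      have e2 := mul_le_mul_of_nonneg_left (show 8 * |dd v (Pi h v x)| ≤ g * |dd v x| + 8 by
        linarith) sqrt2_pos.le
      have e3 := Real.sqrt_two_lt_three_halves
      push_cast
      linarith
    refine (psi_rpow_le hv hg.le hg1 x).trans ?_
    rw [div_mul_eq_mul_div, le_div_iff₀ h0]
    have d3 := mul_le_mul d2 jac h0.le (by have := hv.psi_pos (Pi h v x); positivity)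
    linarith
  · have d1 : ∀ i j, hs (dd v) i j (Pi h v x) ^ 2 ≤
        (1 + ε) * hs (dd v) i j x ^ 2 + (1 + ε⁻¹) * (ρ * tt v x) := fun i j => by
      have := sq_add_le hε (hs (dd v) i j x) (hs (dd v) i j (Pi h v x) - hs (dd v) i j x)
      rw [add_sub_cancel] at this
      linarith [mul_le_mul_of_nonneg_left (a3 i j) (show 0 ≤ 1 + ε⁻¹ by positivity)]
    refine (Finset.sum_le_sum fun i _ => Finset.sum_le_sum fun j _ => d1 i j).trans ?_
    simp only [Finset.sum_add_distrib, ← Finset.mul_sum, Finset.sum_const, Finset.card_univ,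
      Fintype.card_fin, nsmul_eq_mul, hsq]
    linarith [mul_le_mul_of_nonneg_right r4.le (hv.tt_nonneg x)]
  · exact le_trans (le_mul_of_one_le_left (norm_nonneg _) (by linarith [abs_nonneg (dd v x)])) a1

theorem gsq_mul_le {f g : EE n → ℝ} {x : EE n} (hf : DifferentiableAt ℝ f x)
    (hg : DifferentiableAt ℝ g x) (h1 : g x ^ 2 ≤ 1) {ε : ℝ} (hε : 0 < ε) :
    gsq (fun y => f y * g y) x ≤ (1 + ε) * gsq f x + (1 + ε⁻¹) * (f x ^ 2 * gsq g x) := by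
  simp only [gsq, pdv_mul hf hg, Finset.mul_sum, ← Finset.sum_add_distrib]
  refine Finset.sum_le_sum fun i _ => (sq_add_le hε _ _).trans ?_
  rw [mul_pow, mul_pow]
  have := mul_le_of_le_one_right (sq_nonneg (pdv i f x)) h1
  gcongr

theorem alg {ε η δ θ h e C C' J m p q T a Z U t u gw w2 : ℝ} (hε : 0 < ε) (hε1 : ε ≤ 1)
    (hη : (1 + ε) ^ 6 ≤ 1 + η) (h0 : 0 ≤ h) (hδ : 1024 * h ≤ δ) (he : 0 ≤ e) (hC : 0 ≤ C)
    (hC' : 0 ≤ C') (hθ : 8 * (1 + ε⁻¹) * C' * e + (4 * C + 2) * e ≤ θ) (hJ : 0 ≤ J) (hm : 0 ≤ m)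
    (hp : 0 ≤ p) (hq : 0 ≤ q) (hT : 0 ≤ T) (ha : 0 ≤ a) (hZ : 0 ≤ Z) (ht : 0 ≤ t) (hw : 0 ≤ w2)
    (h1 : p ≤ (1 + ε) * (J * m)) (h2 : h * m ≤ 16 * q)
    (h3 : gw ≤ (1 + ε) * ((1 + ε) * T + 2 * h ^ 2 * a) + (1 + ε⁻¹) * (Z * (C' * u)))
    (h4 : u * p = e * U) (h5 : t * p ≤ U) (h6 : t ≤ e) (h7 : w2 ≤ Z) :
    (1 + ε) ^ 2 * (((1 + ε) * gw + C * t ^ 2 * w2) * p) + 2 * (e * (t * p) * Z) ≤
      J * ((1 + η) * (T * m) + δ * (q * a)) + θ * (Z * U) := by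
  have hU : 0 ≤ U := (mul_nonneg ht hp).trans h5
  have p2 : ∀ k : ℕ, (1 + ε) ^ k ≤ 2 ^ k := fun k => by gcongr; linarith
  have a0 := mul_le_mul_of_nonneg_left h3 (show 0 ≤ (1 + ε) ^ 3 * p by positivity)
  have a1 := mul_le_mul_of_nonneg_left h1 (show 0 ≤ (1 + ε) ^ 5 * T by positivity)
  have a2 := mul_le_mul_of_nonneg_right hη (show 0 ≤ J * (T * m) by positivity)
  have a3 := mul_le_mul_of_nonneg_left h1 (show 0 ≤ (1 + ε) ^ 4 * (2 * h ^ 2 * a) by positivity)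
  have a4 := mul_le_mul_of_nonneg_right (p2 5) (show 0 ≤ 2 * h ^ 2 * a * (J * m) by positivity)
  have a5 := mul_le_mul_of_nonneg_left h2 (show 0 ≤ 64 * h * a * J by positivity)
  have a6 := mul_le_mul_of_nonneg_right hδ (show 0 ≤ J * (q * a) by positivity)
  have a7 := mul_le_mul_of_nonneg_right (p2 3)
    (show 0 ≤ (1 + ε⁻¹) * C' * e * (Z * U) by positivity)
  have a8 : (1 + ε) ^ 3 * p * ((1 + ε⁻¹) * (Z * (C' * u))) =
      (1 + ε) ^ 3 * ((1 + ε⁻¹) * C' * e * (Z * U)) := by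
    linear_combination (1 + ε) ^ 3 * (1 + ε⁻¹) * Z * C' * h4
  have a9 : (1 + ε) ^ 2 * (C * (t * (t * p) * w2)) ≤ 2 ^ 2 * (C * (e * U * Z)) := by
    have := p2 2
    gcongr
  have a10 : e * (t * p) * Z ≤ e * U * Z := by gcongr
  have a11 := mul_le_mul_of_nonneg_right hθ (mul_nonneg hZ hU)
  linarith

end

end Crest.Agent.N067.Y.St
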