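import Crest.Agent.N067.Y.X5d

/-!
# Row 67, block X5 (helper54): assembly `x5_of`, and the model profile
-/

set_option autoImplicit false

open MeasureTheory Laplacian InnerProductSpace Topology Filter Set
open scoped RealInnerProductSpace Gradient ContDiff

namespace Crest.Agent.N067.Y

open Crest.Agent.R077

noncomputable section

variable {n : ℕ} {yy HH : Fam n} {K θ eK CK : ℝ}

/-- stability for the SSY test function -/
theorem s3 (hS : STStmt n) (hK : SKData yy HH K θ eK CK) (hK0 : 0 ≤ K) {β η δ : ℝ} (hβ0 : 0 ≤ β)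
    (hβ1 : β < 1) (hη : 0 < η) (hη1 : η ≤ 1) (hδ : 0 < δ) :
    ∃ h e1 lam : ℝ, 0 < h ∧ h ≤ 1 / 8 ∧ 0 < e1 ∧ 0 < lam ∧ ∀ e, 0 < e → e ≤ e1 → ∃ C : ℝ, 0 ≤ C ∧
      ∀ (v : EE n → ℝ) (P : Prof) (om : EE n → ℝ) (ε : ℝ), Pos v → Stable v → Wt lam om → 0 < ε →
        ε ≤ 1 → (1 - η) * AA yy (fun x => mh h (dd v x)) e ε v P om ≤
          (1 + η) ^ 2 * DD yy (fun x => mh h (dd v x)) e ε v P om +
            (1 + η) * (1 + 1 / η) * I2 yy (fun x => mh h (dd v x)) e ε v P om +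
              δ * TT β v P om + C * RR β e ε v P om := by
  obtain ⟨ca, hca, Ha⟩ := aa_le hK hK0 hβ0 hβ1
  obtain ⟨cb, hcb, Hb⟩ := s3a hK hK0 hβ0 hβ1 hη hη1
  obtain ⟨δ6, hδ6⟩ : ∃ δ6, δ6 = δ / (2 * ((2 * K ^ 2 + 3) * ca + 2 * K ^ 2 + 1)) := ⟨_, rfl⟩
  have hδ60 : 0 < δ6 := by rw [hδ6]; positivity
  have q1 : δ6 * ((2 * K ^ 2 + 3) * ca + 2 * K ^ 2 + 1) = δ / 2 := by rw [hδ6]; field_simp
  obtain ⟨h, eS, lS, hh, h8, heS, hlS, HS⟩ := hS β η δ6 hβ0 hβ1 hη hδ60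
  obtain ⟨M, hM⟩ : ∃ M, M = 16 / h := ⟨_, rfl⟩
  have hM0 : 0 < M := by rw [hM]; positivity
  refine ⟨h, min (eS / 2) (min (1 / 8) (δ / (2 * (cb * M)))), lS, hh, h8, by positivity, hlS,
    fun e he hee => ?_⟩
  simp only [le_min_iff] at hee
  obtain ⟨C2, hC2, H2⟩ := i2 hK hK0 hβ0 hβ1 (M := 1) zero_le_one one_pos le_rfl he
  refine ⟨cb * M + δ6 * ((2 * K ^ 2 + 3) * ca + 2 * C2), by positivity,
    fun v P om ε hv hst hw hε hε1 => ?_⟩
  have hs := hv.toSol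
  have hm := nw_mh hs hh h8
  rw [← hM] at hm
  have hY := hK.Y_pos hs hε
  obtain ⟨B, hB⟩ := hK.Y_bd hs ε
  have k0 := HS v P om (zz yy e ε v P om) (fun x => P.F (yy v x + ε) * cut e v x ^ 2) (P.F B) hv hst
    hw (hK.zz_cd hs P hw hε) (fun x hx => by rw [zz, gg_zero he (by linarith [hee.1]), mul_zero])
    (hK.int_zz_sq hs P hw hε) (hK.int_gsq_zz hs P hw hε)
    ((P.cont (hK.Y_cd hs ε).continuous fun x => (hY x).le).mul ((cut_cont hs e).pow 2))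
    (fun x => ⟨mul_nonneg (P.pos _ (hY x)).le (sq_nonneg _),
      (mul_le_of_le_one_right (P.pos _ (hY x)).le (cut_sq_le_one e v x)).trans
        (P.mono (hY x).le (hB x))⟩) fun x s hs0 => by
      rw [hK.zz_sq hs P hε, gg_sq hw]
      have a1 := mul_le_mul_of_nonneg_right (P.young1 (hY x) hs0.le)
        (mul_nonneg (sq_nonneg (cut e v x)) (hw.pos x).le)
      have a2 := mul_le_mul_of_nonneg_right (cut_sq_le_one e v x)
        (mul_pos (P.pos s hs0) (hw.pos x)).le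
      linarith
  have e0 : ∫ x, psi v x ^ 8 * (P.F (yy v x + ε) * cut e v x ^ 2) * om x =
      AA yy (fun x => psi v x ^ 8) e ε v P om :=
    integral_congr_ae (ae_of_all _ fun x => by simp only [gg_sq hw]; ring)
  rw [e0] at k0
  have k1 := Hb v P om _ e ε _ M hv hw he hee.2.1 hε hm
  have k2 := s3b (e := e) hK hη P hs hw hε hm
  have k3 := s3c hK hβ0 hβ1 P hs hw he hee.2.1 hε
  have k4 := H2 v P om _ ε _ hs hw hε hε1 (nw_psi hs)
  have k5 := Ha v P om e ε _ hs hw hε hε1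
  obtain ⟨r1, r2, r3⟩ := RR_ge (β := β) (e := e) hs P hw hε
  have hT := TT_nonneg (β := β) hs P hw
  have q2 : cb * M * e ≤ δ / 2 := by
    have := (le_div_iff₀ (by positivity)).1 hee.2.2
    linarith
  rw [RR] at k4 ⊢
  rw [mul_assoc (cb * M) (P.F ε)] at k1
  rw [mul_assoc ca (P.F ε)] at k5
  generalize P.F ε * MU v om = E at *
  have k6 := mul_le_mul_of_nonneg_left k2 (show 0 ≤ 1 + η by positivity)
  have k7 := mul_le_mul_of_nonneg_left k3 hδ60.le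
  have k8 := mul_le_mul_of_nonneg_left k4 (show 0 ≤ 2 * δ6 by positivity)
  have k9 := mul_le_mul_of_nonneg_left k5 (show 0 ≤ δ6 * (2 * K ^ 2 + 3) by positivity)
  have m1 := congrArg (· * TT β v P om) q1
  have m2 := mul_le_mul_of_nonneg_right q2 hT
  have p1 : 0 ≤ cb * M * (BAD β v P om e + LAM v P om) := by positivity
  have p2 : 0 ≤ δ6 * ((2 * K ^ 2 + 3) * ca) * (BAD β v P om e + LAM v P om) := by positivity
  linarith

theorem x5_num {g : ℝ} (h0 : 0 < g) :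
    g / 2 + (1 + 3 * (g / 20)) * (1 - g + g / 40) + (1 - g / 20) * (g / 10) ≤
      (1 - g / 20) * (1 - g / 20) := by nlinarith

theorem x5_num2 {η : ℝ} (h0 : 0 < η) (h1 : η ≤ 1 / 20) :
    (1 + η) * (1 + 1 / η) ≤ 4 / η ∧ (1 + η) ^ 2 ≤ 1 + 3 * η := by
  refine ⟨?_, by nlinarith⟩
  rw [le_div_iff₀ h0]
  have : (1 + η) * (1 + 1 / η) * η = (1 + η) * (η + 1) := by field_simp
  nlinarith

theorem x5_num3 {g η CK δ3 : ℝ} (hg0 : 0 < g) (hη0 : 0 < η) (hη1 : η ≤ 1 / 20) (hCK : 0 ≤ CK)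
    (h3 : δ3 = g * η / (40 * (CK + 1))) : 0 < δ3 ∧ CK * δ3 ≤ g / 40 ∧ 4 / η * δ3 ≤ g / 10 := by
  have hδ3 : 0 < δ3 := by rw [h3]; positivity
  have q1 : (CK + 1) * δ3 = g * η / 40 := by rw [h3]; field_simp
  refine ⟨hδ3, by nlinarith, ?_⟩
  rw [div_mul_eq_mul_div, div_le_iff₀ hη0]
  nlinarith [mul_nonneg hCK hδ3.le]

theorem x5_alg {θ g η CK δ1 δ3 δ c A D J1 J2 T R C1 C2 C3 C4 : ℝ} (hθ : 0 ≤ θ) (hg : g = 1 - θ)
    (hg0 : 0 < g) (hη : η = g / 20) (hCK : 0 ≤ CK) (hc : 0 < c) (h1 : CK * δ1 ≤ η)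
    (h1' : 4 * (CK * δ1) ≤ g / (8 * c)) (hδ1 : 0 ≤ δ1) (h3 : δ3 = g * η / (40 * (CK + 1)))
    (hδ : δ = g / (8 * c)) (hA : 0 ≤ A) (hD : 0 ≤ D) (hT : 0 ≤ T) (hR : 0 ≤ R)
    (hC1 : 0 ≤ C1) (hC2 : 0 ≤ C2) (hC3 : 0 ≤ C3)
    (k1 : D ≤ θ * A + CK * J1 + CK * J2) (k2 : J1 ≤ δ1 * D + δ1 * T + C1 * R)
    (k3 : J2 ≤ δ3 * A + C2 * R)
    (k4 : (1 - η) * A ≤ (1 + η) ^ 2 * D + (1 + η) * (1 + 1 / η) * J2 + δ * T + C3 * R)
    (k5 : T ≤ c * A + C4 * R) :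
    T ≤ 2 * (2 * c / g * (4 * (CK * (C1 + C2)) + 4 / η * C2 + C3) + C4) * R := by
  have hg1 : g ≤ 1 := by linarith
  have hη0 : 0 < η := by linarith
  have hη1 : η ≤ 1 / 20 := by linarith
  have hδ0 : 0 < δ := by rw [hδ]; positivity
  obtain ⟨hδ3, q2, q3⟩ := x5_num3 hg0 hη0 hη1 hCK h3
  obtain ⟨q4, q6⟩ := x5_num2 hη0 hη1
  have q5 : 0 ≤ (1 + η) * (1 + 1 / η) := by positivity
  have a1 : (1 - η) * D ≤ (θ + g / 40) * A + CK * δ1 * T + CK * (C1 + C2) * R := by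
    have b1 := mul_le_mul_of_nonneg_left k2 hCK
    have b2 := mul_le_mul_of_nonneg_left k3 hCK
    have b3 := mul_le_mul_of_nonneg_right h1 hD
    have b4 := mul_le_mul_of_nonneg_right q2 hA
    linarith
  have a2 : (1 - η) * A ≤ (1 + 3 * η) * D + g / 10 * A + δ * T + (4 / η * C2 + C3) * R := by
    have b1 := mul_le_mul_of_nonneg_left k3 q5
    have b2 := mul_le_mul_of_nonneg_right q4 (show 0 ≤ δ3 * A + C2 * R by positivity)
    have b3 := mul_le_mul_of_nonneg_right q3 hA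
    have b4 := mul_le_mul_of_nonneg_right q6 hD
    linarith
  have hX : 0 ≤ 4 / η * C2 + C3 := by positivity
  have hZ : 0 ≤ CK * (C1 + C2) := by positivity
  have hU : 0 ≤ CK * δ1 := by positivity
  rw [add_assoc (4 * (CK * (C1 + C2)))]
  generalize 4 / η * C2 + C3 = X at a2 hX ⊢
  have a3 : g / 2 * A ≤ (4 * (CK * δ1) + δ) * T + (4 * (CK * (C1 + C2)) + X) * R := by
    generalize CK * (C1 + C2) = Z at a1 hZ
    generalize CK * δ1 = U at a1 hU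
    have b1 := mul_le_mul_of_nonneg_left a2 (show 0 ≤ 1 - η by linarith)
    have b2 := mul_le_mul_of_nonneg_left a1 (show 0 ≤ 1 + 3 * η by linarith)
    have b3 : g / 2 + (1 + 3 * η) * (θ + g / 40) + (1 - η) * (g / 10) ≤ (1 - η) * (1 - η) := by
      rw [hη, show θ = 1 - g by linarith]
      exact x5_num hg0
    have b4 := mul_le_mul_of_nonneg_right b3 hA
    have b5 := mul_le_mul_of_nonneg_right (show 1 + 3 * η ≤ 4 by linarith)
      (show 0 ≤ U * T + Z * R by positivity)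
    have b6 := mul_le_mul_of_nonneg_right (show 1 - η ≤ 1 by linarith)
      (show 0 ≤ δ * T + X * R by positivity)
    linarith
  have a4 : (4 * (CK * δ1) + δ) * T ≤ g / (4 * c) * T := by
    refine mul_le_mul_of_nonneg_right ?_ hT
    have : g / (4 * c) = g / (8 * c) + g / (8 * c) := by field_simp; ring
    linarith
  have a5 := mul_le_mul_of_nonneg_left (a3.trans (add_le_add_left a4 _))
    (show 0 ≤ 2 * c / g by positivity)
  have e1 : 2 * c / g * (g / 2 * A) = c * A := by field_simp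
  have e2 : 2 * c / g * (g / (4 * c) * T) = T / 2 := by field_simp; ring
  rw [e1, mul_add, e2] at a5
  linarith

/-- **X5** from its leaves -/
theorem x5_of (h1 : NP1Stmt n) (h2 : NP2Stmt n) (hY : YBStmt n) (hO : OMStmt n) (hSK : SKStmt n)
    (hS : STStmt n) (h3 : 3 ≤ n) (h8 : n ≤ 8) : X5Stmt n := by
  intro β hβ0 hβ1
  obtain ⟨yy, HH, K, θ, eK, CK, hK0, hθ0, hθ1, heK, hCK, hK⟩ := hSK h3 h8
  obtain ⟨g, hg⟩ : ∃ g, g = 1 - θ := ⟨_, rfl⟩
  have hg0 : 0 < g := by linarith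
  obtain ⟨η, hη⟩ : ∃ η, η = g / 20 := ⟨_, rfl⟩
  have hη0 : 0 < η := by linarith
  have hη1 : η ≤ 1 := by linarith
  obtain ⟨c, hc, H1⟩ := s1 h1 h2 hK hK0 hβ0 hβ1
  obtain ⟨h, e3, l3, hh, hh8, he3, hl3, H3⟩ :=
    s3 hS hK hK0 (δ := g / (8 * c)) hβ0 hβ1 hη0 hη1 (by positivity)
  obtain ⟨e1, l1, he1, hl1, H1⟩ := H1 h hh hh8
  obtain ⟨δ1, hδ1⟩ : ∃ δ1, δ1 = min η (g / (32 * c)) / (CK + 1) := ⟨_, rfl⟩
  have hδ10 : 0 < δ1 := by rw [hδ1]; positivity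
  have q1 : CK * δ1 ≤ min η (g / (32 * c)) := by
    rw [hδ1, ← mul_div_assoc, div_le_iff₀ (by positivity)]
    have : 0 < min η (g / (32 * c)) := by positivity
    linarith
  obtain ⟨e2, l2, he2, hl2, H2⟩ := i1 h2 hY hO hK hK0 hβ0 hβ1 hh hh8 hδ10
  obtain ⟨e, he⟩ : ∃ e, e = min (min e1 e2) (min e3 (min (eK / 2) 1)) := ⟨_, rfl⟩
  have he0 : 0 < e := by rw [he]; positivity
  have hee := he.le
  simp only [le_min_iff] at hee
  obtain ⟨C4, hC4, H1⟩ := H1 e he0 hee.1.1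
  obtain ⟨C1, hC1, H2⟩ := H2 e he0 hee.1.2
  obtain ⟨C3, hC3, H3⟩ := H3 e he0 hee.2.1
  have hδ3 : g * η / (40 * (CK + 1)) ≤ 1 := by
    rw [div_le_one (by positivity)]
    nlinarith
  obtain ⟨C2, hC2, H4⟩ := i2 hK hK0 hβ0 hβ1 (M := 16 / h) (δ := g * η / (40 * (CK + 1)))
    (by positivity) (by positivity) hδ3 he0
  obtain ⟨Mh, hMh⟩ := mh_bd hh
  obtain ⟨C, hC⟩ : ∃ C, C = 2 * (2 * c / g * (4 * (CK * (C1 + C2)) + 4 / η * C2 + C3) + C4) :=
    ⟨_, rfl⟩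
  have hC0 : 0 ≤ C := by rw [hC]; positivity
  refine ⟨e, min l1 (min l2 l3), C, he0, by positivity, hC0, fun v P om hv hst hw => ?_⟩
  have hs := hv.toSol
  have key : ∀ ε, 0 < ε → ε ≤ e → TT β v P om ≤ C * RR β e ε v P om := by
    intro ε hε hεe
    have hε1 : ε ≤ 1 := hεe.trans hee.2.2.2
    have hm := nw_mh hs hh hh8
    rw [hC]
    refine x5_alg hθ0 hg hg0 hη hCK hc (q1.trans (min_le_left _ _)) ?_ hδ10.le rfl rfl
      (hK.AA_nonneg hs P hε hm) (hK.DD_nonneg hs P hε hm) (TT_nonneg hs P hw)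
      (RR_nonneg hs P hw hε) hC1 hC2 hC3
      (hK.sim v P ε Mh (mh h) (gg e v om) hs hε hε1 (contDiff_infty.1 (mh_sm h) 1) hMh
        (gg_cd hs hw) (fun x hx => gg_zero he0 (by linarith [hee.2.2.1])) (integ_gg_sq hs hw)
        (integ_gsq_gg hs hw))
      (H2 v P om ε hv (hw.mono ((min_le_right _ _).trans (min_le_left _ _))) hε hεe)
      (H4 v P om _ ε _ hs hw hε hε1 hm)
      (H3 v P om ε hv hst (hw.mono ((min_le_right _ _).trans (min_le_right _ _))) hε hε1)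
      (H1 v P om ε hv (hw.mono (min_le_left _ _)) hε hε1)
    have := q1.trans (min_le_right _ _)
    have e4 : g / (8 * c) = 4 * (g / (32 * c)) := by field_simp; ring
    linarith
  refine le_of_forall_pos_le_add fun τ hτ => ?_
  have hMU := MU_nonneg (v := v) hw
  have hF1 := P.pos 1 one_pos
  obtain ⟨ε, hε⟩ : ∃ ε, ε = min e (τ / (C * (P.F 1 * MU v om) + 1)) := ⟨_, rfl⟩
  have hε0 : 0 < ε := by rw [hε]; positivity
  have hεe : ε ≤ e := hε.le.trans (min_le_left _ _)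
  have hε1 : ε ≤ 1 := hεe.trans hee.2.2.2
  have a1 := (le_div_iff₀ (by positivity)).1 (hε.le.trans (min_le_right _ _))
  have a2 : P.F ε ≤ ε * P.F 1 := by
    have := P.scale_dn hε0.le hε1 zero_le_one
    rw [mul_one] at this
    nlinarith [mul_le_mul_of_nonneg_right hε1 (mul_pos hε0 hF1).le]
  have a3 := mul_le_mul_of_nonneg_left (mul_le_mul_of_nonneg_right a2 hMU) hC0
  have a4 := key ε hε0 hεe
  rw [RR] at a4
  linarith

/-! ### the model profile -/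

/-- `y^(5/2) / √(1 + ρ² y)` -/
def profF (ρ y : ℝ) : ℝ := y ^ (5 / 2 : ℝ) * (1 + ρ ^ 2 * y) ^ (-(1 / 2) : ℝ)

theorem profF_hd (ρ : ℝ) {y : ℝ} (hy : 0 < y) : HasDerivAt (profF ρ)
    (profF ρ y * (5 / 2 / y - ρ ^ 2 / (2 * (1 + ρ ^ 2 * y)))) y := by
  have h0 : 0 < 1 + ρ ^ 2 * y := by positivity
  have h1 := (Real.hasDerivAt_rpow_const (x := y) (p := 5 / 2) (Or.inl hy.ne')).mul
    ((((hasDerivAt_id y).const_mul (ρ ^ 2)).const_add 1).rpow_const (p := -(1 / 2))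
      (Or.inl h0.ne'))
  refine h1.congr_deriv ?_
  simp only [id, profF, mul_one]
  rw [Real.rpow_sub_one hy.ne', Real.rpow_sub_one h0.ne']
  field_simp
  ring

theorem profF_pos (ρ : ℝ) {y : ℝ} (hy : 0 < y) : 0 < profF ρ y := by
  have h0 : 0 < 1 + ρ ^ 2 * y := by positivity
  exact mul_pos (Real.rpow_pos_of_pos hy _) (Real.rpow_pos_of_pos h0 _)

/-- the model profile -/
def prof (ρ : ℝ) : Prof where
  F := profF ρ
  sm := fun y hy => by
    have hy' : (0 : ℝ) < y := hy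
    have h0 : 0 < 1 + ρ ^ 2 * y := by positivity
    exact ((contDiffAt_id.rpow_const_of_ne hy'.ne').mul ((contDiffAt_const.add
      (contDiffAt_const.mul contDiffAt_id)).rpow_const_of_ne h0.ne')).contDiffWithinAt
  zero := by simp [profF]
  pos := fun _ hy => profF_pos ρ hy
  lo := fun y hy => by
    have h0 : 0 < 1 + ρ ^ 2 * y := by positivity
    have h1 : 2 ≤ y * (5 / 2 / y - ρ ^ 2 / (2 * (1 + ρ ^ 2 * y))) := by
      have : y * (5 / 2 / y - ρ ^ 2 / (2 * (1 + ρ ^ 2 * y))) = 2 + 1 / (2 * (1 + ρ ^ 2 * y)) := by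
        field_simp; ring
      rw [this]
      have : 0 < 1 / (2 * (1 + ρ ^ 2 * y)) := by positivity
      linarith
    rw [(profF_hd ρ hy).deriv]
    nlinarith [mul_le_mul_of_nonneg_left h1 (profF_pos ρ hy).le]
  hi := fun y hy => by
    have h0 : 0 < 1 + ρ ^ 2 * y := by positivity
    have h1 : y * (5 / 2 / y - ρ ^ 2 / (2 * (1 + ρ ^ 2 * y))) ≤ 5 / 2 := by
      have : y * (5 / 2 / y) = 5 / 2 := by field_simp
      have : 0 ≤ y * (ρ ^ 2 / (2 * (1 + ρ ^ 2 * y))) := by positivity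
      linarith
    rw [(profF_hd ρ hy).deriv]
    nlinarith [mul_le_mul_of_nonneg_left h1 (profF_pos ρ hy).le]
  cv := fun y hy => by
    have h0 : 0 < 1 + ρ ^ 2 * y := by positivity
    have e : deriv (profF ρ) =ᶠ[𝓝 y]
        fun y => profF ρ y * (5 / 2 / y - ρ ^ 2 / (2 * (1 + ρ ^ 2 * y))) := by
      filter_upwards [Ioi_mem_nhds hy] with s hs
      exact (profF_hd ρ hs).deriv
    have h1 := (profF_hd ρ hy).mul (((hasDerivAt_const y (5 / 2 : ℝ)).div (hasDerivAt_id y)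
      hy.ne').sub ((hasDerivAt_const y (ρ ^ 2)).div ((((hasDerivAt_id y).const_mul
        (ρ ^ 2)).const_add 1).const_mul 2) (by simp only [id]; positivity)))
    rw [e.deriv_eq, show deriv (fun y => profF ρ y * (5 / 2 / y - ρ ^ 2 / (2 * (1 + ρ ^ 2 * y)))) y
      = _ from h1.deriv]
    simp only [id, Pi.sub_apply, Pi.div_apply, zero_mul, mul_one, zero_sub]
    have hF := profF_pos ρ hy
    obtain ⟨s, hs⟩ : ∃ s, s = ρ ^ 2 * y := ⟨_, rfl⟩
    have hs0 : 0 ≤ s := by rw [hs]; positivity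
    have e2 : ρ ^ 2 = s / y := by rw [hs]; field_simp
    rw [← hs, e2, ← sub_nonneg]
    have : y ^ 2 * (profF ρ y * (5 / 2 / y - s / y / (2 * (1 + s))) *
        (5 / 2 / y - s / y / (2 * (1 + s))) + profF ρ y *
        (-(5 / 2) / y ^ 2 - -(s / y * (2 * (s / y))) / (2 * (1 + s)) ^ 2)) - profF ρ y =
        profF ρ y * (11 + 12 * s + 4 * s ^ 2) / (4 * (1 + s) ^ 2) := by
      field_simp
      ring
    rw [this]
    positivity

theorem prof_le (ρ : ℝ) {y : ℝ} (hy : 0 ≤ y) : (prof ρ).F y ≤ y ^ (5 / 2 : ℝ) :=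
  mul_le_of_le_one_right (Real.rpow_nonneg hy _)
    (Real.rpow_le_one_of_one_le_of_nonpos (le_add_of_nonneg_right (by positivity)) (by norm_num))

theorem prof_eq (ρ : ℝ) {y : ℝ} (hy : 0 ≤ y) : (prof ρ).F y = y ^ 2 * √y / √(1 + ρ ^ 2 * y) := by
  have h0 : 0 < 1 + ρ ^ 2 * y := by positivity
  change y ^ (5 / 2 : ℝ) * (1 + ρ ^ 2 * y) ^ (-(1 / 2) : ℝ) = _
  rw [Real.rpow_neg h0.le, Real.sqrt_eq_rpow, Real.sqrt_eq_rpow, ← div_eq_mul_inv,
    show (5 / 2 : ℝ) = (2 : ℕ) + 1 / 2 by norm_num, Real.rpow_add' hy (by norm_num),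
    Real.rpow_natCast]

theorem prof_le' {ρ : ℝ} (hρ : 0 < ρ) {y : ℝ} (hy : 0 ≤ y) : (prof ρ).F y ≤ y ^ 2 / ρ := by
  have h0 : 0 < 1 + ρ ^ 2 * y := by positivity
  rw [prof_eq ρ hy, div_le_div_iff₀ (Real.sqrt_pos.2 h0) hρ, mul_assoc]
  refine mul_le_mul_of_nonneg_left (Real.le_sqrt_of_sq_le ?_) (sq_nonneg y)
  rw [mul_pow, Real.sq_sqrt hy]
  linarith

/-- `min (1, (ρ a)³) a² ≤ 2 ρ³ F (a²)` -/
theorem le_prof {ρ a : ℝ} (hρ : 0 < ρ) (ha : 0 ≤ a) :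
    min 1 ((ρ * a) ^ 3) * a ^ 2 ≤ 2 * ρ ^ 3 * (prof ρ).F (a ^ 2) := by
  have h0 : 0 < 1 + ρ ^ 2 * a ^ 2 := by positivity
  obtain ⟨s, hs⟩ : ∃ s, s = ρ * a := ⟨_, rfl⟩
  have hs0 : 0 ≤ s := by rw [hs]; positivity
  have h1 : min 1 (s ^ 3) * √(1 + s ^ 2) ≤ 2 * s ^ 3 := by
    rcases le_total s 1 with h | h
    · have : √(1 + s ^ 2) ≤ 2 := Real.sqrt_le_iff.2 ⟨by norm_num, by nlinarith⟩
      rw [mul_comm 2]
      exact mul_le_mul (min_le_right _ _) this (Real.sqrt_nonneg _) (by positivity)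
    · have a1 : √(1 + s ^ 2) ≤ 2 * s := Real.sqrt_le_iff.2 ⟨by positivity, by nlinarith⟩
      have a2 : s ≤ s ^ 3 := le_self_pow₀ h (by norm_num)
      have a3 := mul_le_mul (min_le_left 1 (s ^ 3)) a1 (Real.sqrt_nonneg _) zero_le_one
      linarith
  rw [prof_eq ρ (sq_nonneg a), Real.sqrt_sq ha, ← mul_div_assoc, le_div_iff₀ (Real.sqrt_pos.2 h0),
    ← mul_pow ρ a 2, ← hs]
  have h2 := mul_le_mul_of_nonneg_right h1 (sq_nonneg a)
  have h3 : 2 * ρ ^ 3 * ((a ^ 2) ^ 2 * a) = 2 * s ^ 3 * a ^ 2 := by rw [hs]; ring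
  linarith

end

end Crest.Agent.N067.Y
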