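import Crest.Agent.N067.Y.GE

/-!
# Row 67, block X5 (helper54): the objects of the assembly
-/

set_option autoImplicit false

open MeasureTheory Laplacian InnerProductSpace Topology Filter Set
open scoped RealInnerProductSpace Gradient ContDiff

namespace Crest.Agent.N067.Y

open Crest.Agent.R077

noncomputable section

variable {n : ℕ}

/-! ### monotonicity of integrals -/

theorem int_le2 {f f1 f2 : EE n → ℝ} {a b : ℝ} (hf : Integrable f) (h1 : Integrable f1)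
    (h2 : Integrable f2) (h : ∀ x, f x ≤ a * f1 x + b * f2 x) :
    ∫ x, f x ≤ a * (∫ x, f1 x) + b * ∫ x, f2 x := by
  rw [← integral_const_mul, ← integral_const_mul,
    ← integral_add (h1.const_mul a) (h2.const_mul b)]
  exact integral_mono hf ((h1.const_mul a).add (h2.const_mul b)) h

theorem int_le3 {f f1 f2 f3 : EE n → ℝ} {a b c : ℝ} (hf : Integrable f) (h1 : Integrable f1)
    (h2 : Integrable f2) (h3 : Integrable f3) (h : ∀ x, f x ≤ a * f1 x + b * f2 x + c * f3 x) :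
    ∫ x, f x ≤ a * (∫ x, f1 x) + b * (∫ x, f2 x) + c * ∫ x, f3 x := by
  have := int_le2 (f1 := fun x => a * f1 x + b * f2 x) (a := 1) (b := c) hf
    ((h1.const_mul a).add (h2.const_mul b)) h3 fun x => by simpa using h x
  rwa [one_mul, integral_add (h1.const_mul a) (h2.const_mul b), integral_const_mul,
    integral_const_mul] at this

theorem int_le4 {f f1 f2 f3 f4 : EE n → ℝ} {a b c d : ℝ} (hf : Integrable f) (h1 : Integrable f1)
    (h2 : Integrable f2) (h3 : Integrable f3) (h4 : Integrable f4)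
    (h : ∀ x, f x ≤ a * f1 x + b * f2 x + c * f3 x + d * f4 x) :
    ∫ x, f x ≤ a * (∫ x, f1 x) + b * (∫ x, f2 x) + c * (∫ x, f3 x) + d * ∫ x, f4 x := by
  have := int_le3 (f1 := fun x => a * f1 x + b * f2 x) (a := 1) (b := c) (c := d) hf
    ((h1.const_mul a).add (h2.const_mul b)) h3 h4 fun x => by simpa using h x
  rwa [one_mul, integral_add (h1.const_mul a) (h2.const_mul b), integral_const_mul,
    integral_const_mul] at this

/-! ### the weight `mh` -/

theorem mh_nonneg {h : ℝ} (h0 : 0 < h) (s : ℝ) : 0 ≤ mh h s := div_nonneg (sq_nonneg _) h0.le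

theorem mh_sm (h : ℝ) : ContDiff ℝ ∞ (mh h) :=
  ((Psi_sm.comp (contDiff_id.div_const h)).pow 2).div_const h

theorem mh_le {h : ℝ} (h0 : 0 < h) (h8 : h ≤ 1 / 8) (s : ℝ) : mh h s ≤ 16 / h * Psi s ^ 8 := by
  have h1 : Psi (s / h) ≤ 4 * Psi s ^ 4 := by
    refine (Psi_le_exp _).trans (mul_le_mul_of_nonneg_left ?_ (by norm_num))
    refine le_trans ?_ (pow_le_pow_left₀ (Real.exp_pos _).le (exp_le_Psi s) 4)
    rw [← Real.exp_nat_mul, Real.exp_le_exp, abs_div, abs_of_pos h0]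
    have : 4 * |s| ≤ |s| / h := by
      rw [le_div_iff₀ h0]
      nlinarith [abs_nonneg s]
    push_cast
    nlinarith [sqrt2_pos]
  rw [mh, div_mul_eq_mul_div]
  refine div_le_div_of_nonneg_right ?_ h0.le
  nlinarith [pow_le_pow_left₀ (Psi_pos _).le h1 2]

theorem integral_mh {h : ℝ} (h0 : 0 < h) : ∫ s, mh h s = ∫ s, Psi s ^ 2 := by
  have := Measure.integral_comp_div (fun s => Psi s ^ 2) h
  simp only [mh]
  rw [integral_div, this, abs_of_pos h0, smul_eq_mul]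
  field_simp

theorem hasDerivAt_Psi (s : ℝ) : ∃ a, HasDerivAt Psi a s ∧ |a| ≤ 2 := by
  have hc := Real.cosh_pos (s / Real.sqrt 2)
  have h1 : HasDerivAt (fun s => Real.cosh (s / Real.sqrt 2))
      (Real.sinh (s / Real.sqrt 2) * (1 / Real.sqrt 2)) s :=
    (Real.hasDerivAt_cosh _).comp s ((hasDerivAt_id s).div_const _)
  have h2 := (hasDerivAt_const s (1 : ℝ)).div (h1.pow 2) (pow_ne_zero 2 hc.ne')
  have e : Psi = fun s => 1 / Real.cosh (s / Real.sqrt 2) ^ 2 := funext Psi_eq_cosh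
  refine ⟨_, by rw [e]; exact h2, ?_⟩
  set c := Real.cosh (s / Real.sqrt 2)
  set σ := Real.sinh (s / Real.sqrt 2)
  have hc1 : 1 ≤ c := Real.one_le_cosh _
  have hσ : |σ| ≤ c := by
    refine abs_le_of_sq_le_sq ?_ hc.le
    have := Real.cosh_sq (s / Real.sqrt 2)
    linarith
  have hr : 1 / Real.sqrt 2 ≤ 1 := by
    rw [div_le_one sqrt2_pos]
    nlinarith [sqrt2_mul, sqrt2_pos]
  have hr0 : 0 < 1 / Real.sqrt 2 := by have := sqrt2_pos; positivity
  simp only [Pi.pow_apply, zero_mul, one_mul, zero_sub, Nat.cast_ofNat, Nat.add_one_sub_one,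
    pow_one]
  rw [abs_div, abs_neg, abs_mul, abs_mul, abs_mul, abs_of_pos hc, abs_of_pos hr0,
    abs_of_pos (show (0 : ℝ) < (c ^ 2) ^ 2 by positivity), div_le_iff₀ (by positivity),
    abs_two]
  have h3 : |σ| * (1 / Real.sqrt 2) ≤ c := (mul_le_of_le_one_right (abs_nonneg _) hr).trans hσ
  have h4 : 1 ≤ c ^ 2 := one_le_pow₀ hc1
  nlinarith [mul_le_mul_of_nonneg_left h3 hc.le]

theorem mh_bd {h : ℝ} (h0 : 0 < h) :
    ∃ M : ℝ, ∀ s, 0 ≤ mh h s ∧ mh h s ≤ M ∧ |deriv (mh h) s| ≤ M := by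
  refine ⟨1 / h + 4 / h ^ 2, fun s => ⟨mh_nonneg h0 s, ?_, ?_⟩⟩
  · have : mh h s ≤ 1 / h :=
      div_le_div_of_nonneg_right (pow_le_one₀ (Psi_pos _).le (Psi_le_one _)) h0.le
    have : 0 ≤ 4 / h ^ 2 := by positivity
    linarith
  · obtain ⟨a, ha, hb⟩ := hasDerivAt_Psi (s / h)
    have h1 : HasDerivAt (fun s => Psi (s / h)) (a * (1 / h)) s :=
      HasDerivAt.comp (h₂ := Psi) (h := fun s => s / h) s ha ((hasDerivAt_id s).div_const h)
    have h2 : HasDerivAt (mh h) _ s := (h1.pow 2).div_const h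
    rw [h2.deriv]
    simp only [Nat.cast_ofNat, Nat.add_one_sub_one, pow_one]
    have e : 2 * Psi (s / h) * (a * (1 / h)) / h = 2 * (Psi (s / h) * a) / h ^ 2 := by field_simp
    rw [e, abs_div, abs_mul, abs_mul, abs_two, abs_of_pos (Psi_pos _),
      abs_of_pos (show 0 < h ^ 2 by positivity)]
    have : 2 * (Psi (s / h) * |a|) / h ^ 2 ≤ 4 / h ^ 2 := by
      refine div_le_div_of_nonneg_right ?_ (by positivity)
      nlinarith [mul_le_of_le_one_left (abs_nonneg a) (Psi_le_one (s / h))]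
    have : 0 ≤ 1 / h := by positivity
    linarith

/-! ### the root `gg` of the cut weight -/

/-- `χ(t/e) √ω` -/
def gg (e : ℝ) (v om : EE n → ℝ) (x : EE n) : ℝ := cut e v x * √(om x)

section gg

variable {v om : EE n → ℝ} {lam e : ℝ}

theorem gg_sq (hw : Wt lam om) (x : EE n) : gg e v om x ^ 2 = cut e v x ^ 2 * om x := by
  rw [gg, mul_pow, Real.sq_sqrt (hw.pos x).le]

theorem gg_sq_le (hw : Wt lam om) (x : EE n) : gg e v om x ^ 2 ≤ om x := by
  rw [gg_sq hw]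
  exact mul_le_of_le_one_left (hw.pos x).le (cut_sq_le_one e v x)

theorem sqrt_cd (hw : Wt lam om) : ContDiff ℝ 1 fun x => √(om x) :=
  hw.cd.sqrt fun x => (hw.pos x).ne'

theorem gg_cd (hv : Sol v) (hw : Wt lam om) : ContDiff ℝ 1 (gg e v om) :=
  (cut_cd hv e 1).mul (sqrt_cd hw)

theorem gg_zero (he : 0 < e) {x : EE n} (h : 2 * e ≤ tt v x) : gg e v om x = 0 := by
  rw [gg, cut_zero he h, zero_mul]

theorem gsq_gg (hv : Sol v) (hw : Wt lam om) (x : EE n) : gsq (gg e v om) x ≤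
    2 * ‖∇ (cut e v) x‖ ^ 2 * om x + (‖∇ om x‖ / om x) ^ 2 * gg e v om x ^ 2 := by
  have h0 := hw.pos x
  have hs : 0 < √(om x) := Real.sqrt_pos.2 h0
  have e1 : ∀ i, pdv i (gg e v om) x =
      pdv i (cut e v) x * √(om x) + cut e v x * (1 / (2 * √(om x)) * pdv i om x) := fun i => by
    rw [← pdv_comp (Real.hasDerivAt_sqrt h0.ne') (hw.diff x) i]
    exact pdv_mul (cut_diff hv e x) ((sqrt_cd hw).differentiable (by simp) x) i
  rw [gg_sq hw, div_pow, ← gsq_eq, ← gsq_eq]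
  simp only [gsq, e1, Finset.mul_sum, Finset.sum_mul, Finset.sum_div, ← Finset.sum_add_distrib]
  refine Finset.sum_le_sum fun i _ => ?_
  obtain ⟨r, hr⟩ : ∃ r, r = √(om x) := ⟨_, rfl⟩
  have hr2 : om x = r ^ 2 := by rw [hr, Real.sq_sqrt h0.le]
  rw [← hr] at hs ⊢
  rw [hr2]
  have e2 : pdv i om x ^ 2 / (r ^ 2) ^ 2 * (cut e v x ^ 2 * r ^ 2) =
      4 * (cut e v x * (1 / (2 * r) * pdv i om x)) ^ 2 := by field_simp; ring
  rw [e2]
  nlinarith [sq_nonneg (pdv i (cut e v) x * r - cut e v x * (1 / (2 * r) * pdv i om x)),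
    sq_nonneg (cut e v x * (1 / (2 * r) * pdv i om x))]

theorem lam_le (hw : Wt lam om) (x : EE n) : (‖∇ om x‖ / om x) ^ 2 ≤ lam ^ 2 :=
  pow_le_pow_left₀ (div_nonneg (norm_nonneg _) (hw.pos x).le)
    ((div_le_iff₀ (hw.pos x)).2 (hw.lip x)) 2

theorem lam_cont (hw : Wt lam om) : Continuous fun x => (‖∇ om x‖ / om x) ^ 2 :=
  ((St.continuous_grad hw.cd).norm.div hw.cont fun x => (hw.pos x).ne').pow 2

theorem cont_gsq {f : EE n → ℝ} (hf : ContDiff ℝ 1 f) : Continuous (gsq f) :=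
  continuous_finsetSum _ fun i _ => (St.continuous_pdv hf i).pow 2

theorem cont_gin {f g : EE n → ℝ} (hf : ContDiff ℝ 1 f) (hg : ContDiff ℝ 1 g) :
    Continuous (gin f g) :=
  continuous_finsetSum _ fun i _ => (St.continuous_pdv hf i).mul (St.continuous_pdv hg i)

theorem cont_tg (hv : Sol v) {f : EE n → ℝ} (hf : ContDiff ℝ 1 f) : Continuous (tg v f) :=
  ((continuous_const.sub hv.continuous_tt).mul (cont_gsq hf)).sub
    ((cont_gin (hv.dd_cd 1) hf).pow 2)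

theorem gsq_gg_bd (hv : Sol v) (hw : Wt lam om) (e : ℝ) :
    ∃ M : ℝ, ∀ x, gsq (gg e v om) x ≤ M * om x := by
  obtain ⟨C, h0, hC⟩ := grad_cut_bd n e
  refine ⟨2 * C ^ 2 + lam ^ 2, fun x => (gsq_gg hv hw x).trans ?_⟩
  have h1 := pow_le_pow_left₀ (norm_nonneg _) (hC v hv x) 2
  have h2 := mul_le_mul (lam_le hw x) (gg_sq_le (e := e) (v := v) hw x) (sq_nonneg _) (sq_nonneg _)
  nlinarith [mul_le_mul_of_nonneg_right h1 (hw.pos x).le]

theorem integ_gg_sq (hv : Sol v) (hw : Wt lam om) : Integrable fun x => gg e v om x ^ 2 :=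
  hw.integ' ((gg_cd hv hw).continuous.pow 2).aestronglyMeasurable (M := 1) fun x => by
    rw [abs_of_nonneg (sq_nonneg _), one_mul]; exact gg_sq_le hw x

theorem integ_gsq_gg (hv : Sol v) (hw : Wt lam om) : Integrable (gsq (gg e v om)) := by
  obtain ⟨M, hM⟩ := gsq_gg_bd hv hw e
  exact hw.integ' (cont_gsq (gg_cd hv hw)).aestronglyMeasurable (M := M) fun x => by
    rw [abs_of_nonneg (gsq_nonneg _ _)]; exact hM x

/-- integrability of `φ · (G · m)` for bounded continuous `φ`, `m` and integrable `G` -/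
theorem integ_mul {φ G m : EE n → ℝ} (hG : Integrable G) (hφ : Continuous φ) (hm : Continuous m)
    {a b : ℝ} (ha : ∀ x, |φ x| ≤ a) (hb : ∀ x, |m x| ≤ b) :
    Integrable fun x => φ x * (G x * m x) :=
  (hG.mul_bdd (c := b) hm.aestronglyMeasurable (ae_of_all _ hb)).bdd_mul (c := a)
    hφ.aestronglyMeasurable (ae_of_all _ ha)

theorem integ_LAM (hv : Sol v) (P : Prof) (hw : Wt lam om) :
    Integrable fun x => P.F ((‖∇ om x‖ / om x) ^ 2) * (psi v x ^ 2 * om x) :=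
  (integ_MU hv hw).bdd_mul (c := P.F (lam ^ 2))
    (P.cont (lam_cont hw) fun _ => sq_nonneg _).aestronglyMeasurable (ae_of_all _ fun x => by
      rw [Real.norm_eq_abs, abs_of_nonneg (P.nonneg (sq_nonneg _))]
      exact P.mono (sq_nonneg _) (lam_le hw x))

theorem LAM_nonneg (P : Prof) (hw : Wt lam om) : 0 ≤ LAM v P om :=
  integral_nonneg fun x => mul_nonneg (P.nonneg (sq_nonneg _))
    (mul_nonneg (sq_nonneg _) (hw.pos x).le)

end gg

/-! ### admissible normal weights -/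

/-- `0 ≤ m ≤ M ψ⁸`, continuous -/
structure NW (M : ℝ) (v m : EE n → ℝ) : Prop where
  cont : Continuous m
  nonneg : ∀ x, 0 ≤ m x
  le : ∀ x, m x ≤ M * psi v x ^ 8

theorem psi8_le {v : EE n → ℝ} (hv : Sol v) (x : EE n) {k : ℕ} (hk : k ≤ 8) :
    psi v x ^ 8 ≤ psi v x ^ k := pow_le_pow_of_le_one (hv.psi_pos x).le (psi_le_one v x) hk

theorem NW.M_nonneg {M : ℝ} {v m : EE n → ℝ} (h : NW M v m) (hv : Sol v) : 0 ≤ M :=
  nonneg_of_mul_nonneg_left ((h.nonneg 0).trans (h.le 0)) (pow_pos (hv.psi_pos 0) 8)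

theorem NW.le_pow {M : ℝ} {v m : EE n → ℝ} (h : NW M v m) (hv : Sol v) (x : EE n) {k : ℕ}
    (hk : k ≤ 8) : m x ≤ M * psi v x ^ k :=
  (h.le x).trans (mul_le_mul_of_nonneg_left (psi8_le hv x hk) (h.M_nonneg hv))

theorem NW.abs_le {M : ℝ} {v m : EE n → ℝ} (h : NW M v m) (hv : Sol v) (x : EE n) : |m x| ≤ M := by
  rw [abs_of_nonneg (h.nonneg x)]
  simpa using h.le_pow hv x (Nat.zero_le 8)

theorem nw_mh {v : EE n → ℝ} (hv : Sol v) {h : ℝ} (h0 : 0 < h) (h8 : h ≤ 1 / 8) :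
    NW (16 / h) v fun x => mh h (dd v x) :=
  ⟨(mh_sm h).continuous.comp hv.dd_sm.continuous, fun _ => mh_nonneg h0 _, fun x => by
    rw [psi_eq_Psi hv]; exact mh_le h0 h8 _⟩

theorem nw_psi {v : EE n → ℝ} (hv : Sol v) : NW 1 v fun x => psi v x ^ 8 :=
  ⟨hv.psi_sm.continuous.pow 8, fun x => (pow_pos (hv.psi_pos x) 8).le, fun x => by simp⟩

/-- `m F(y) ≤ M F(pb y)` -/
theorem NW.mul_F {M β : ℝ} {v m : EE n → ℝ} (h : NW M v m) (hv : Sol v) (h0 : 0 ≤ β) (h1 : β < 1)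
    (P : Prof) (x : EE n) {y : ℝ} (hy : 0 ≤ y) : P.F y * m x ≤ M * P.F (pb β v x * y) := by
  have a := mul_le_mul_of_nonneg_left (h.le_pow hv x (k := 6) (by norm_num)) (P.nonneg hy)
  have b := mul_le_mul_of_nonneg_left (psi6_le hv h0 h1 P x hy) (h.M_nonneg hv)
  linarith

/-- NP2 in the form used twice: from `ψ⁸` to `mh h` -/
theorem np2_mh (h2 : NP2Stmt n) {β K h δ : ℝ} (h0 : 0 ≤ β) (h1 : β < 1) (hh : 0 < h)
    (h8 : h ≤ 1 / 8) (hδ : 0 < δ) : ∃ e1 lam : ℝ, 0 < e1 ∧ 0 < lam ∧ ∀ e, 0 < e → e ≤ e1 →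
    ∃ C : ℝ, 0 ≤ C ∧ ∀ (v : EE n → ℝ) (P : Prof) (om y : EE n → ℝ) (ε : ℝ), Pos v → Wt lam om →
      ContDiff ℝ 1 y → 0 < ε → ε ≤ 1 → (∀ x, 0 < y x ∧ y x ≤ K * (tt v x + ε)) →
      (∀ x, tt v x ≤ 1 / 4 → |gin (dd v) y x| ≤ K * (tt v x * √(tt v x))) →
      ∫ x, psi v x ^ 8 * P.F (y x) * (cut e v x ^ 2 * om x) ≤
        (∫ x, P.F (y x) * (gg e v om x ^ 2 * mh h (dd v x))) +
          δ * TT β v P om + C * (BAD β v P om e + P.F ε * MU v om) := by
  obtain ⟨e1, lam, he1, hl, H⟩ := h2 β K (16 / h) δ h0 h1 hδ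
  refine ⟨e1, lam, he1, hl, fun e he hee => ?_⟩
  obtain ⟨C, hC, H⟩ := H e he hee
  refine ⟨C, hC, fun v P om y ε hv hw hy hε hε1 hb hn => ?_⟩
  have hI2 : 0 < ∫ s, Psi s ^ 2 :=
    (integral_pos_iff_support_of_nonneg (fun s => sq_nonneg _) (integrable_Psi_pow 1)).2 (by
      have : (Function.support fun s => Psi s ^ 2) = univ :=
        eq_univ_of_forall fun s => pow_ne_zero 2 (Psi_pos s).ne'
      rw [this]; simp)
  have hI8 : ∫ s, Psi s ^ 8 ≤ ∫ s, Psi s ^ 2 :=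
    integral_mono (integrable_Psi_pow 7) (integrable_Psi_pow 1) fun s =>
      pow_le_pow_of_le_one (Psi_pos s).le (Psi_le_one s) (by norm_num)
  set c := (∫ s, Psi s ^ 8) / ∫ s, Psi s ^ 2 with hc
  have hc0 : 0 ≤ c := div_nonneg (integral_nonneg fun s => (pow_pos (Psi_pos s) 8).le) hI2.le
  have hc1 : c ≤ 1 := (div_le_one hI2).2 hI8
  have hM : 1 ≤ 16 / h := by rw [le_div_iff₀ hh]; linarith
  have key := H v P om y (fun s => Psi s ^ 8) (fun s => c * mh h s) ε hv hw hy hε hε1 hb hn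
    (Psi_cont.pow 8) (continuous_const.mul (mh_sm h).continuous) (fun s => ⟨?_, ?_⟩) ?_
  · simp only [← psi_eq_Psi hv.toSol] at key
    refine key.trans (add_le_add_left (add_le_add_left ?_ _) _)
    have hyc := P.cont hy.continuous fun x => (hb x).1.le
    have hK : ∀ x, |P.F (y x)| ≤ P.F (|K| * 2) := fun x => by
      rw [abs_of_pos (P.pos _ (hb x).1)]
      refine P.mono (hb x).1.le ((hb x).2.trans ?_)
      have := hv.tt_nonneg x
      exact mul_le_mul (le_abs_self K) (by linarith [tt_le_one v x]) (by linarith) (abs_nonneg K)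
    have hi := integ_mul (integ_gg_sq (e := e) hv.toSol hw) hyc (nw_mh hv.toSol hh h8).cont hK
      ((nw_mh hv.toSol hh h8).abs_le hv.toSol)
    refine integral_mono_of_nonneg (ae_of_all _ fun x => ?_) hi (ae_of_all _ fun x => ?_)
    · exact mul_nonneg (mul_nonneg (mul_nonneg hc0 (mh_nonneg hh _)) (P.pos _ (hb x).1).le)
        (mul_nonneg (sq_nonneg _) (hw.pos x).le)
    · simp only
      rw [← gg_sq hw]
      have : 0 ≤ P.F (y x) * (gg e v om x ^ 2 * mh h (dd v x)) :=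
        mul_nonneg (P.pos _ (hb x).1).le (mul_nonneg (sq_nonneg _) (mh_nonneg hh _))
      nlinarith
  · rw [abs_of_pos (pow_pos (Psi_pos s) 8)]
    exact le_mul_of_one_le_left (pow_pos (Psi_pos s) 8).le hM
  · rw [abs_of_nonneg (mul_nonneg hc0 (mh_nonneg hh s))]
    exact (mul_le_of_le_one_left (mh_nonneg hh s) hc1).trans (mh_le hh h8 s)
  · rw [integral_const_mul, integral_mh hh, hc, div_mul_cancel₀ _ hI2.ne']

end

end Crest.Agent.N067.Y
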