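import Crest.Agent.N067.Y.X5a

/-!
# Row 67, block X5 (helper54): `TT ≤ c AA + C R` and the cost of the weight
-/

set_option autoImplicit false

open MeasureTheory Laplacian InnerProductSpace Topology Filter Set
open scoped RealInnerProductSpace Gradient ContDiff

namespace Crest.Agent.N067.Y

open Crest.Agent.R077

noncomputable section

variable {n : ℕ}

/-- `∫ Φ(a) g² m` -/
def AA (yy : Fam n) (m : EE n → ℝ) (e ε : ℝ) (v : EE n → ℝ) (P : Prof) (om : EE n → ℝ) : ℝ :=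
  ∫ x, P.F (yy v x + ε) * (gg e v om x ^ 2 * m x)

/-- `∫ f'(a)² |δ a|² g² m` -/
def DD (yy : Fam n) (m : EE n → ℝ) (e ε : ℝ) (v : EE n → ℝ) (P : Prof) (om : EE n → ℝ) : ℝ :=
  ∫ x, P.p (yy v x + ε) ^ 2 * P.W (yy v x + ε) * (tg v (yy v) x / (4 * (yy v x + ε))) *
    (gg e v om x ^ 2 * m x)

/-- the mean curvature error -/
def I1 (yy HH : Fam n) (m : EE n → ℝ) (e ε : ℝ) (v : EE n → ℝ) (P : Prof) (om : EE n → ℝ) : ℝ :=
  ∫ x, P.W (yy v x + ε) * (tg v (HH v) x + tt v x ^ 4) * (gg e v om x ^ 2 * m x)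

/-- the cut-off error -/
def I2 (yy : Fam n) (m : EE n → ℝ) (e ε : ℝ) (v : EE n → ℝ) (P : Prof) (om : EE n → ℝ) : ℝ :=
  ∫ x, P.F (yy v x + ε) / (yy v x + ε) * (gsq (gg e v om) x * m x)

/-- the admissible remainder -/
def RR (β e ε : ℝ) (v : EE n → ℝ) (P : Prof) (om : EE n → ℝ) : ℝ :=
  BAD β v P om e + LAM v P om + P.F ε * MU v om

variable {yy HH : Fam n} {K θ eK CK : ℝ}

section basic

variable {v om m : EE n → ℝ} {lam β e ε M : ℝ}

theorem RR_ge (hv : Sol v) (P : Prof) (hw : Wt lam om) (hε : 0 < ε) :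
    0 ≤ BAD β v P om e ∧ 0 ≤ LAM v P om ∧ 0 ≤ P.F ε * MU v om :=
  ⟨BAD_nonneg hv P hw e, LAM_nonneg P hw, mul_nonneg (P.pos _ hε).le (MU_nonneg hw)⟩

theorem RR_nonneg (hv : Sol v) (P : Prof) (hw : Wt lam om) (hε : 0 < ε) :
    0 ≤ RR β e ε v P om := by
  obtain ⟨a, b, c⟩ := RR_ge (β := β) (e := e) hv P hw hε
  exact add_nonneg (add_nonneg a b) c

theorem SKData.yy_le (hK : SKData yy HH K θ eK CK) :
    ∃ Ky : ℝ, 1 ≤ Ky ∧ ∀ v, Sol v → ∀ x, yy v x ≤ Ky * tt v x := by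
  obtain ⟨C, h0, hC⟩ := hK.o2.bd2
  exact ⟨C + 1, by linarith, fun v hv x => by
    nlinarith [(le_abs_self _).trans (hC v hv x), hv.tt_nonneg x]⟩

theorem SKData.Y_pos (hK : SKData yy HH K θ eK CK) (hv : Sol v) (hε : 0 < ε) (x : EE n) :
    0 < yy v x + ε := add_pos_of_nonneg_of_pos (hK.nonneg v hv x) hε

theorem SKData.Y_cd (hK : SKData yy HH K θ eK CK) (hv : Sol v) (ε : ℝ) :
    ContDiff ℝ 1 fun x => yy v x + ε := (hK.o2.cd hv 1).add contDiff_const

theorem SKData.Y_bd (hK : SKData yy HH K θ eK CK) (hv : Sol v) (ε : ℝ) :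
    ∃ B : ℝ, ∀ x, yy v x + ε ≤ B := by
  obtain ⟨C, -, hC⟩ := hK.o2.bd0
  exact ⟨C + ε, fun x => by linarith [(le_abs_self _).trans (hC v hv x)]⟩

theorem Prof.div_eq (P : Prof) {y : ℝ} (hy : 0 < y) : P.F y / y = P.W y * y := by
  rw [Prof.W]; field_simp

theorem SKData.int_AA (hK : SKData yy HH K θ eK CK) (hv : Sol v) (P : Prof) (hw : Wt lam om)
    (hε : 0 < ε) (hm : NW M v m) :
    Integrable fun x => P.F (yy v x + ε) * (gg e v om x ^ 2 * m x) := by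
  obtain ⟨B, hB⟩ := hK.Y_bd hv ε
  have hY := hK.Y_pos hv hε
  exact integ_mul (integ_gg_sq hv hw) (P.cont (hK.Y_cd hv ε).continuous fun x => (hY x).le) hm.cont
    (a := P.F B) (fun x => by rw [abs_of_pos (P.pos _ (hY x))]; exact P.mono (hY x).le (hB x))
    (hm.abs_le hv)

theorem SKData.int_I2 (hK : SKData yy HH K θ eK CK) (hv : Sol v) (P : Prof) (hw : Wt lam om)
    (hε : 0 < ε) (hm : NW M v m) :
    Integrable fun x => P.F (yy v x + ε) / (yy v x + ε) * (gsq (gg e v om) x * m x) := by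
  obtain ⟨B, hB⟩ := hK.Y_bd hv ε
  have hY := hK.Y_pos hv hε
  have hc := (hK.Y_cd hv ε).continuous
  refine integ_mul (integ_gsq_gg hv hw) ((P.cont hc fun x => (hY x).le).div hc fun x => (hY x).ne')
    hm.cont (a := P.W B * B) (fun x => ?_) (hm.abs_le hv)
  rw [abs_of_pos (div_pos (P.pos _ (hY x)) (hY x)), P.div_eq (hY x)]
  exact mul_le_mul (P.W_mono (hY x) (hB x)) (hB x) (hY x).le (P.W_pos ((hY x).trans_le (hB x))).le

theorem SKData.int_I1 (hK : SKData yy HH K θ eK CK) (hv : Sol v) (P : Prof) (hw : Wt lam om)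
    (hε : 0 < ε) (hm : NW M v m) : Integrable fun x =>
      P.W (yy v x + ε) * (tg v (HH v) x + tt v x ^ 4) * (gg e v om x ^ 2 * m x) := by
  obtain ⟨B, hB⟩ := hK.Y_bd hv ε
  obtain ⟨C, -, hC⟩ := hK.oH.tg.bd0
  have hY := hK.Y_pos hv hε
  refine integ_mul (integ_gg_sq hv hw) ((P.cont_W (hK.Y_cd hv ε).continuous hY).mul
    ((hK.oH.tg.cont hv).add (hv.continuous_tt.pow 4))) hm.cont (a := P.W B * (C + 1))
    (fun x => ?_) (hm.abs_le hv)
  have h1 : 0 ≤ tg v (HH v) x + tt v x ^ 4 :=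
    add_nonneg (tg_nonneg _ _ _) (pow_nonneg (hv.tt_nonneg x) 4)
  rw [abs_of_nonneg (mul_nonneg (P.W_pos (hY x)).le h1)]
  exact mul_le_mul (P.W_mono (hY x) (hB x)) (add_le_add ((le_abs_self _).trans (hC v hv x))
    (pow_le_one₀ (hv.tt_nonneg x) (tt_le_one v x))) h1 (P.W_pos ((hY x).trans_le (hB x))).le

theorem SKData.DD_ge (hK : SKData yy HH K θ eK CK) (hv : Sol v) (P : Prof) (hε : 0 < ε)
    (x : EE n) :
    0 ≤ P.p (yy v x + ε) ^ 2 * P.W (yy v x + ε) * (tg v (yy v) x / (4 * (yy v x + ε))) :=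
  mul_nonneg (mul_nonneg (sq_nonneg _) (P.W_pos (hK.Y_pos hv hε x)).le)
    (div_nonneg (tg_nonneg _ _ _) (mul_pos four_pos (hK.Y_pos hv hε x)).le)

theorem SKData.int_DD (hK : SKData yy HH K θ eK CK) (hv : Sol v) (P : Prof) (hw : Wt lam om)
    (hε : 0 < ε) (hm : NW M v m) : Integrable fun x =>
      P.p (yy v x + ε) ^ 2 * P.W (yy v x + ε) * (tg v (yy v) x / (4 * (yy v x + ε))) *
        (gg e v om x ^ 2 * m x) := by
  obtain ⟨B, hB⟩ := hK.Y_bd hv ε
  obtain ⟨C, hC0, hC⟩ := hK.o2.tg.bd0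
  have hY := hK.Y_pos hv hε
  have hc := (hK.Y_cd hv ε).continuous
  refine integ_mul (integ_gg_sq hv hw) ((((P.cont_p hc hY).pow 2).mul (P.cont_W hc hY)).mul
    ((hK.o2.tg.cont hv).div (continuous_const.mul hc) fun x => (mul_pos four_pos (hY x)).ne'))
    hm.cont (a := (3 / 2) ^ 2 * P.W B * (C / (4 * ε))) (fun x => ?_) (hm.abs_le hv)
  rw [abs_of_nonneg (hK.DD_ge hv P hε x)]
  have hWB := (P.W_pos ((hY x).trans_le (hB x))).le
  refine mul_le_mul (mul_le_mul (pow_le_pow_left₀ (by linarith [P.one_le_p (hY x)])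
    (P.p_le (hY x)) 2) (P.W_mono (hY x) (hB x)) (P.W_pos (hY x)).le (by positivity))
    (div_le_div₀ hC0 ((le_abs_self _).trans (hC v hv x)) (by positivity) ?_)
    (div_nonneg (tg_nonneg _ _ _) (mul_pos four_pos (hY x)).le) (by positivity)
  linarith [hK.nonneg v hv x]

theorem SKData.AA_nonneg (hK : SKData yy HH K θ eK CK) (hv : Sol v) (P : Prof)
    (hε : 0 < ε) (hm : NW M v m) : 0 ≤ AA yy m e ε v P om := integral_nonneg fun x =>
  mul_nonneg (P.pos _ (hK.Y_pos hv hε x)).le (mul_nonneg (sq_nonneg _) (hm.nonneg x))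

theorem SKData.DD_nonneg (hK : SKData yy HH K θ eK CK) (hv : Sol v) (P : Prof)
    (hε : 0 < ε) (hm : NW M v m) : 0 ≤ DD yy m e ε v P om := integral_nonneg fun x =>
  mul_nonneg (hK.DD_ge hv P hε x) (mul_nonneg (sq_nonneg _) (hm.nonneg x))

end basic

/-- `Y = yy + ε` is admissible for NP1 and NP2 -/
theorem SKData.adm (hK : SKData yy HH K θ eK CK) (hK0 : 0 ≤ K) : ∃ K' : ℝ, 1 ≤ K' ∧
    ∀ (v : EE n → ℝ) (ε : ℝ), Sol v → 0 < ε → ε ≤ 1 → ∀ x, yy v x + ε ≤ K' ∧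
      yy v x + ε ≤ K' * (tt v x + ε) ∧ (tt v x ≤ 1 / 4 →
        |gin (dd v) (fun y => yy v y + ε) x| ≤ K' * (tt v x * √(tt v x))) := by
  obtain ⟨Ky, h1, hy⟩ := hK.yy_le
  have h2 : 0 ≤ K * Ky := by positivity
  refine ⟨K * Ky + Ky + 1, by linarith, fun v ε hv hε hε1 x => ⟨?_, ?_, fun ht => ?_⟩⟩
  · nlinarith [hy v hv x, tt_le_one v x]
  · nlinarith [hy v hv x, hv.tt_nonneg x, mul_nonneg h2 (hv.tt_nonneg x), mul_nonneg h2 hε.le]
  · have e : gin (dd v) (fun y => yy v y + ε) x = gin (dd v) (yy v) x := by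
      simp only [gin, pdv_add_const]
    rw [e]
    refine (hK.nor v hv x ht).trans ?_
    have h3 : √(yy v x) ≤ Ky * √(tt v x) := by
      refine Real.sqrt_le_iff.2 ⟨by positivity, ?_⟩
      rw [mul_pow, Real.sq_sqrt (hv.tt_nonneg x)]
      exact (hy v hv x).trans (mul_le_mul_of_nonneg_right (by nlinarith) (hv.tt_nonneg x))
    have h4 : 0 ≤ tt v x * √(tt v x) := mul_nonneg (hv.tt_nonneg x) (Real.sqrt_nonneg _)
    have h5 := mul_le_mul_of_nonneg_left (mul_le_mul_of_nonneg_right h3 (hv.tt_nonneg x)) hK0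
    nlinarith

theorem s1_alg {CG K Kt Ca Cb e T A B L E G X Z : ℝ} (hCG : 0 ≤ CG) (hK : 0 ≤ K) (hKt : 0 ≤ Kt)
    (hCa : 0 ≤ Ca) (hCb : 0 ≤ Cb) (he : 0 < e) (he4 : e ≤ 1 / 4)
    (he3 : e ≤ 1 / (64 * (2 * K + 2) ^ 3 * (CG + 1))) (hT : 0 ≤ T) (hA : 0 ≤ A) (hB : 0 ≤ B)
    (hL : 0 ≤ L) (hE : 0 ≤ E) (k0 : T ≤ CG * G)
    (k1 : X ≤ 200 * Z + 1 / (256 * (CG + 1)) * T + Ca * B)
    (k2 : Z ≤ A + 1 / (256 * 200 * (CG + 1)) * T + Cb * (B + E))
    (k3 : G ≤ 64 * X + 8 * (2 * K + 2) ^ 3 * e ^ 2 * T + (2 * Kt + 2) ^ 3 * B) :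
    T ≤ 3 * 12800 * (CG + 1) * A +
      3 * (CG * (64 * (200 * Cb + Ca) + (2 * Kt + 2) ^ 3)) * (B + L + E) := by
  have q1 : CG * (64 * (1 / (256 * (CG + 1)))) ≤ 1 / 4 := by
    rw [mul_one_div, ← mul_div_assoc, div_le_iff₀ (by positivity)]; linarith
  have q2 : CG * (64 * 200 * (1 / (256 * 200 * (CG + 1)))) ≤ 1 / 4 := by
    rw [mul_one_div, ← mul_div_assoc, div_le_iff₀ (by positivity)]; linarith
  have q3 : CG * (8 * (2 * K + 2) ^ 3 * e ^ 2) ≤ 1 / 8 := by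
    have a : e * (64 * (2 * K + 2) ^ 3 * (CG + 1)) ≤ 1 := (le_div_iff₀ (by positivity)).1 he3
    have b : e ^ 2 ≤ e := by nlinarith
    have c := mul_le_mul_of_nonneg_left b (show 0 ≤ CG * (8 * (2 * K + 2) ^ 3) by positivity)
    have d : 0 ≤ e * (2 * K + 2) ^ 3 := by positivity
    linarith
  generalize 1 / (256 * (CG + 1)) = δ1 at k1 q1
  generalize 1 / (256 * 200 * (CG + 1)) = δ2 at k2 q2
  have hk : 0 ≤ (2 * Kt + 2) ^ 3 := by positivity
  generalize (2 * Kt + 2) ^ 3 = kt at k3 hk ⊢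
  generalize 8 * (2 * K + 2) ^ 3 * e ^ 2 = δ3 at k3 q3
  have k4 := mul_le_mul_of_nonneg_left k3 hCG
  have k5 := mul_le_mul_of_nonneg_left k1 (show 0 ≤ CG * 64 by positivity)
  have k6 := mul_le_mul_of_nonneg_left k2 (show 0 ≤ CG * 64 * 200 by positivity)
  have m1 := mul_le_mul_of_nonneg_right q1 hT
  have m2 := mul_le_mul_of_nonneg_right q2 hT
  have m3 := mul_le_mul_of_nonneg_right q3 hT
  have p1 : 0 ≤ CG * Cb * L := by positivity
  have p2 : 0 ≤ CG * Ca * (L + E) := by positivity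
  have p3 : 0 ≤ CG * kt * (L + E) := by positivity
  have p4 : 0 ≤ CG * Cb * B := by positivity
  have p5 : 0 ≤ CG * Ca * B := by positivity
  have p6 : 0 ≤ CG * kt * B := by positivity
  have p7 : 0 ≤ CG * Cb * E := by positivity
  have p8 : 0 ≤ CG * A := by positivity
  linarith

/-- the step `TT ≤ c AA + C R` -/
theorem s1 (h1 : NP1Stmt n) (h2 : NP2Stmt n) (hK : SKData yy HH K θ eK CK) (hK0 : 0 ≤ K) {β : ℝ}
    (hβ0 : 0 ≤ β) (hβ1 : β < 1) : ∃ c : ℝ, 0 < c ∧ ∀ h : ℝ, 0 < h → h ≤ 1 / 8 →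
    ∃ e1 lam : ℝ, 0 < e1 ∧ 0 < lam ∧ ∀ e, 0 < e → e ≤ e1 → ∃ C : ℝ, 0 ≤ C ∧
      ∀ (v : EE n → ℝ) (P : Prof) (om : EE n → ℝ) (ε : ℝ), Pos v → Wt lam om → 0 < ε → ε ≤ 1 →
        TT β v P om ≤ c * AA yy (fun x => mh h (dd v x)) e ε v P om + C * RR β e ε v P om := by
  obtain ⟨lG, CG, hlG, hCG, HG⟩ := geS n β hβ0 hβ1
  obtain ⟨Kt, hKt, Ht⟩ := hk_hsq n
  obtain ⟨Cg, hCg, Hg⟩ := hk_grad_t n
  obtain ⟨K', hK', Ha⟩ := hK.adm hK0
  refine ⟨3 * 12800 * (CG + 1), by positivity, fun h hh h8 => ?_⟩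
  set δ1 := 1 / (256 * (CG + 1)) with hδ1
  set δ2 := 1 / (256 * 200 * (CG + 1)) with hδ2
  set e3 := 1 / (64 * (2 * K + 2) ^ 3 * (CG + 1)) with he3
  obtain ⟨ea, la, hea, hla, H1⟩ := h1 β K' δ1 hβ0 hβ1 (by positivity)
  obtain ⟨eb, lb, heb, hlb, H2⟩ := np2_mh h2 (K := K') (δ := δ2) hβ0 hβ1 hh h8 (by positivity)
  refine ⟨min (min ea eb) (min e3 (1 / 4)), min lG (min la lb), by positivity, by positivity,
    fun e he hee => ?_⟩
  simp only [le_min_iff] at hee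
  obtain ⟨Ca, hCa, H1⟩ := H1 e he hee.1.1
  obtain ⟨Cb, hCb, H2⟩ := H2 e he hee.1.2
  refine ⟨3 * (CG * (64 * (200 * Cb + Ca) + (2 * Kt + 2) ^ 3)), by positivity,
    fun v P om ε hv hw hε hε1 => ?_⟩
  have hs := hv.toSol
  have hY := hK.Y_pos hs hε
  set g : EE n → ℝ := fun x => 2 * hsq (dd v) x + 2 * psi v x * tt v x ^ 2 with hg
  have hg0 : ∀ x, 0 ≤ g x := fun x => add_nonneg (mul_nonneg zero_le_two (hsq_nonneg _ _))
    (mul_nonneg (mul_nonneg zero_le_two (hs.psi_pos x).le) (sq_nonneg _))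
  have hg1 : ∀ x, g x ≤ 2 * hsq (dd v) x + 2 * tt v x ^ 2 := fun x => by
    have := mul_le_mul_of_nonneg_right (psi_le_one v x) (sq_nonneg (tt v x))
    simp only [hg]; linarith
  have hg2 : ∀ x, g x ≤ 2 * Kt + 2 := fun x => by
    have a := hg1 x
    have b := Ht v hs x
    have c := mul_le_mul_of_nonneg_left (tt_le_one v x) hKt
    have d := pow_le_one₀ (n := 2) (hs.tt_nonneg x) (tt_le_one v x)
    linarith
  have hgc : Continuous g := (continuous_const.mul hs.hsq_sm.continuous).add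
    ((continuous_const.mul hs.psi_sm.continuous).mul (hs.continuous_tt.pow 2))
  have k0 := HG v P om (tt v) g (2 * Kt + 2 + Cg) hs (hw.mono (min_le_left _ _)) (hs.tt_cd 2) hgc
    (fun x => ⟨hv.tpos x, by linarith [tt_le_one v x], by
      nlinarith [Hg v hs x, tt_le_one v x], hg0 x, by linarith [hg2 x]⟩)
    (fun x => by have := hs.Lm_tt x; simp only [hg, qq] at this ⊢; linarith)
  have k1 := H1 v P om (fun x => yy v x + ε) hv
    (hw.mono ((min_le_right _ _).trans (min_le_left _ _))) (hK.Y_cd hs ε)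
    (fun x => ⟨hY x, (Ha v ε hs hε hε1 x).1⟩) fun x => (Ha v ε hs hε hε1 x).2.2
  have k2 := H2 v P om (fun x => yy v x + ε) ε hv
    (hw.mono ((min_le_right _ _).trans (min_le_right _ _))) (hK.Y_cd hs ε) hε hε1
    (fun x => ⟨hY x, (Ha v ε hs hε hε1 x).2.1⟩) fun x => (Ha v ε hs hε hε1 x).2.2
  have iY : Integrable fun x => P.F (pb β v x * (yy v x + ε)) * (cut e v x ^ 2 * om x) := by
    have := (integ_F hs hβ0 P hw (hK.Y_cd hs ε).continuous fun x =>
      ⟨(hY x).le, (Ha v ε hs hε hε1 x).1⟩).mul_bdd (c := 1)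
      ((cut_cont hs e).pow 2).aestronglyMeasurable (ae_of_all _ fun x => by
        rw [Real.norm_eq_abs, abs_of_nonneg (sq_nonneg _)]; exact cut_sq_le_one e v x)
    exact this.congr (ae_of_all _ fun x => by simp only [Pi.pow_apply]; ring)
  have k3 : ∫ x, P.F (pb β v x * g x) * om x ≤
      64 * (∫ x, P.F (pb β v x * (yy v x + ε)) * (cut e v x ^ 2 * om x)) +
        8 * (2 * K + 2) ^ 3 * e ^ 2 * TT β v P om + (2 * Kt + 2) ^ 3 * BAD β v P om e := by
    rw [BAD_eq hs, TT]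
    refine int_le3 (integ_F hs hβ0 P hw hgc fun x => ⟨hg0 x, hg2 x⟩) iY (integ_TT hs hβ0 P hw)
      (integ_bad hs hβ0 P hw e) fun x => ?_
    have hp := pb_pos hs β x
    have ho := hw.pos x
    have ht := hv.tpos x
    have n1 := P.pos _ (mul_pos hp (hY x))
    have n2 := P.pos _ (mul_pos hp ht)
    have n3 := bad_nonneg (β := β) hs P hw e x
    rcases le_total (tt v x) e with hte | hte
    · rw [cut_one he hte]
      have c1 := (abs_le.1 (hK.cmp v hs x (hte.trans hee.2.2))).1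
      have c2 : g x ≤ 2 * (yy v x + ε) + (2 * K + 2) * (e * tt v x) := by
        have := mul_le_mul_of_nonneg_left (mul_le_mul_of_nonneg_right hte ht.le)
          (show 0 ≤ 2 * K + 2 by positivity)
        nlinarith [hg1 x]
      have c3 := P.mono (mul_nonneg hp.le (hg0 x)) (mul_le_mul_of_nonneg_left c2 hp.le)
      rw [mul_add _ (2 * (yy v x + ε))] at c3
      have c4 := P.add_le (a := pb β v x * (2 * (yy v x + ε)))
        (b := pb β v x * ((2 * K + 2) * (e * tt v x))) (by have := hY x; positivity) (by positivity)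
      have c5 := P.le_of_le_mul (K := 2) (a := pb β v x * (2 * (yy v x + ε)))
        (b := pb β v x * (yy v x + ε)) (by norm_num) (by have := hY x; positivity)
        (mul_pos hp (hY x)).le (by linarith)
      have c6 := P.le_of_le_small (K := 2 * K + 2) (s := e)
        (a := pb β v x * ((2 * K + 2) * (e * tt v x))) (b := pb β v x * tt v x) (by linarith) he.le
        (by linarith [hee.2.2]) (by positivity) (by positivity) (by linarith)
      have c7 : P.F (pb β v x * g x) ≤ 64 * P.F (pb β v x * (yy v x + ε)) +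
          8 * (2 * K + 2) ^ 3 * e ^ 2 * P.F (pb β v x * tt v x) := by linarith
      have c8 := mul_le_mul_of_nonneg_right c7 ho.le
      have : 0 ≤ (2 * Kt + 2) ^ 3 * bad β v P om e x := by positivity
      linarith
    · rw [bad_of_le hte]
      have c1 := P.le_of_le_mul (K := 2 * Kt + 2) (a := pb β v x * g x) (b := pb β v x)
        (by linarith) (mul_nonneg hp.le (hg0 x)) hp.le (by nlinarith [hg2 x])
      have c2 := mul_le_mul_of_nonneg_right c1 ho.le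
      have : 0 ≤ 64 * (P.F (pb β v x * (yy v x + ε)) * (cut e v x ^ 2 * om x)) := by positivity
      have : 0 ≤ 8 * (2 * K + 2) ^ 3 * e ^ 2 * (P.F (pb β v x * tt v x) * om x) := by positivity
      linarith
  obtain ⟨r1, r2, r3⟩ := RR_ge (β := β) (e := e) hs P hw hε
  have hT := TT_nonneg (β := β) hs P hw
  have hA := hK.AA_nonneg (e := e) (om := om) hs P hε (nw_mh hs hh h8)
  change TT β v P om ≤ _ at k0
  change _ ≤ AA yy (fun x => mh h (dd v x)) e ε v P om + _ + _ at k2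
  exact s1_alg hCG hK0 hKt hCa hCb he hee.2.2 hee.2.1 hT hA r1 r2 r3 k0 k1 k2 k3

/-- the cut-off error -/
theorem i2 (hK : SKData yy HH K θ eK CK) (hK0 : 0 ≤ K) {β : ℝ} (hβ0 : 0 ≤ β) (hβ1 : β < 1)
    {M δ e : ℝ} (hM : 0 ≤ M) (hδ : 0 < δ) (hδ1 : δ ≤ 1) (he : 0 < e) : ∃ C : ℝ, 0 ≤ C ∧
    ∀ (v : EE n → ℝ) (P : Prof) (om m : EE n → ℝ) (ε lam : ℝ), Sol v → Wt lam om → 0 < ε → ε ≤ 1 →
      NW M v m → I2 yy m e ε v P om ≤ δ * AA yy m e ε v P om + C * RR β e ε v P om := by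
  obtain ⟨K', hK', Ha⟩ := hK.adm hK0
  obtain ⟨Cc, hCc, Hc⟩ := grad_cut_bd n e
  set C := M / δ ^ 2 + 2 * Cc ^ 2 * (K' ^ 3 + 1) * M with hC
  refine ⟨C, by positivity, fun v P om m ε lam hs hw hε hε1 hm => ?_⟩
  have hY := hK.Y_pos hs hε
  have key : I2 yy m e ε v P om ≤ δ * AA yy m e ε v P om + M / δ ^ 2 * LAM v P om +
      2 * Cc ^ 2 * (K' ^ 3 + 1) * M * BAD β v P om e := by
    rw [BAD_eq hs]
    refine int_le3 (hK.int_I2 hs P hw hε hm) (hK.int_AA hs P hw hε hm) (integ_LAM hs P hw)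
      (integ_bad hs hβ0 P hw e) fun x => ?_
    have ho := hw.pos x
    have hm0 := hm.nonneg x
    have n0 : 0 ≤ P.F (yy v x + ε) / (yy v x + ε) := (div_pos (P.pos _ (hY x)) (hY x)).le
    have c1 := mul_le_mul_of_nonneg_left (mul_le_mul_of_nonneg_right (gsq_gg (e := e) hs hw x) hm0) n0
    have c2 := mul_le_mul_of_nonneg_right
      (P.young (hY x) (sq_nonneg (‖∇ om x‖ / om x)) hδ hδ1)
      (mul_nonneg (sq_nonneg (gg e v om x)) hm0)
    have c3 : gg e v om x ^ 2 * m x ≤ om x * (M * psi v x ^ 2) :=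
      mul_le_mul (gg_sq_le hw x) (hm.le_pow hs x (by norm_num)) hm0 ho.le
    have c4 := mul_le_mul_of_nonneg_left c3
      (div_nonneg (P.nonneg (sq_nonneg (‖∇ om x‖ / om x))) (sq_nonneg δ))
    have c5 : P.F (yy v x + ε) / (yy v x + ε) * (2 * ‖∇ (cut e v) x‖ ^ 2 * om x * m x) ≤
        2 * Cc ^ 2 * (K' ^ 3 + 1) * M * bad β v P om e x := by
      rcases lt_or_ge (tt v x) e with hte | hte
      · rw [grad_cut_of_lt hs he hte]
        have := bad_nonneg (β := β) hs P hw e x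
        simp only [norm_zero, ne_eq, OfNat.ofNat_ne_zero, not_false_eq_true, zero_pow, mul_zero,
          zero_mul]
        positivity
      · rw [bad_of_le hte]
        have d1 := P.young1 (hY x) zero_le_one
        have d2 := P.le_of_le_mul hK' (hY x).le zero_le_one
          (by rw [mul_one]; exact (Ha v ε hs hε hε1 x).1)
        have d3 : P.F (yy v x + ε) / (yy v x + ε) ≤ (K' ^ 3 + 1) * P.F 1 := by linarith
        have d4 := hm.mul_F hs hβ0 hβ1 P x zero_le_one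
        rw [mul_one] at d4
        have d5 := pow_le_pow_left₀ (norm_nonneg _) (Hc v hs x) 2
        have d6 := P.pos 1 one_pos
        calc _ ≤ (K' ^ 3 + 1) * P.F 1 * (2 * Cc ^ 2 * om x * m x) := by gcongr
          _ = 2 * Cc ^ 2 * (K' ^ 3 + 1) * om x * (P.F 1 * m x) := by ring
          _ ≤ 2 * Cc ^ 2 * (K' ^ 3 + 1) * om x * (M * P.F (pb β v x)) := by gcongr
          _ = _ := by ring
    have e1 : P.F ((‖∇ om x‖ / om x) ^ 2) / δ ^ 2 * (om x * (M * psi v x ^ 2)) =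
        M / δ ^ 2 * (P.F ((‖∇ om x‖ / om x) ^ 2) * (psi v x ^ 2 * om x)) := by ring
    linarith
  obtain ⟨r1, r2, r3⟩ := RR_ge (β := β) (e := e) hs P hw hε
  have p1 : 0 ≤ M / δ ^ 2 * (BAD β v P om e + P.F ε * MU v om) := by positivity
  have p2 : 0 ≤ 2 * Cc ^ 2 * (K' ^ 3 + 1) * M * (LAM v P om + P.F ε * MU v om) := by positivity
  rw [RR, hC]
  linarith

end

end Crest.Agent.N067.Y
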