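import Crest.Agent.N067.Y.X5b

/-!
# Row 67, block X5 (helper54): the mean curvature error is small
-/

set_option autoImplicit false

open MeasureTheory Laplacian InnerProductSpace Topology Filter Set
open scoped RealInnerProductSpace Gradient ContDiff

namespace Crest.Agent.N067.Y

open Crest.Agent.R077

noncomputable section

variable {n : ℕ} {yy HH : Fam n} {K θ eK CK : ℝ}

theorem Prof.F_le_W_mul (P : Prof) {Y s : ℝ} (hY : 0 < Y) (hs : 0 ≤ s) :
    P.F s ≤ P.W Y * (s ^ 2 / Y) * (Y + s) := by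
  have hW := P.W_pos hY
  rcases hs.eq_or_lt with h | h
  · simp [← h, P.zero]
  have e : P.W Y * (s ^ 2 / Y) * (Y + s) = P.W Y * s ^ 2 + s / Y * P.W Y * s ^ 2 := by field_simp
  rw [e, ← P.W_mul h]
  rcases le_total s Y with h1 | h1
  · have := mul_le_mul_of_nonneg_right (P.W_mono h h1) (sq_nonneg s)
    have : 0 ≤ s / Y * P.W Y * s ^ 2 := by positivity
    linarith
  · have := mul_le_mul_of_nonneg_right (P.W_le_of_le_mul ((one_le_div hY).2 h1) h hY
      (div_mul_cancel₀ s hY.ne').ge) (sq_nonneg s)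
    have : 0 ≤ P.W Y * s ^ 2 := by positivity
    linarith

theorem lt_of_gg {v om : EE n → ℝ} {e : ℝ} {x : EE n} (he : 0 < e) (h : gg e v om x ≠ 0) :
    tt v x < 2 * e := not_le.1 fun h' => h (gg_zero he h')

theorem os_nonneg (v : EE n → ℝ) (x : EE n) : 0 ≤ os v x :=
  Finset.sum_nonneg fun _ _ => Finset.sum_nonneg fun _ _ => add_nonneg (sq_nonneg _) (gsq_nonneg _ _)

theorem integ_O {v om : EE n → ℝ} {lam β : ℝ} (hv : Pos v) (hβ0 : 0 ≤ β) (P : Prof)
    (hw : Wt lam om) : Integrable fun x => P.F (pb β v x * tt v x) / tt v x ^ 2 * os v x * om x := by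
  have hs := hv.toSol
  obtain ⟨C, hC0, hC⟩ := (Ord.os4 (n := n)).bd0
  have h1 : ∀ x, 0 < pb β v x * tt v x := fun x => mul_pos (pb_pos hs β x) (hv.tpos x)
  refine hw.integ (((P.cont ((pb_cont hs β).mul hs.continuous_tt) fun x => (h1 x).le).div
    (hs.continuous_tt.pow 2) fun x => pow_ne_zero 2 (hv.tpos x).ne').mul (Ord.os4.cont hs))
    (M := P.W 1 * C) fun x => ?_
  have h2 : P.F (pb β v x * tt v x) / tt v x ^ 2 ≤ P.W 1 :=
    (div_le_div_of_nonneg_right (P.mono (h1 x).le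
      (mul_le_of_le_one_left (hv.tpos x).le (pb_le_one hs hβ0 x))) (sq_nonneg _)).trans
      (P.W_mono (hv.tpos x) (tt_le_one v x))
  rw [abs_mul, abs_of_nonneg (div_nonneg (P.pos _ (h1 x)).le (sq_nonneg _))]
  exact mul_le_mul h2 (hC v hs x) (abs_nonneg _) (P.W_pos one_pos).le

theorem i1a (hK : SKData yy HH K θ eK CK) (hK0 : 0 ≤ K) {β : ℝ} (hβ0 : 0 ≤ β) (hβ1 : β < 1) :
    ∃ c : ℝ, 0 < c ∧ ∀ (v : EE n → ℝ) (P : Prof) (om m : EE n → ℝ) (e ε lam M : ℝ), Pos v →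
      Wt lam om → 0 < e → e ≤ 1 / 8 → 0 < ε → ε ≤ 1 → NW M v m → I1 yy HH m e ε v P om ≤
        c * M * (∫ x, P.F (pb β v x * tt v x) / tt v x ^ 2 * os v x * om x) +
          c * M * e * TT β v P om + c * M * P.F ε * MU v om := by
  obtain ⟨Ky, hKy, Hy⟩ := hK.yy_le
  obtain ⟨Ko, hKo, Ho⟩ := (Ord.os4 (n := n)).bd4
  refine ⟨(Ky + 1) * (K * Ko + K + 1), by positivity, fun v P om m e ε lam M hv hw he he8 hε hε1 hm => ?_⟩
  have hs := hv.toSol
  have hM := hm.M_nonneg hs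
  refine int_le3 (hK.int_I1 hs P hw hε hm) (integ_O hv hβ0 P hw) (integ_TT hs hβ0 P hw)
    (integ_MU hs hw) fun x => ?_
  have ht := hv.tpos x
  have ho := hw.pos x
  have hF := P.pos _ (mul_pos (pb_pos hs β x) ht)
  have hE := P.pos _ hε
  have hos := os_nonneg v x
  have hY := hK.Y_pos hs hε x
  have hm0 := hm.nonneg x
  have hKK : 0 ≤ K * Ko := by positivity
  have n1 : 0 ≤ (Ky + 1) * (K * Ko + K + 1) * M *
    (P.F (pb β v x * tt v x) / tt v x ^ 2 * os v x * om x) := by positivity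
  have n2 : 0 ≤ (Ky + 1) * (K * Ko + K + 1) * M * e * (P.F (pb β v x * tt v x) * om x) := by
    positivity
  have n3 : 0 ≤ (Ky + 1) * (K * Ko + K + 1) * M * P.F ε * (psi v x ^ 2 * om x) := by positivity
  by_cases hg : gg e v om x = 0
  · rw [hg]
    simp only [ne_eq, OfNat.ofNat_ne_zero, not_false_eq_true, zero_pow, zero_mul, mul_zero]
    linarith
  have hte := lt_of_gg he hg
  have c1 := hK.dH v hs x (by linarith)
  have c0 := tg_nonneg v (HH v) x
  have c2 := gg_sq_le (e := e) (v := v) hw x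
  have hW := P.W_pos hY
  rcases le_total ε (tt v x) with h | h
  · have d1 : P.W (yy v x + ε) ≤ (Ky + 1) * P.W (tt v x) :=
      P.W_le_of_le_mul (by linarith) hY ht (by linarith [Hy v hs x])
    have d2 : P.W (tt v x) * m x ≤ M * (P.F (pb β v x * tt v x) / tt v x ^ 2) := by
      rw [Prof.W, div_mul_eq_mul_div, ← mul_div_assoc]
      exact div_le_div_of_nonneg_right (hm.mul_F hs hβ0 hβ1 P x ht.le) (sq_nonneg _)
    have d3 : tt v x ^ 4 ≤ e * tt v x ^ 2 := by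
      have : tt v x ^ 2 ≤ e := by nlinarith
      nlinarith [mul_le_mul_of_nonneg_right this (sq_nonneg (tt v x))]
    have hWt := P.W_pos ht
    calc _ ≤ (Ky + 1) * P.W (tt v x) * (K * os v x + e * tt v x ^ 2) * (om x * m x) := by gcongr
      _ = (Ky + 1) * (K * os v x + e * tt v x ^ 2) * om x * (P.W (tt v x) * m x) := by ring
      _ ≤ (Ky + 1) * (K * os v x + e * tt v x ^ 2) * om x *
          (M * (P.F (pb β v x * tt v x) / tt v x ^ 2)) := by gcongr
      _ = (Ky + 1) * K * M * (P.F (pb β v x * tt v x) / tt v x ^ 2 * os v x * om x) +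
          (Ky + 1) * 1 * M * e * (P.F (pb β v x * tt v x) * om x) := by field_simp
      _ ≤ (Ky + 1) * (K * Ko + K + 1) * M * (P.F (pb β v x * tt v x) / tt v x ^ 2 * os v x * om x) +
          (Ky + 1) * (K * Ko + K + 1) * M * e * (P.F (pb β v x * tt v x) * om x) := by
        gcongr <;> linarith
      _ ≤ _ := by linarith
  · have d1 : P.W (yy v x + ε) ≤ (Ky + 1) * P.W ε :=
      P.W_le_of_le_mul (by linarith) hY hε (by nlinarith [Hy v hs x])
    have d0 : tt v x ^ 2 ≤ ε ^ 2 := pow_le_pow_left₀ ht.le h 2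
    have d2 : os v x ≤ Ko * ε ^ 2 :=
      ((le_abs_self _).trans (Ho v hs x)).trans (mul_le_mul_of_nonneg_left d0 hKo)
    have d3 : tt v x ^ 4 ≤ ε ^ 2 :=
      (pow_le_pow_of_le_one ht.le (tt_le_one v x) (by norm_num)).trans d0
    have d4 : tg v (HH v) x ≤ K * (Ko * ε ^ 2) := c1.trans (mul_le_mul_of_nonneg_left d2 hK0)
    have d5 := hm.le_pow hs x (k := 2) (by norm_num)
    have hWt := P.W_pos hε
    calc _ ≤ (Ky + 1) * P.W ε * (K * (Ko * ε ^ 2) + ε ^ 2) * (om x * (M * psi v x ^ 2)) := by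
          gcongr
      _ = (Ky + 1) * (K * Ko + 1) * M * (P.W ε * ε ^ 2) * (psi v x ^ 2 * om x) := by ring
      _ ≤ (Ky + 1) * (K * Ko + K + 1) * M * P.F ε * (psi v x ^ 2 * om x) := by
        rw [P.W_mul hε]; gcongr; linarith
      _ ≤ _ := by linarith

theorem yb_alg {S T K t s ε : ℝ} (hK : 0 ≤ K) (ht : 0 < t) (hs : 0 ≤ s) (hε : 0 < ε)
    (c1 : S ≤ 2 * T + K * t ^ 4) (hT : T = 4 * s ^ 2) :
    √(S + ε ^ 2) ≤ 3 * s + (K + 1) * t ^ 2 + ε := by
  refine Real.sqrt_le_iff.2 ⟨by positivity, ?_⟩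
  have a1 : 0 ≤ s * ((K + 1) * t ^ 2) := by positivity
  have a2 : 0 ≤ s * ε := by positivity
  have a3 : 0 ≤ (K + 1) * t ^ 2 * ε := by positivity
  have a4 : K ≤ (K + 1) ^ 2 := by nlinarith
  have a5 := mul_le_mul_of_nonneg_right a4 (pow_pos ht 4).le
  have a6 := sq_nonneg s
  linarith

theorem s_alg {T K t s : ℝ} (hK : 0 ≤ K) (ht : 0 < t) (c1 : T ≤ K * t ^ 2) (hT : T = 4 * s ^ 2) :
    s ≤ (K + 1) * t := by
  refine (le_abs_self s).trans (abs_le_of_sq_le_sq ?_ (by positivity))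
  have a2 : K ≤ (K + 1) ^ 2 := by nlinarith
  have a3 := mul_le_mul_of_nonneg_right a2 (sq_nonneg t)
  have a4 := sq_nonneg s
  linarith

theorem sq_le_e {t e : ℝ} (ht : 0 < t) (h : t < 2 * e) (h8 : e ≤ 1 / 8) : t ^ 2 ≤ e := by nlinarith

theorem i1b (hY : YBStmt n) (hK : SKData yy HH K θ eK CK) (hK0 : 0 ≤ K) {β : ℝ} (hβ0 : 0 ≤ β)
    (hβ1 : β < 1) : ∃ c : ℝ, 0 < c ∧ ∀ (v : EE n → ℝ) (P : Prof) (om m : EE n → ℝ) (e ε lam M : ℝ),
      Pos v → Wt lam om → 0 < e → e ≤ 1 / 8 → 0 < ε → ε ≤ e → NW M v m →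
      ∫ x, P.F (yb v ε x) * (gg e v om x ^ 2 * m x) ≤ c * e * DD yy m e ε v P om +
        c * M * e * TT β v P om + c * M * P.F ε * MU v om := by
  obtain ⟨Ky, hKy, Hy⟩ := hK.yy_le
  obtain ⟨Kb, hKb, Hb⟩ := hY
  obtain ⟨Kg, hKg, Hg⟩ := hK.o2.tg.bd4
  set c := 64 * (27 * (2 * Ky + 2 * Kg + 3) + (K + 1) ^ 3) with hc
  have hc1 : 64 * (27 * (2 * Ky + 2 * Kg + 3)) ≤ c := by
    have : 0 ≤ (K + 1) ^ 3 := by positivity
    linarith
  have hc2 : 64 * (K + 1) ^ 3 ≤ c := by linarith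
  have hc3 : 64 ≤ c := by linarith
  clear_value c
  refine ⟨c, by linarith, fun v P om m e ε lam M hv hw he he8 hε hεe hm => ?_⟩
  have hs := hv.toSol
  have hM := hm.M_nonneg hs
  obtain ⟨b1, b2⟩ := Hb v ε hv hε
  refine int_le3 (integ_mul (integ_gg_sq hs hw) (P.cont b1.continuous fun x => (b2 x).1.le) hm.cont
    (a := P.F (Kb * 2)) (fun x => ?_) (hm.abs_le hs)) (hK.int_DD hs P hw hε hm)
    (integ_TT hs hβ0 P hw) (integ_MU hs hw) fun x => ?_
  · rw [abs_of_pos (P.pos _ (b2 x).1)]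
    exact P.mono (b2 x).1.le ((b2 x).2.1.trans (mul_le_mul_of_nonneg_left
      (by linarith [tt_le_one v x]) (by linarith)))
  have ht := hv.tpos x
  have ho := hw.pos x
  have hF := P.pos _ (mul_pos (pb_pos hs β x) ht)
  have hE := P.pos _ hε
  have hYp := hK.Y_pos hs hε x
  have hm0 := hm.nonneg x
  have hc0 : 0 ≤ c := by linarith
  have hD := hK.DD_ge hs P hε x
  by_cases hg : gg e v om x = 0
  · rw [hg]
    simp only [ne_eq, OfNat.ofNat_ne_zero, not_false_eq_true, zero_pow, zero_mul, mul_zero]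
    positivity
  have hte := lt_of_gg he hg
  have c1 := hK.cmp' v hs x (by linarith)
  have c0 := tg_nonneg v (yy v) x
  have c2 := gg_sq_le (e := e) (v := v) hw x
  obtain ⟨s, hs0, hss⟩ : ∃ s, 0 ≤ s ∧ tg v (yy v) x = 4 * s ^ 2 :=
    ⟨√(tg v (yy v) x) / 2, by positivity, by rw [div_pow, Real.sq_sqrt c0]; ring⟩
  have d1 : yb v ε x ≤ 3 * s + (K + 1) * tt v x ^ 2 + ε := yb_alg hK0 ht hs0 hε c1 hss
  have d2 : s ≤ (Kg + 1) * tt v x := s_alg hKg ht ((le_abs_self _).trans (Hg v hs x)) hss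
  have d3 : yy v x + ε + s ≤ (2 * Ky + 2 * Kg + 3) * e := by
    have a1 := mul_le_mul_of_nonneg_left hte.le (show 0 ≤ Ky + Kg + 1 by positivity)
    linarith [Hy v hs x]
  have d4 : P.F s ≤ (2 * Ky + 2 * Kg + 3) * e * (P.p (yy v x + ε) ^ 2 * P.W (yy v x + ε) *
      (tg v (yy v) x / (4 * (yy v x + ε)))) := by
    have hW := P.W_pos hYp
    have a1 : 1 ≤ P.p (yy v x + ε) ^ 2 := one_le_pow₀ (P.one_le_p hYp)
    refine (P.F_le_W_mul hYp hs0).trans ?_
    rw [hss, mul_div_mul_left _ _ four_ne_zero, mul_comm ((2 * Ky + 2 * Kg + 3) * e)]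
    gcongr
    exact le_mul_of_one_le_left hW.le a1
  have d5 := P.le_of_le_mul (K := 3) (a := 3 * s) (by norm_num) (by positivity) hs0 le_rfl
  have d6 := P.le_of_le_small (K := K + 1) (s := tt v x) (a := (K + 1) * tt v x ^ 2) (b := tt v x)
    (by linarith) ht.le (tt_le_one v x) (by positivity) ht.le (by rw [pow_two])
  have d7 := sq_le_e ht hte he8
  have hFt := P.pos _ ht
  have d8 : P.F ((K + 1) * tt v x ^ 2) ≤ (K + 1) ^ 3 * e * P.F (tt v x) :=
    d6.trans (by gcongr)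
  have d9 := (P.mono (b2 x).1.le d1).trans (P.add3_le (by positivity) (by positivity) hε.le)
  set D := P.p (yy v x + ε) ^ 2 * P.W (yy v x + ε) * (tg v (yy v) x / (4 * (yy v x + ε)))
  have f1 : P.F (yb v ε x) ≤ c * e * D + c * e * P.F (tt v x) + c * P.F ε := by
    have a1 := mul_le_mul_of_nonneg_right hc1 (mul_nonneg he.le hD)
    have a2 := mul_le_mul_of_nonneg_right hc2 (mul_pos he hFt).le
    have a3 := mul_le_mul_of_nonneg_right hc3 hE.le
    linarith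
  have f2 := mul_le_mul_of_nonneg_right f1 (mul_nonneg (sq_nonneg (gg e v om x)) hm0)
  have f3 : P.F (tt v x) * (gg e v om x ^ 2 * m x) ≤ M * (P.F (pb β v x * tt v x) * om x) := by
    calc _ ≤ P.F (tt v x) * (om x * m x) := by gcongr
      _ = P.F (tt v x) * m x * om x := by ring
      _ ≤ M * P.F (pb β v x * tt v x) * om x :=
        mul_le_mul_of_nonneg_right (hm.mul_F hs hβ0 hβ1 P x ht.le) ho.le
      _ = _ := by ring
  have f4 : gg e v om x ^ 2 * m x ≤ om x * (M * psi v x ^ 2) :=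
    mul_le_mul c2 (hm.le_pow hs x (by norm_num)) hm0 ho.le
  have f5 := mul_le_mul_of_nonneg_left f3 (mul_nonneg hc0 he.le)
  have f6 := mul_le_mul_of_nonneg_left f4 (mul_nonneg hc0 hE.le)
  linarith

/-- the mean curvature error is small -/
theorem i1 (h2 : NP2Stmt n) (hY : YBStmt n) (hO : OMStmt n) (hK : SKData yy HH K θ eK CK)
    (hK0 : 0 ≤ K) {β h δ : ℝ} (hβ0 : 0 ≤ β) (hβ1 : β < 1) (hh : 0 < h) (h8 : h ≤ 1 / 8)
    (hδ : 0 < δ) : ∃ e1 lam : ℝ, 0 < e1 ∧ 0 < lam ∧ ∀ e, 0 < e → e ≤ e1 → ∃ C : ℝ, 0 ≤ C ∧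
      ∀ (v : EE n → ℝ) (P : Prof) (om : EE n → ℝ) (ε : ℝ), Pos v → Wt lam om → 0 < ε → ε ≤ e →
        I1 yy HH (fun x => mh h (dd v x)) e ε v P om ≤
          δ * DD yy (fun x => mh h (dd v x)) e ε v P om + δ * TT β v P om +
            C * RR β e ε v P om := by
  obtain ⟨ca, hca, Ha⟩ := i1a hK hK0 hβ0 hβ1
  obtain ⟨cb, hcb, Hb⟩ := i1b hY hK hK0 hβ0 hβ1
  obtain ⟨Kb, hKb, HY⟩ := hY
  obtain ⟨M, hM⟩ : ∃ M, M = 16 / h := ⟨_, rfl⟩
  have hM1 : 1 ≤ M := by rw [hM, le_div_iff₀ hh]; linarith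
  have hM0 : 0 < M := by linarith
  obtain ⟨C0, eO, lO, hC0, heO, hlO, HO⟩ := hO β (δ / (4 * (ca * M))) hβ0 hβ1 (by positivity)
  obtain ⟨eb, lb, heb, hlb, H2⟩ := np2_mh h2 (K := Kb) (δ := δ / (4 * (ca * M * (C0 + 1))))
    hβ0 hβ1 hh h8 (by positivity)
  refine ⟨min (min eO eb) (min (1 / 8) (δ / (4 * (ca * M * (1 + C0 * (cb * M)))))), min lO lb,
    by positivity, by positivity, fun e he hee => ?_⟩
  simp only [le_min_iff] at hee
  obtain ⟨CO, hCO, HO⟩ := HO e he hee.1.1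
  obtain ⟨Cb, hCb, H2⟩ := H2 e he hee.1.2
  refine ⟨ca * M * (1 + CO + C0 * (Cb + cb * M)), by positivity, fun v P om ε hv hw hε hεe => ?_⟩
  have hs := hv.toSol
  have hε1 : ε ≤ 1 := by linarith [hee.2.1]
  have hm := nw_mh hs hh h8
  rw [← hM] at hm
  have k1 := Ha v P om _ e ε _ M hv hw he hee.2.1 hε hε1 hm
  have k2 := HO v P om ε hv (hw.mono (min_le_left _ _)) hε hε1
  obtain ⟨b1, b2⟩ := HY v ε hv hε
  have k3 := H2 v P om (yb v ε) ε hv (hw.mono (min_le_right _ _)) b1 hε hε1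
    (fun x => ⟨(b2 x).1, (b2 x).2.1⟩) fun x _ => (b2 x).2.2.1
  have k4 := Hb v P om _ e ε _ M hv hw he hee.2.1 hε hεe hm
  obtain ⟨r1, r2, r3⟩ := RR_ge (β := β) (e := e) hs P hw hε
  have hT := TT_nonneg (β := β) hs P hw
  have hD := hK.DD_nonneg (e := e) (om := om) hs P hε hm
  have q1 : ca * M * (δ / (4 * (ca * M))) = δ / 4 := by field_simp
  have q2 : ca * M * C0 * (δ / (4 * (ca * M * (C0 + 1)))) ≤ δ / 4 := by
    rw [← mul_div_assoc, div_le_div_iff₀ (by positivity) (by positivity)]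
    have : 0 ≤ δ * (ca * M) := by positivity
    linarith
  have q3 : ca * M * (1 + C0 * (cb * M)) * e ≤ δ / 4 := by
    have := (le_div_iff₀ (by positivity)).1 hee.2.2
    linarith
  have q4 : ca * M * C0 * cb * e ≤ δ := by
    have a1 : 0 ≤ ca * M * e := by positivity
    have a2 := mul_le_mul_of_nonneg_left hM1 (show 0 ≤ ca * M * C0 * cb * e by positivity)
    linarith
  rw [RR]
  rw [mul_assoc (ca * M) (P.F ε)] at k1
  rw [mul_assoc (cb * M) (P.F ε)] at k4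
  generalize P.F ε * MU v om = E at *
  generalize δ / (4 * (ca * M)) = δ1 at *
  generalize δ / (4 * (ca * M * (C0 + 1))) = δ2 at *
  have k5 := mul_le_mul_of_nonneg_left k2 (show 0 ≤ ca * M by positivity)
  have k6 := mul_le_mul_of_nonneg_left k3 (show 0 ≤ ca * M * C0 by positivity)
  have k7 := mul_le_mul_of_nonneg_left k4 (show 0 ≤ ca * M * C0 by positivity)
  have m1 := congrArg (· * TT β v P om) q1
  have m2 := mul_le_mul_of_nonneg_right q2 hT
  have m3 := mul_le_mul_of_nonneg_right q3 hT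
  have m4 := mul_le_mul_of_nonneg_right q4 hD
  have p0 : 0 ≤ δ * TT β v P om := by positivity
  have p1 : 0 ≤ ca * M * (BAD β v P om e + LAM v P om) := by positivity
  have p2 : 0 ≤ ca * M * CO * (LAM v P om + E) := by positivity
  have p3 : 0 ≤ ca * M * C0 * Cb * LAM v P om := by positivity
  have p4 : 0 ≤ ca * M * C0 * (cb * M) * (BAD β v P om e + LAM v P om) := by positivity
  linarith

end

end Crest.Agent.N067.Y
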