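import Crest.Agent.N067.Y.X5c

/-!
# Row 67, block X5 (helper54): the stability inequality for the SSY test function
-/

set_option autoImplicit false

open MeasureTheory Laplacian InnerProductSpace Topology Filter Set
open scoped RealInnerProductSpace Gradient ContDiff

namespace Crest.Agent.N067.Y

open Crest.Agent.R077

noncomputable section

variable {n : ℕ} {yy HH : Fam n} {K θ eK CK : ℝ}

/-- `f(a) = √(F(a²) / a²)` as a function of `a²` -/
def Prof.f (P : Prof) (y : ℝ) : ℝ := √(P.F y / y)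

theorem Prof.f_sq (P : Prof) {y : ℝ} (hy : 0 < y) : P.f y ^ 2 = P.F y / y :=
  Real.sq_sqrt (div_pos (P.pos y hy) hy).le

theorem Prof.hd_f (P : Prof) {y : ℝ} (hy : 0 < y) :
    HasDerivAt P.f (P.f y * P.p y / (2 * y)) y := by
  have h0 := div_pos (P.pos y hy) hy
  have h := ((P.hd hy).div (hasDerivAt_id y) hy.ne').sqrt h0.ne'
  refine h.congr_deriv ?_
  have h1 : 0 < P.f y := Real.sqrt_pos.2 h0
  have h2 := P.f_sq hy
  change (deriv P.F y * y - P.F y * 1) / y ^ 2 / (2 * P.f y) = _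
  rw [P.deriv_eq hy, div_eq_div_iff (by positivity) (by positivity)]
  have h3 : P.F y = P.f y ^ 2 * y := by rw [h2]; field_simp
  rw [h3]
  field_simp
  ring

/-- the SSY test function -/
def zz (yy : Fam n) (e ε : ℝ) (v : EE n → ℝ) (P : Prof) (om : EE n → ℝ) (x : EE n) : ℝ :=
  P.f (yy v x + ε) * gg e v om x

section zz

variable {v om m : EE n → ℝ} {lam β e ε M : ℝ}

theorem SKData.f_cd (hK : SKData yy HH K θ eK CK) (hv : Sol v) (P : Prof) (hε : 0 < ε) :
    ContDiff ℝ 1 fun x => P.f (yy v x + ε) :=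
  ((P.cd_comp (hK.Y_cd hv ε) (hK.Y_pos hv hε)).div (hK.Y_cd hv ε)
    fun x => (hK.Y_pos hv hε x).ne').sqrt
    fun x => (div_pos (P.pos _ (hK.Y_pos hv hε x)) (hK.Y_pos hv hε x)).ne'

theorem SKData.zz_cd (hK : SKData yy HH K θ eK CK) (hv : Sol v) (P : Prof) (hw : Wt lam om)
    (hε : 0 < ε) : ContDiff ℝ 1 (zz yy e ε v P om) := (hK.f_cd hv P hε).mul (gg_cd hv hw)

theorem SKData.zz_sq (hK : SKData yy HH K θ eK CK) (hv : Sol v) (P : Prof) (hε : 0 < ε)
    (x : EE n) : zz yy e ε v P om x ^ 2 = P.F (yy v x + ε) / (yy v x + ε) * gg e v om x ^ 2 := by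
  rw [zz, mul_pow, P.f_sq (hK.Y_pos hv hε x)]

/-- the gradient of the test function -/
theorem SKData.pdv_zz (hK : SKData yy HH K θ eK CK) (hv : Sol v) (P : Prof) (hw : Wt lam om)
    (hε : 0 < ε) (x : EE n) : ∃ a b : ℝ,
      a ^ 2 = P.p (yy v x + ε) ^ 2 * P.W (yy v x + ε) / (4 * (yy v x + ε)) * gg e v om x ^ 2 ∧
      b ^ 2 = P.F (yy v x + ε) / (yy v x + ε) ∧
      ∀ i, pdv i (zz yy e ε v P om) x = a * pdv i (yy v) x + b * pdv i (gg e v om) x := by
  have hY := hK.Y_pos hv hε x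
  refine ⟨P.f (yy v x + ε) * P.p (yy v x + ε) / (2 * (yy v x + ε)) * gg e v om x,
    P.f (yy v x + ε), ?_, P.f_sq hY, fun i => ?_⟩
  · rw [mul_pow, div_pow, mul_pow, P.f_sq hY, Prof.W]
    field_simp
    ring
  · have h1 := pdv_comp (f := fun y => yy v y + ε) (P.hd_f hY)
      ((hK.Y_cd hv ε).differentiable (by simp) x) i
    have h2 := pdv_mul ((hK.f_cd hv P hε).differentiable (by simp) x)
      ((gg_cd (e := e) hv hw).differentiable (by simp) x) i
    rw [h1, pdv_add_const] at h2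
    refine h2.trans ?_
    ring

theorem sq_add_le {a b η : ℝ} (hη : 0 < η) :
    (a + b) ^ 2 ≤ (1 + η) * a ^ 2 + (1 + 1 / η) * b ^ 2 := by
  have h : 0 ≤ (η * a - b) ^ 2 / η := by positivity
  have e : (η * a - b) ^ 2 / η = η * a ^ 2 - 2 * a * b + 1 / η * b ^ 2 := by field_simp; ring
  linarith

theorem tg_comb {z f g : EE n → ℝ} {a b η : ℝ} {x : EE n} (hη : 0 < η)
    (h : ∀ i, pdv i z x = a * pdv i f x + b * pdv i g x) :
    tg v z x ≤ (1 + η) * (a ^ 2 * tg v f x) + (1 + 1 / η) * (b ^ 2 * tg v g x) := by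
  have key : 2 * tg v z x ≤ (1 + η) * a ^ 2 * (2 * tg v f x) + (1 + 1 / η) * b ^ 2 * (2 * tg v g x) := by
    simp only [tg_eq_wg, Finset.mul_sum, ← Finset.sum_add_distrib]
    refine Finset.sum_le_sum fun i _ => Finset.sum_le_sum fun j _ => ?_
    have e : wg v z i j x = a * wg v f i j x + b * wg v g i j x := by
      simp only [wg, h]; ring
    rw [e]
    have := sq_add_le (a := a * wg v f i j x) (b := b * wg v g i j x) hη
    linarith
  linarith

theorem gsq_comb {z f g : EE n → ℝ} {a b : ℝ} {x : EE n}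
    (h : ∀ i, pdv i z x = a * pdv i f x + b * pdv i g x) :
    gsq z x ≤ 2 * (a ^ 2 * gsq f x) + 2 * (b ^ 2 * gsq g x) := by
  simp only [gsq, Finset.mul_sum, ← Finset.sum_add_distrib, h]
  exact Finset.sum_le_sum fun i _ => by nlinarith [sq_nonneg (a * pdv i f x - b * pdv i g x)]

theorem gin_comb {u z f g : EE n → ℝ} {a b : ℝ} {x : EE n}
    (h : ∀ i, pdv i z x = a * pdv i f x + b * pdv i g x) :
    gin u z x = a * gin u f x + b * gin u g x := by
  simp only [gin, Finset.mul_sum, ← Finset.sum_add_distrib, h]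
  exact Finset.sum_congr rfl fun i _ => by ring

theorem nor_sq_le (hv : Sol v) (f : EE n → ℝ) (x : EE n) : gin (dd v) f x ^ 2 ≤ gsq f x :=
  (gin_sq_le _ _ x).trans (mul_le_of_le_one_left (gsq_nonneg f x) (hv.gsq_dd_le x))

theorem SKData.int_zz_sq (hK : SKData yy HH K θ eK CK) (hv : Sol v) (P : Prof) (hw : Wt lam om)
    (hε : 0 < ε) : Integrable fun x => zz yy e ε v P om x ^ 2 := by
  obtain ⟨B, hB⟩ := hK.Y_bd hv ε
  have hY := hK.Y_pos hv hε
  refine hw.integ' ((hK.zz_cd hv P hw hε).continuous.pow 2).aestronglyMeasurable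
    (M := P.W B * B) fun x => ?_
  have hB0 := (hY x).trans_le (hB x)
  rw [abs_of_nonneg (sq_nonneg _), hK.zz_sq hv P hε, P.div_eq (hY x)]
  exact mul_le_mul (mul_le_mul (P.W_mono (hY x) (hB x)) (hB x) (hY x).le (P.W_pos hB0).le)
    (gg_sq_le hw x) (sq_nonneg _) (mul_pos (P.W_pos hB0) hB0).le

theorem SKData.int_gsq_zz (hK : SKData yy HH K θ eK CK) (hv : Sol v) (P : Prof) (hw : Wt lam om)
    (hε : 0 < ε) : Integrable (gsq (zz yy e ε v P om)) := by
  obtain ⟨B, hB⟩ := hK.Y_bd hv ε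
  obtain ⟨C, hC0, hC⟩ := hK.o2.gsq.bd0
  obtain ⟨G, hG⟩ := gsq_gg_bd hv hw e
  have hY := hK.Y_pos hv hε
  refine hw.integ' (cont_gsq (hK.zz_cd hv P hw hε)).aestronglyMeasurable
    (M := 2 * ((3 / 2) ^ 2 * P.W B / (4 * ε) * C) + 2 * (P.W B * B * G)) fun x => ?_
  have hB0 := (hY x).trans_le (hB x)
  have hWB := P.W_pos hB0
  have hW := P.W_pos (hY x)
  have ho := hw.pos x
  obtain ⟨a, b, ha, hb, h⟩ := hK.pdv_zz (e := e) hv P hw hε x
  rw [abs_of_nonneg (gsq_nonneg _ _)]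
  refine (gsq_comb h).trans ?_
  have c1 : a ^ 2 ≤ (3 / 2) ^ 2 * P.W B / (4 * ε) * om x := by
    rw [ha]
    have := P.one_le_p (hY x)
    gcongr
    · exact P.p_le (hY x)
    · exact P.W_mono (hY x) (hB x)
    · linarith [hK.nonneg v hv x]
    · exact gg_sq_le hw x
  have c2 : b ^ 2 ≤ P.W B * B := by
    rw [hb, P.div_eq (hY x)]
    exact mul_le_mul (P.W_mono (hY x) (hB x)) (hB x) (hY x).le hWB.le
  have c3 := mul_le_mul c1 ((le_abs_self _).trans (hC v hv x)) (gsq_nonneg _ _) (by positivity)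
  have c4 := mul_le_mul c2 (hG x) (gsq_nonneg _ _) (by positivity)
  linarith

end zz

theorem aa_le (hK : SKData yy HH K θ eK CK) (hK0 : 0 ≤ K) {β : ℝ} (hβ0 : 0 ≤ β) (hβ1 : β < 1) :
    ∃ c : ℝ, 0 < c ∧ ∀ (v : EE n → ℝ) (P : Prof) (om : EE n → ℝ) (e ε lam : ℝ), Sol v →
      Wt lam om → 0 < ε → ε ≤ 1 → AA yy (fun x => psi v x ^ 8) e ε v P om ≤
        c * TT β v P om + c * P.F ε * MU v om := by
  obtain ⟨K', hK', Ha⟩ := hK.adm hK0
  refine ⟨8 * K' ^ 3, by positivity, fun v P om e ε lam hs hw hε hε1 => ?_⟩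
  refine int_le2 (hK.int_AA hs P hw hε (nw_psi hs)) (integ_TT hs hβ0 P hw) (integ_MU hs hw)
    fun x => ?_
  have ht := hs.tt_nonneg x
  have ho := hw.pos x
  have hψ := hs.psi_pos x
  have c1 := P.le_of_le_mul hK' (hK.Y_pos hs hε x).le (by positivity) (Ha v ε hs hε hε1 x).2.1
  have c2 := P.add_le ht hε.le
  have c3 := (nw_psi hs).mul_F hs hβ0 hβ1 P x ht
  have c4 := psi8_le hs x (k := 2) (by norm_num)
  have c5 := gg_sq_le (e := e) (v := v) hw x
  have hE := P.pos _ hε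
  have hFt := P.nonneg ht
  calc _ ≤ K' ^ 3 * (8 * (P.F (tt v x) + P.F ε)) * (om x * psi v x ^ 8) := by
        gcongr
        exact c1.trans (by gcongr)
    _ = 8 * K' ^ 3 * (P.F (tt v x) * psi v x ^ 8 * om x) +
        8 * K' ^ 3 * P.F ε * (psi v x ^ 8 * om x) := by ring
    _ ≤ _ := by gcongr; linarith

/-- the left side of ST -/
theorem s3a (hK : SKData yy HH K θ eK CK) (hK0 : 0 ≤ K) {β η : ℝ} (hβ0 : 0 ≤ β) (hβ1 : β < 1)
    (hη : 0 < η) (hη1 : η ≤ 1) : ∃ c : ℝ, 0 < c ∧ ∀ (v : EE n → ℝ) (P : Prof) (om m : EE n → ℝ)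
      (e ε lam M : ℝ), Pos v → Wt lam om → 0 < e → e ≤ 1 / 8 → 0 < ε → NW M v m →
      (1 - η) * AA yy m e ε v P om ≤ 1 * (∫ x, hsq (dd v) x * zz yy e ε v P om x ^ 2 * m x) +
        c * M * e * TT β v P om + c * M * P.F ε * MU v om := by
  obtain ⟨Kt, hKt, Ht⟩ := (Ord.hsq2 (n := n)).bd0
  refine ⟨8 * (K + 1) ^ 3 / η ^ 2, by positivity, fun v P om m e ε lam M hv hw he he8 hε hm => ?_⟩
  have hs := hv.toSol
  have hM := hm.M_nonneg hs
  rw [AA, ← integral_const_mul]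
  refine int_le3 ((hK.int_AA hs P hw hε hm).const_mul _) ?_ (integ_TT hs hβ0 P hw)
    (integ_MU hs hw) fun x => ?_
  · simp only [mul_assoc]
    exact integ_mul (hK.int_zz_sq hs P hw hε) hs.hsq_sm.continuous hm.cont (Ht v hs) (hm.abs_le hs)
  have ht := hv.tpos x
  have ho := hw.pos x
  have hF := P.pos _ (mul_pos (pb_pos hs β x) ht)
  have hE := P.pos _ hε
  have hY := hK.Y_pos hs hε x
  have hm0 := hm.nonneg x
  have hb := hsq_nonneg (dd v) x
  rw [hK.zz_sq hs P hε]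
  by_cases hg : gg e v om x = 0
  · rw [hg]
    simp only [ne_eq, OfNat.ofNat_ne_zero, not_false_eq_true, zero_pow, zero_mul, mul_zero]
    positivity
  have hte := lt_of_gg he hg
  have c1 := (abs_le.1 (hK.cmp v hs x (by linarith))).2
  have c2 := gg_sq_le (e := e) (v := v) hw x
  have c3 := P.young (s := K * tt v x ^ 2 + ε) hY (by positivity) hη hη1
  have c4 := P.add_le (a := K * tt v x ^ 2) (b := ε) (by positivity) hε.le
  have c5 := P.le_of_le_small (K := K + 1) (s := tt v x) (a := K * tt v x ^ 2) (b := tt v x)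
    (by linarith) ht.le (tt_le_one v x) (by positivity) ht.le (by nlinarith [sq_nonneg (tt v x)])
  have c6 := sq_le_e ht hte he8
  have hFt := P.pos _ ht
  have c7 : P.F (K * tt v x ^ 2) ≤ (K + 1) ^ 3 * e * P.F (tt v x) := c5.trans (by gcongr)
  have c8 : P.F ε ≤ (K + 1) ^ 3 * P.F ε :=
    le_mul_of_one_le_left hE.le (one_le_pow₀ (by linarith))
  have c9 : P.F (K * tt v x ^ 2 + ε) / η ^ 2 ≤
      8 * (K + 1) ^ 3 / η ^ 2 * (e * P.F (tt v x) + P.F ε) := by
    rw [div_mul_eq_mul_div]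
    exact div_le_div_of_nonneg_right (by linarith) (sq_nonneg η)
  have hq : 0 < P.F (yy v x + ε) / (yy v x + ε) := div_pos (P.pos _ hY) hY
  have d0 : P.F (yy v x + ε) = P.F (yy v x + ε) / (yy v x + ε) * (yy v x + ε) :=
    (div_mul_cancel₀ _ hY.ne').symm
  have d1 := mul_le_mul_of_nonneg_left
    (show yy v x + ε ≤ hsq (dd v) x + (K * tt v x ^ 2 + ε) by linarith) hq.le
  have hc : 0 ≤ 8 * (K + 1) ^ 3 / η ^ 2 := by positivity
  generalize 8 * (K + 1) ^ 3 / η ^ 2 = c at c9 hc ⊢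
  have d2 : (1 - η) * P.F (yy v x + ε) ≤ hsq (dd v) x * (P.F (yy v x + ε) / (yy v x + ε)) +
      c * (e * P.F (tt v x) + P.F ε) := by linarith
  have f2 := mul_le_mul_of_nonneg_right d2 (mul_nonneg (sq_nonneg (gg e v om x)) hm0)
  have f3 : P.F (tt v x) * (gg e v om x ^ 2 * m x) ≤ M * (P.F (pb β v x * tt v x) * om x) := by
    calc _ ≤ P.F (tt v x) * (om x * m x) := by gcongr
      _ = P.F (tt v x) * m x * om x := by ring
      _ ≤ M * P.F (pb β v x * tt v x) * om x :=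
        mul_le_mul_of_nonneg_right (hm.mul_F hs hβ0 hβ1 P x ht.le) ho.le
      _ = _ := by ring
  have f4 : gg e v om x ^ 2 * m x ≤ om x * (M * psi v x ^ 2) :=
    mul_le_mul c2 (hm.le_pow hs x (by norm_num)) hm0 ho.le
  have f5 := mul_le_mul_of_nonneg_left f3 (mul_nonneg hc he.le)
  have f6 := mul_le_mul_of_nonneg_left f4 (mul_nonneg hc hE.le)
  linarith

/-- the tangential gradient of the test function -/
theorem s3b (hK : SKData yy HH K θ eK CK) {η : ℝ} (hη : 0 < η) {v om m : EE n → ℝ} (P : Prof)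
    {e ε lam M : ℝ} (hs : Sol v) (hw : Wt lam om) (hε : 0 < ε) (hm : NW M v m) :
    ∫ x, tg v (zz yy e ε v P om) x * m x ≤
      (1 + η) * DD yy m e ε v P om + (1 + 1 / η) * I2 yy m e ε v P om := by
  refine int_le2 (Integrable.mul_bdd (c := M) ((hK.int_gsq_zz (e := e) hs P hw hε).mono'
    (cont_tg hs (hK.zz_cd hs P hw hε)).aestronglyMeasurable (ae_of_all _ fun x => ?_))
    hm.cont.aestronglyMeasurable (ae_of_all _ (hm.abs_le hs))) (hK.int_DD hs P hw hε hm)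
    (hK.int_I2 hs P hw hε hm) fun x => ?_
  · rw [Real.norm_eq_abs, abs_of_nonneg (tg_nonneg _ _ _)]
    exact tg_le v _ hs x
  obtain ⟨a, b, ha, hb, h⟩ := hK.pdv_zz (e := e) hs P hw hε x
  have c1 := tg_comb (v := v) hη h
  have c2 := mul_le_mul_of_nonneg_left (mul_le_mul_of_nonneg_left (tg_le v (gg e v om) hs x)
    (sq_nonneg b)) (show 0 ≤ 1 + 1 / η by positivity)
  have c3 := mul_le_mul_of_nonneg_right (c1.trans (add_le_add_right c2 _)) (hm.nonneg x)
  rw [ha, hb] at c3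
  refine c3.trans (le_of_eq ?_)
  ring

/-- the normal derivative of the test function -/
theorem s3c (hK : SKData yy HH K θ eK CK) {β : ℝ} (hβ0 : 0 ≤ β) (hβ1 : β < 1)
    {v om : EE n → ℝ} (P : Prof) {e ε lam : ℝ} (hs : Sol v) (hw : Wt lam om) (he : 0 < e)
    (he8 : e ≤ 1 / 8) (hε : 0 < ε) :
    ∫ x, psi v x ^ 8 * gin (dd v) (zz yy e ε v P om) x ^ 2 ≤
      2 * K ^ 2 * AA yy (fun x => psi v x ^ 8) e ε v P om + 2 * K ^ 2 * TT β v P om +
        2 * I2 yy (fun x => psi v x ^ 8) e ε v P om := by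
  have hm := nw_psi hs
  refine int_le3 (Integrable.bdd_mul (c := 1) ((hK.int_gsq_zz (e := e) hs P hw hε).mono'
    ((cont_gin (hs.dd_cd 1) (hK.zz_cd hs P hw hε)).pow 2).aestronglyMeasurable
    (ae_of_all _ fun x => ?_)) hm.cont.aestronglyMeasurable (ae_of_all _ (hm.abs_le hs)))
    (hK.int_AA hs P hw hε hm) (integ_TT hs hβ0 P hw) (hK.int_I2 hs P hw hε hm) fun x => ?_
  · rw [Real.norm_eq_abs, abs_of_nonneg (sq_nonneg _)]
    exact nor_sq_le hs _ x
  obtain ⟨a, b, ha, hb, h⟩ := hK.pdv_zz (e := e) hs P hw hε x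
  have hY := hK.Y_pos hs hε x
  have ht := hs.tt_nonneg x
  have hψ := hs.psi_pos x
  have ho := hw.pos x
  have hW := P.W_pos hY
  have c1 : a ^ 2 * gin (dd v) (yy v) x ^ 2 ≤
      K ^ 2 * ((P.F (yy v x + ε) + P.F (tt v x)) * gg e v om x ^ 2) := by
    rw [ha]
    by_cases hg : gg e v om x = 0
    · simp [hg]
    have d1 := hK.nor v hs x (by linarith [lt_of_gg he hg])
    have d2 : gin (dd v) (yy v) x ^ 2 ≤ K ^ 2 * ((yy v x + ε) * tt v x ^ 2) := by
      refine (sq_le_sq' (abs_le.1 d1).1 (abs_le.1 d1).2).trans ?_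
      rw [mul_pow, mul_pow, Real.sq_sqrt (hK.nonneg v hs x)]
      gcongr
      linarith
    have d3 : P.p (yy v x + ε) ^ 2 ≤ 4 := by nlinarith [P.one_le_p hY, P.p_le hY]
    calc _ ≤ 4 * P.W (yy v x + ε) / (4 * (yy v x + ε)) * gg e v om x ^ 2 *
          (K ^ 2 * ((yy v x + ε) * tt v x ^ 2)) := by gcongr
      _ = K ^ 2 * (P.W (yy v x + ε) * tt v x ^ 2 * gg e v om x ^ 2) := by field_simp
      _ ≤ _ := by gcongr; exact P.youngW1 hY ht
  have c2 := mul_le_mul_of_nonneg_left (nor_sq_le hs (gg e v om) x) (sq_nonneg b)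
  have c3 : gin (dd v) (zz yy e ε v P om) x ^ 2 ≤
      2 * (K ^ 2 * ((P.F (yy v x + ε) + P.F (tt v x)) * gg e v om x ^ 2)) +
        2 * (b ^ 2 * gsq (gg e v om) x) := by
    rw [gin_comb h]
    nlinarith [sq_nonneg (a * gin (dd v) (yy v) x - b * gin (dd v) (gg e v om) x)]
  have c4 := mul_le_mul_of_nonneg_left c3 (hm.nonneg x)
  have c5 : P.F (tt v x) * psi v x ^ 8 * gg e v om x ^ 2 ≤ P.F (pb β v x * tt v x) * om x :=
    mul_le_mul (by simpa using hm.mul_F hs hβ0 hβ1 P x ht) (gg_sq_le hw x) (sq_nonneg _)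
      (P.nonneg (mul_nonneg (pb_pos hs β x).le ht))
  have c6 := mul_le_mul_of_nonneg_left c5 (sq_nonneg K)
  rw [hb] at c4
  linarith

end

end Crest.Agent.N067.Y
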